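import Vale.Agent.P226.SmallCell

/-! A lower bound for the area of the triangle of three projected vectors of a balanced obtuse
configuration. -/

open Real Finset
open scoped RealInnerProductSpace

namespace Vale.Agent.P226

/-- The area form of three vectors with squared lengths `r` and negated inner products `p`. -/
def areaForm (r₁ r₂ r₃ p₁₂ p₁₃ p₂₃ : ℝ) : ℝ :=
  (r₁ + r₃ + 2 * p₁₃) * (r₂ + r₃ + 2 * p₂₃) - (r₃ + p₁₃ + p₂₃ - p₁₂) ^ 2

lemma areaForm_sorted {r₁ r₂ r₃ p₁₂ p₁₃ p₂₃ x y w : ℝ} (h12 : r₂ ≤ r₁) (h23 : r₃ ≤ r₂)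
    (hp12 : 0 ≤ p₁₂) (hp13 : 0 ≤ p₁₃) (hp23 : 0 ≤ p₂₃) (hr2 : p₁₂ ≤ r₂) (h13 : p₁₃ ≤ r₃)
    (h23' : p₂₃ ≤ r₃) (hw : 0 ≤ w) (hyw : w ≤ y) (_hxy : y ≤ x) (hx : x ≤ r₁) (hy : y ≤ r₂)
    (hwr : w ≤ r₃) :
    min (x * y + x * w + y * w) (x * w + 3 * (y * w)) ≤ areaForm r₁ r₂ r₃ p₁₂ p₁₃ p₂₃ := by
  have hr30 : 0 ≤ r₃ := hw.trans hwr
  have hr20 : 0 ≤ r₂ := hr30.trans h23
  have hr10 : 0 ≤ r₁ := hr20.trans h12
  have e1 : 0 ≤ p₁₃ * (2 * r₂ - p₁₃) := mul_nonneg hp13 (by linarith)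
  have e2 : 0 ≤ p₂₃ * (2 * r₁ - p₂₃) := mul_nonneg hp23 (by linarith)
  have e3 := mul_nonneg hp12 hp13
  have e4 := mul_nonneg hp12 hp23
  have e5 := mul_nonneg hp13 hp23
  have hQ : r₁ * r₂ + r₁ * r₃ + r₂ * r₃ + p₁₂ * (2 * r₃ - p₁₂) ≤
      areaForm r₁ r₂ r₃ p₁₂ p₁₃ p₂₃ := by
    unfold areaForm
    linarith
  rcases le_total p₁₂ (2 * r₃) with h | h
  · refine (min_le_left _ _).trans (le_trans ?_ hQ)
    have := mul_nonneg hp12 (sub_nonneg.2 h)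
    have := mul_le_mul hx hy (hw.trans hyw) hr10
    have := mul_le_mul hx hwr hw hr10
    have := mul_le_mul hy hwr hw hr20
    linarith
  · refine (min_le_right _ _).trans (le_trans ?_ hQ)
    have : 0 ≤ (r₂ - p₁₂) * (r₂ + p₁₂ - 2 * r₃) := mul_nonneg (by linarith) (by linarith)
    have := mul_le_mul hx hwr hw hr10
    have := mul_le_mul hy hwr hw hr20
    have : 0 ≤ r₂ * (r₁ - r₂) := mul_nonneg hr20 (by linarith)
    linarith

lemma areaForm_swap12 (r₁ r₂ r₃ p₁₂ p₁₃ p₂₃ : ℝ) :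
    areaForm r₂ r₁ r₃ p₁₂ p₂₃ p₁₃ = areaForm r₁ r₂ r₃ p₁₂ p₁₃ p₂₃ := by
  unfold areaForm; ring

lemma areaForm_swap23 (r₁ r₂ r₃ p₁₂ p₁₃ p₂₃ : ℝ) :
    areaForm r₁ r₃ r₂ p₁₃ p₁₂ p₂₃ = areaForm r₁ r₂ r₃ p₁₂ p₁₃ p₂₃ := by
  unfold areaForm; ring

lemma areaForm_ge {r₁ r₂ r₃ p₁₂ p₁₃ p₂₃ x y w : ℝ}
    (hp12 : 0 ≤ p₁₂) (hp13 : 0 ≤ p₁₃) (hp23 : 0 ≤ p₂₃) (hR1 : p₁₂ + p₁₃ ≤ r₁)
    (hR2 : p₁₂ + p₂₃ ≤ r₂) (hR3 : p₁₃ + p₂₃ ≤ r₃)
    (hw : 0 ≤ w) (hyw : w ≤ y) (hxy : y ≤ x) (hx : x ≤ r₁) (hy : y ≤ r₂) (hwr : w ≤ r₃) :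
    min (x * y + x * w + y * w) (x * w + 3 * (y * w)) ≤ areaForm r₁ r₂ r₃ p₁₂ p₁₃ p₂₃ := by
  rcases le_total r₂ r₁ with a | a <;> rcases le_total r₃ r₁ with b | b <;>
    rcases le_total r₃ r₂ with c | c
  · exact areaForm_sorted a c hp12 hp13 hp23 (by linarith) (by linarith) (by linarith) hw hyw hxy
      hx hy hwr
  · rw [← areaForm_swap23]
    exact areaForm_sorted b c hp13 hp12 hp23 (by linarith) (by linarith) (by linarith) hw hyw hxy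
      hx (by linarith) (by linarith)
  · rw [← areaForm_swap23, ← areaForm_swap12]
    exact areaForm_sorted b a hp13 hp23 hp12 (by linarith) (by linarith) (by linarith) hw hyw hxy
      (by linarith) (by linarith) (by linarith)
  · rw [← areaForm_swap23, ← areaForm_swap12]
    exact areaForm_sorted b a hp13 hp23 hp12 (by linarith) (by linarith) (by linarith) hw hyw hxy
      (by linarith) (by linarith) (by linarith)
  · rw [← areaForm_swap12]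
    exact areaForm_sorted a b hp12 hp23 hp13 (by linarith) (by linarith) (by linarith) hw hyw hxy
      (by linarith) (by linarith) (by linarith)
  · rw [← areaForm_swap12]
    exact areaForm_sorted a b hp12 hp23 hp13 (by linarith) (by linarith) (by linarith) hw hyw hxy
      (by linarith) (by linarith) (by linarith)
  · rw [← areaForm_swap12, ← areaForm_swap23]
    exact areaForm_sorted c b hp23 hp12 hp13 (by linarith) (by linarith) (by linarith) hw hyw hxy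
      (by linarith) (by linarith) (by linarith)
  · rw [← areaForm_swap12, ← areaForm_swap23, ← areaForm_swap12]
    exact areaForm_sorted c a hp23 hp13 hp12 (by linarith) (by linarith) (by linarith) hw hyw hxy
      (by linarith) (by linarith) (by linarith)

variable {d : ℕ} {ι : Type*}

lemma inner_perp_perp {u : EuclideanSpace ℝ (Fin d)} (hu : u ≠ 0)
    (v w : EuclideanSpace ℝ (Fin d)) :
    ⟪perp u v, perp u w⟫ = ⟪v, w⟫ - ⟪u, v⟫ * ⟪u, w⟫ / ‖u‖ ^ 2 := by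
  have : ‖u‖ ^ 2 ≠ 0 := by simp [hu]
  simp only [perp, inner_sub_left, inner_sub_right, real_inner_smul_left, inner_smul_right,
    real_inner_self_eq_norm_sq, real_inner_comm u v]
  field_simp
  ring

lemma gramDet_sub_eq (R₁ R₂ R₃ : EuclideanSpace ℝ (Fin d)) :
    gramDet (R₁ - R₃) (R₂ - R₃) =
      areaForm (‖R₁‖ ^ 2) (‖R₂‖ ^ 2) (‖R₃‖ ^ 2) (-⟪R₁, R₂⟫) (-⟪R₁, R₃⟫) (-⟪R₂, R₃⟫) := by
  simp only [gramDet, areaForm, norm_sub_sq_real, inner_sub_left, inner_sub_right,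
    real_inner_self_eq_norm_sq, real_inner_comm R₂ R₃]
  ring

variable [Fintype ι] [DecidableEq ι] {z : ι → EuclideanSpace ℝ (Fin d)}

/-- Projecting away `z i` shortens every squared length by at most `‖z i‖²`. -/
lemma perp_facts (i : ι) (hsum : ∑ l, z l = 0) (hneg : ∀ j l, j ≠ l → ⟪z j, z l⟫ < 0)
    (hi : z i ≠ 0) :
    (∀ l m, l ≠ m → l ≠ i → m ≠ i → 0 ≤ -⟪perp (z i) (z l), perp (z i) (z m)⟫) ∧
    (∀ l, l ≠ i → ‖z l‖ ^ 2 - ‖z i‖ ^ 2 ≤ ‖perp (z i) (z l)‖ ^ 2) ∧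
    (∀ l, ∑ m ∈ univ.erase l, -⟪perp (z i) (z l), perp (z i) (z m)⟫ = ‖perp (z i) (z l)‖ ^ 2) := by
  have hs : 0 < ‖z i‖ ^ 2 := by positivity
  refine ⟨fun l m hlm hl hm => ?_, fun l hl => ?_, fun l => ?_⟩
  · rw [inner_perp_perp hi, neg_sub]
    have : 0 ≤ ⟪z i, z l⟫ * ⟪z i, z m⟫ :=
      mul_nonneg_of_nonpos_of_nonpos (hneg i l hl.symm).le (hneg i m hm.symm).le
    have := div_nonneg this hs.le
    linarith [hneg l m hlm]
  · rw [← real_inner_self_eq_norm_sq (perp (z i) (z l)), inner_perp_perp hi,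
      real_inner_self_eq_norm_sq]
    have h0 : ∑ m, ⟪z i, z m⟫ = 0 := by rw [← inner_sum, hsum, inner_zero_right]
    rw [← add_sum_erase _ _ (mem_univ i), real_inner_self_eq_norm_sq] at h0
    have h1 : -⟪z i, z l⟫ ≤ ∑ m ∈ univ.erase i, -⟪z i, z m⟫ :=
      single_le_sum (f := fun m => -⟪z i, z m⟫)
        (fun m hm => neg_nonneg.2 (hneg i m (ne_of_mem_erase hm).symm).le)
        (mem_erase.2 ⟨hl, mem_univ l⟩)
    rw [sum_neg_distrib] at h1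
    have h2 := (hneg i l hl.symm).le
    have h3 : ⟪z i, z l⟫ * ⟪z i, z l⟫ / ‖z i‖ ^ 2 ≤ ‖z i‖ ^ 2 := by
      rw [div_le_iff₀ hs, ← neg_mul_neg]
      exact mul_le_mul (by linarith) (by linarith) (by linarith) hs.le
    linarith
  · have h0 : ∑ m, ⟪perp (z i) (z l), perp (z i) (z m)⟫ = 0 := by
      simp only [inner_perp_perp hi, sum_sub_distrib, ← sum_div, ← mul_sum, ← inner_sum, hsum,
        inner_zero_right, mul_zero, zero_div, sub_zero]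
    rw [← add_sum_erase _ _ (mem_univ l), real_inner_self_eq_norm_sq] at h0
    rw [sum_neg_distrib]
    linarith

lemma pair_le_row (i l m₁ m₂ : ι) (hsum : ∑ l, z l = 0)
    (hneg : ∀ j l, j ≠ l → ⟪z j, z l⟫ < 0) (hi : z i ≠ 0) (hl : l ≠ i)
    (h1 : m₁ ≠ l) (h2 : m₂ ≠ l) (h12 : m₁ ≠ m₂) :
    -⟪perp (z i) (z l), perp (z i) (z m₁)⟫ + -⟪perp (z i) (z l), perp (z i) (z m₂)⟫ ≤
      ‖perp (z i) (z l)‖ ^ 2 := by
  obtain ⟨hp, _, hrow⟩ := perp_facts i hsum hneg hi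
  rw [← hrow l, ← sum_pair (f := fun m => -⟪perp (z i) (z l), perp (z i) (z m)⟫) h12]
  refine sum_le_sum_of_subset_of_nonneg (fun m hm => ?_) fun m hm _ => ?_
  · simp only [mem_insert, mem_singleton] at hm
    refine mem_erase.2 ⟨?_, mem_univ m⟩
    rcases hm with rfl | rfl <;> assumption
  · rcases eq_or_ne m i with rfl | hm'
    · rw [inner_perp_perp hi, real_inner_self_eq_norm_sq, neg_sub, mul_div_assoc,
        div_self (by simp [hi] : ‖z m‖ ^ 2 ≠ 0), mul_one, real_inner_comm (z m), sub_self]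
    · exact hp l m (ne_of_mem_erase hm).symm hl hm'

/-- Lower bound for the triangle of three projected vectors. -/
theorem gramDet_perp_ge (i j₁ j₂ j₃ : ι) (h12 : j₁ ≠ j₂) (h13 : j₁ ≠ j₃) (h23 : j₂ ≠ j₃)
    (h1 : j₁ ≠ i) (h2 : j₂ ≠ i) (h3 : j₃ ≠ i) (hsum : ∑ l, z l = 0)
    (hneg : ∀ j l, j ≠ l → ⟪z j, z l⟫ < 0) {t : ℝ} (hit : ‖z i‖ ^ 2 ≤ t)
    (ht : t ≤ ‖z j₃‖ ^ 2) (hs12 : ‖z j₂‖ ^ 2 ≤ ‖z j₁‖ ^ 2) (hs23 : ‖z j₃‖ ^ 2 ≤ ‖z j₂‖ ^ 2) :
    let x := ‖z j₁‖ ^ 2 - t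
    let y := ‖z j₂‖ ^ 2 - t
    let w := ‖z j₃‖ ^ 2 - t
    min (x * y + x * w + y * w) (x * w + 3 * (y * w)) ≤
      gramDet (perp (z i) (z j₁) - perp (z i) (z j₃)) (perp (z i) (z j₂) - perp (z i) (z j₃)) := by
  intro x y w
  have hi : z i ≠ 0 := fun h => by
    have := hneg i j₁ h1.symm
    rw [h, inner_zero_left] at this
    exact lt_irrefl _ this
  obtain ⟨hp, hlen, -⟩ := perp_facts i hsum hneg hi
  rw [gramDet_sub_eq]
  have r2 := pair_le_row i j₂ j₁ j₃ hsum hneg hi h2 h12 h23.symm h13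
  have r3 := pair_le_row i j₃ j₁ j₂ hsum hneg hi h3 h13 h23 h12
  rw [real_inner_comm (perp (z i) (z j₁))] at r2 r3
  rw [real_inner_comm (perp (z i) (z j₂))] at r3
  refine areaForm_ge (hp _ _ h12 h1 h2) (hp _ _ h13 h1 h3) (hp _ _ h23 h2 h3)
    (pair_le_row i j₁ j₂ j₃ hsum hneg hi h1 h12.symm h13.symm h23) r2 r3
    (sub_nonneg.2 ht) (by simp only [y, w]; linarith) (by simp only [x, y]; linarith)
    (le_trans (by simp only [x]; linarith) (hlen _ h1))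
    (le_trans (by simp only [y]; linarith) (hlen _ h2))
    (le_trans (by simp only [w]; linarith) (hlen _ h3))

/-- Lower bound for the triangle in terms of the unprojected middle length. -/
theorem gramDet_perp_ge' (i j₁ j₂ j₃ : ι) (h12 : j₁ ≠ j₂) (h13 : j₁ ≠ j₃) (h23 : j₂ ≠ j₃)
    (h1 : j₁ ≠ i) (h2 : j₂ ≠ i) (h3 : j₃ ≠ i) (hsum : ∑ l, z l = 0)
    (hneg : ∀ j l, j ≠ l → ⟪z j, z l⟫ < 0) {t : ℝ} (hit : ‖z i‖ ^ 2 ≤ t)
    (ht : 2 * t ≤ ‖z j₃‖ ^ 2) (hs12 : ‖z j₂‖ ^ 2 ≤ ‖z j₁‖ ^ 2) (hs23 : ‖z j₃‖ ^ 2 ≤ ‖z j₂‖ ^ 2) :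
    let x := ‖z j₁‖ ^ 2 - t
    let y := ‖z j₂‖ ^ 2 - t
    let w := ‖z j₃‖ ^ 2 - t
    x * y + x * w + y * w + min 0 (‖z j₂‖ ^ 2 * (2 * w - ‖z j₂‖ ^ 2)) ≤
      gramDet (perp (z i) (z j₁) - perp (z i) (z j₃)) (perp (z i) (z j₂) - perp (z i) (z j₃)) := by
  intro x y w
  have hi : z i ≠ 0 := fun h => by
    have := hneg i j₁ h1.symm
    rw [h, inner_zero_left] at this
    exact lt_irrefl _ this
  obtain ⟨hp, hlen, -⟩ := perp_facts i hsum hneg hi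
  have hup : ∀ l, ‖perp (z i) (z l)‖ ^ 2 ≤ ‖z l‖ ^ 2 := fun l => by
    rw [← real_inner_self_eq_norm_sq (perp (z i) (z l)), inner_perp_perp hi,
      real_inner_self_eq_norm_sq]
    have : 0 ≤ ⟪z i, z l⟫ * ⟪z i, z l⟫ / ‖z i‖ ^ 2 := div_nonneg (mul_self_nonneg _) (sq_nonneg _)
    linarith
  rw [gramDet_sub_eq]
  have r2 := pair_le_row i j₂ j₁ j₃ hsum hneg hi h2 h12 h23.symm h13
  have r3 := pair_le_row i j₃ j₁ j₂ hsum hneg hi h3 h13 h23 h12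
  rw [real_inner_comm (perp (z i) (z j₁))] at r2 r3
  rw [real_inner_comm (perp (z i) (z j₂))] at r3
  have q12 := hp _ _ h12 h1 h2
  have q13 := hp _ _ h13 h1 h3
  have q23 := hp _ _ h23 h2 h3
  have l1 := hlen _ h1
  have l2 := hlen _ h2
  have l3 := hlen _ h3
  have u2 := hup j₂
  have u3 := hup j₃
  set a₁ := ‖perp (z i) (z j₁)‖ ^ 2
  set a₂ := ‖perp (z i) (z j₂)‖ ^ 2
  set a₃ := ‖perp (z i) (z j₃)‖ ^ 2
  set P := -⟪perp (z i) (z j₁), perp (z i) (z j₂)⟫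
  set Q := -⟪perp (z i) (z j₁), perp (z i) (z j₃)⟫
  set R := -⟪perp (z i) (z j₂), perp (z i) (z j₃)⟫
  have hw0 : 0 ≤ w := by simp only [w]; linarith [sq_nonneg ‖z i‖]
  have hy0 : 0 ≤ y := by simp only [y]; linarith
  have hx0 : 0 ≤ x := by simp only [x]; linarith
  have hxa : x ≤ a₁ := by simp only [x]; linarith
  have hya : y ≤ a₂ := by simp only [y]; linarith
  have hwa : w ≤ a₃ := by simp only [w]; linarith
  have e1 : 0 ≤ Q * (2 * a₂ - Q) := mul_nonneg q13 (by simp only [y] at hya; linarith)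
  have e2 : 0 ≤ R * (2 * a₁ - R) := mul_nonneg q23 (by simp only [x] at hxa; linarith)
  have e3 : min 0 (‖z j₂‖ ^ 2 * (2 * w - ‖z j₂‖ ^ 2)) ≤ P * (2 * a₃ - P) := by
    rcases le_total P (2 * w) with h | h
    · exact (min_le_left _ _).trans (mul_nonneg q12 (by linarith))
    · refine (min_le_right _ _).trans (le_trans ?_
        (mul_le_mul_of_nonneg_left (show 2 * w - P ≤ 2 * a₃ - P by linarith) q12))
      have : 0 ≤ (‖z j₂‖ ^ 2 - P) * (‖z j₂‖ ^ 2 + P - 2 * w) :=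
        mul_nonneg (by linarith) (by linarith)
      linarith
  have := mul_nonneg q12 q13
  have := mul_nonneg q12 q23
  have := mul_nonneg q13 q23
  have := mul_le_mul hxa hya hy0 (hx0.trans hxa)
  have := mul_le_mul hxa hwa hw0 (hx0.trans hxa)
  have := mul_le_mul hya hwa hw0 (hy0.trans hya)
  unfold areaForm
  linarith

/-- With exactly three other vectors the area is determined by the lengths. -/
theorem gramDet_perp_four (i j₁ j₂ j₃ : ι) (h12 : j₁ ≠ j₂) (h13 : j₁ ≠ j₃) (h23 : j₂ ≠ j₃)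
    (h1 : j₁ ≠ i) (h2 : j₂ ≠ i) (h3 : j₃ ≠ i) (hall : univ = ({i, j₁, j₂, j₃} : Finset ι))
    (hsum : ∑ l, z l = 0) (hneg : ∀ j l, j ≠ l → ⟪z j, z l⟫ < 0) {x y w : ℝ}
    (hx : x ≤ ‖z j₁‖ ^ 2 - ‖z i‖ ^ 2) (hy : y ≤ ‖z j₂‖ ^ 2 - ‖z i‖ ^ 2)
    (hw : w ≤ ‖z j₃‖ ^ 2 - ‖z i‖ ^ 2) (hxyw : x ≤ y + w) (hyxw : y ≤ x + w) (hwxy : w ≤ x + y) :
    9 / 4 * (2 * (x * y + x * w + y * w) - (x ^ 2 + y ^ 2 + w ^ 2)) ≤
      gramDet (perp (z i) (z j₁) - perp (z i) (z j₃)) (perp (z i) (z j₂) - perp (z i) (z j₃)) := by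
  have hi : z i ≠ 0 := fun h => by
    have := hneg i j₁ h1.symm
    rw [h, inner_zero_left] at this
    exact lt_irrefl _ this
  obtain ⟨hp, hlen, hrow⟩ := perp_facts i hsum hneg hi
  rw [gramDet_sub_eq]
  have hz : ∀ v, ⟪perp (z i) v, perp (z i) (z i)⟫ = 0 := fun v => by
    rw [inner_perp_perp hi, real_inner_self_eq_norm_sq, mul_div_assoc,
      div_self (by simp [hi] : ‖z i‖ ^ 2 ≠ 0), mul_one, real_inner_comm v, sub_self]
  have e1 := hrow j₁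
  have e2 := hrow j₂
  have e3 := hrow j₃
  have s1 : univ.erase j₁ = ({i, j₂, j₃} : Finset ι) := by
    rw [hall]; ext m; simp only [mem_erase, mem_insert, mem_singleton]; grind
  have s2 : univ.erase j₂ = ({i, j₁, j₃} : Finset ι) := by
    rw [hall]; ext m; simp only [mem_erase, mem_insert, mem_singleton]; grind
  have s3 : univ.erase j₃ = ({i, j₁, j₂} : Finset ι) := by
    rw [hall]; ext m; simp only [mem_erase, mem_insert, mem_singleton]; grind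
  rw [s1, sum_insert (by simp [h2.symm, h3.symm]), sum_pair h23, hz] at e1
  rw [s2, sum_insert (by simp [h1.symm, h3.symm]), sum_pair h13, hz,
    real_inner_comm (perp (z i) (z j₁))] at e2
  rw [s3, sum_insert (by simp [h1.symm, h2.symm]), sum_pair h12, hz,
    real_inner_comm (perp (z i) (z j₁)), real_inner_comm (perp (z i) (z j₂))] at e3
  have l1 := hx.trans (hlen _ h1)
  have l2 := hy.trans (hlen _ h2)
  have l3 := hw.trans (hlen _ h3)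
  have q1 := hp _ _ h12 h1 h2
  have q2 := hp _ _ h13 h1 h3
  have q3 := hp _ _ h23 h2 h3
  set r₁ := ‖perp (z i) (z j₁)‖ ^ 2
  set r₂ := ‖perp (z i) (z j₂)‖ ^ 2
  set r₃ := ‖perp (z i) (z j₃)‖ ^ 2
  set P := -⟪perp (z i) (z j₁), perp (z i) (z j₂)⟫ with hP
  set Q := -⟪perp (z i) (z j₁), perp (z i) (z j₃)⟫ with hQ
  set R := -⟪perp (z i) (z j₂), perp (z i) (z j₃)⟫ with hR
  have hr1 : r₁ = P + Q := by linarith
  have hr2 : r₂ = P + R := by linarith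
  have hr3 : r₃ = Q + R := by linarith
  unfold areaForm
  rw [hr1] at l1 ⊢
  rw [hr2] at l2 ⊢
  rw [hr3] at l3 ⊢
  have := mul_nonneg (sub_nonneg.2 l1) (show 0 ≤ 2 * R + y + w - x by linarith)
  have := mul_nonneg (sub_nonneg.2 l2) (show 0 ≤ 2 * Q + x + w - y by linarith)
  have := mul_nonneg (sub_nonneg.2 l3) (show 0 ≤ 2 * P + x + y - w by linarith)
  linarith

end Vale.Agent.P226
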