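import Mathlib

/-! The final arithmetic for five or more cells: the Gram lower bound beats the smallest area. -/

open Real

namespace Vale.Agent.P226

/-- Admissible bound for the smallest area with `k` cells. -/
noncomputable def areaCut (k : ℕ) : ℝ :=
  if k ≤ 5 then 478 / 10000
  else if k = 6 then 36 / 1000
  else if k = 7 then 31 / 1000
  else if k = 8 then 25 / 1000
  else if k = 9 then 2375 / 100000
  else if k = 10 then 207 / 10000
  else 175 / 10000

/-- The Gram target implies the area inequality. -/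
lemma area_le_of_target {a e N B G : ℝ} (ha : 0 ≤ a) (hae : a ≤ e) (hN : 0 < N) (hNB : N ≤ B)
    (hG : (4 / 3 * e * B ^ 2) ^ 2 ≤ G) : a ≤ 3 / 4 * √G / N ^ 2 := by
  rw [le_div_iff₀ (by positivity)]
  have he : 0 ≤ e := ha.trans hae
  have h2 : a * N ^ 2 ≤ e * B ^ 2 :=
    mul_le_mul hae (pow_le_pow_left₀ hN.le hNB 2) (by positivity) he
  have h1 : 4 / 3 * e * B ^ 2 ≤ √G := Real.le_sqrt_of_sq_le hG
  linarith

/-- A downward parabola on an interval. -/
lemma le_parabola {T P Q lo hi w : ℝ} (hQ : 0 ≤ Q) (hlo : lo ≤ w) (hhi : w ≤ hi)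
    (h1 : T ≤ lo * (P - Q * lo)) (h2 : T ≤ hi * (P - Q * hi)) : T ≤ w * (P - Q * w) := by
  rcases eq_or_lt_of_le (hlo.trans hhi) with he | hlt
  · obtain rfl : w = lo := le_antisymm (he ▸ hhi) hlo
    exact h1
  · have e1 := mul_le_mul_of_nonneg_left h1 (sub_nonneg.2 hhi)
    have e2 := mul_le_mul_of_nonneg_left h2 (sub_nonneg.2 hlo)
    have e3 : 0 ≤ (hi - lo) * (Q * ((w - lo) * (hi - w))) := mul_nonneg (sub_nonneg.2 hlt.le)
      (mul_nonneg hQ (mul_nonneg (sub_nonneg.2 hlo) (sub_nonneg.2 hhi)))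
    refine le_of_mul_le_mul_left ?_ (sub_pos.2 hlt)
    linear_combination e1 + e2 + e3

/-- The symmetric Gram expression. -/
lemma target_le_pair {T P Q lo mid x y w : ℝ} (hQ : 0 ≤ Q) (hmid0 : 0 ≤ mid) (hlo0 : 0 ≤ lo)
    (hlo : lo ≤ w) (hwy : w ≤ y) (hyx : y ≤ x) (hS : P ≤ 2 * (x + y) + (Q - 1) * w)
    (h1 : T ≤ lo * (P - Q * lo)) (h2 : T ≤ mid * (P - Q * mid)) (h3 : T ≤ 3 * mid ^ 2) :
    T ≤ x * y + x * w + y * w := by
  have hw := hlo0.trans hlo
  rcases le_total w mid with h | h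
  · have e := mul_le_mul_of_nonneg_left hS hw
    have e' := mul_nonneg (sub_nonneg.2 (hwy.trans hyx)) (sub_nonneg.2 hwy)
    have := le_parabola hQ hlo h h1 h2
    linarith
  · have e := pow_le_pow_left₀ hmid0 h 2
    have e1 := mul_le_mul (hwy.trans hyx) hwy hw (hw.trans (hwy.trans hyx))
    have e2 := mul_le_mul_of_nonneg_right (hwy.trans hyx) hw
    have e3 := mul_le_mul_of_nonneg_right hwy hw
    linarith

/-- The skew Gram expression. -/
lemma target_le_skew {T P Q lo mid x y w : ℝ} (hQ : 0 ≤ Q) (hmid0 : 0 ≤ mid) (hlo0 : 0 ≤ lo)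
    (hlo : lo ≤ w) (hwy : w ≤ y) (hyx : y ≤ x) (hS : P - Q * w ≤ x + 3 * y)
    (h1 : T ≤ lo * (P - Q * lo)) (h2 : T ≤ mid * (P - Q * mid)) (h3 : T ≤ 4 * mid ^ 2) :
    T ≤ x * w + 3 * (y * w) := by
  have hw := hlo0.trans hlo
  rcases le_total w mid with h | h
  · have e := mul_le_mul_of_nonneg_left hS hw
    have := le_parabola hQ hlo h h1 h2
    linarith
  · have e := pow_le_pow_left₀ hmid0 h 2
    have e2 := mul_le_mul_of_nonneg_right (hwy.trans hyx) hw
    have e3 := mul_le_mul_of_nonneg_right hwy hw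
    linarith

/-- The targets for five cells. -/
lemma targets_five {ep x y w : ℝ} (hep : ep ≤ 2 * (478 / 10000) ^ 2) (_hep0 : 0 ≤ ep)
    (hS : 358098 / 1000000 - 5 * ep ≤ x + y + 2 * w) (hxH : x ≤ 159156 / 1000000 - ep)
    (hL : 193 / 5000 - ep ≤ w) (hwy : w ≤ y) (hyx : y ≤ x) :
    (4 / 3 * (478 / 10000) * (17 / 12) ^ 2 : ℝ) ^ 2 ≤ x * y + x * w + y * w ∧
      (4 / 3 * (478 / 10000) * (17 / 12) ^ 2 : ℝ) ^ 2 ≤ x * w + 3 * (y * w) := by
  have hb : ep ≤ 0.00456968 := by norm_num at hep ⊢; linarith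
  -- `x` is at most its maximum, whatever `ep` is
  have hxy : (3352 / 10000 : ℝ) ≤ x + y + 2 * w := by linarith
  have hskew : 3 * (3352 / 10000) - 2 * (1546 / 10000) - 6 * w ≤ x + 3 * y := by linarith
  exact ⟨target_le_pair (P := 2 * (3352 / 10000)) (Q := 5) (lo := 34 / 1000) (mid := 75 / 1000)
      (by norm_num) (by norm_num) (by norm_num) (by linarith) hwy hyx (by linarith) (by norm_num)
      (by norm_num) (by norm_num),
    target_le_skew (P := 3 * (3352 / 10000) - 2 * (1546 / 10000)) (Q := 6) (lo := 34 / 1000) (mid := 65 / 1000)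
      (by norm_num) (by norm_num) (by norm_num) (by linarith) hwy hyx hskew (by norm_num)
      (by norm_num) (by norm_num)⟩

/-- The targets for six cells. -/
lemma targets_six {ep x y w : ℝ} (hep : ep ≤ 2 * (36 / 1000) ^ 2) (_hep0 : 0 ≤ ep)
    (hS : 358098 / 1000000 - 6 * ep ≤ x + y + 3 * w) (_hxH : x ≤ 159156 / 1000000 - ep)
    (hL : 193 / 5000 - ep ≤ w) (hwy : w ≤ y) (hyx : y ≤ x) :
    (4 / 3 * (36 / 1000) * (22 / 15) ^ 2 : ℝ) ^ 2 ≤ x * y + x * w + y * w ∧
      (4 / 3 * (36 / 1000) * (22 / 15) ^ 2 : ℝ) ^ 2 ≤ x * w + 3 * (y * w) := by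
  have hb : ep ≤ 0.00259200 := by norm_num at hep ⊢; linarith
  have hxy : (3425 / 10000 : ℝ) ≤ x + y + 3 * w := by linarith
  have hskew : 3425 / 10000 - 1 * w ≤ x + 3 * y := by linarith
  exact ⟨target_le_pair (P := 2 * (3425 / 10000)) (Q := 7) (lo := 360 / 10000) (mid := 625 / 10000)
      (by norm_num) (by norm_num) (by norm_num) (by linarith) hwy hyx (by linarith) (by norm_num)
      (by norm_num) (by norm_num),
    target_le_skew (P := 3425 / 10000) (Q := 1) (lo := 360 / 10000) (mid := 52 / 1000)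
      (by norm_num) (by norm_num) (by norm_num) (by linarith) hwy hyx hskew (by norm_num)
      (by norm_num) (by norm_num)⟩

/-- The targets for seven cells. -/
lemma targets_seven {ep x y w : ℝ} (hep : ep ≤ 2 * (31 / 1000) ^ 2) (_hep0 : 0 ≤ ep)
    (hS : 358098 / 1000000 - 7 * ep ≤ x + y + 4 * w) (_hxH : x ≤ 159156 / 1000000 - ep)
    (hL : 193 / 5000 - ep ≤ w) (hwy : w ≤ y) (hyx : y ≤ x) :
    (4 / 3 * (31 / 1000) * (3 / 2) ^ 2 : ℝ) ^ 2 ≤ x * y + x * w + y * w ∧
      (4 / 3 * (31 / 1000) * (3 / 2) ^ 2 : ℝ) ^ 2 ≤ x * w + 3 * (y * w) := by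
  have hb : ep ≤ 0.00192200 := by norm_num at hep ⊢; linarith
  have hxy : (3446 / 10000 : ℝ) ≤ x + y + 4 * w := by linarith
  have hskew : 3446 / 10000 - 2 * w ≤ x + 3 * y := by linarith
  exact ⟨target_le_pair (P := 2 * (3446 / 10000)) (Q := 9) (lo := 366 / 10000) (mid := 54 / 1000)
      (by norm_num) (by norm_num) (by norm_num) (by linarith) hwy hyx (by linarith) (by norm_num)
      (by norm_num) (by norm_num),
    target_le_skew (P := 3446 / 10000) (Q := 2) (lo := 366 / 10000) (mid := 47 / 1000)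
      (by norm_num) (by norm_num) (by norm_num) (by linarith) hwy hyx hskew (by norm_num)
      (by norm_num) (by norm_num)⟩

/-- The targets for eight cells. -/
lemma targets_eight {ep x y w : ℝ} (hep : ep ≤ 2 * (25 / 1000) ^ 2) (_hep0 : 0 ≤ ep)
    (hS : 358098 / 1000000 - 8 * ep ≤ x + y + 5 * w) (_hxH : x ≤ 159156 / 1000000 - ep)
    (hL : 193 / 5000 - ep ≤ w) (hwy : w ≤ y) (hyx : y ≤ x) :
    (4 / 3 * (25 / 1000) * (32 / 21) ^ 2 : ℝ) ^ 2 ≤ x * y + x * w + y * w ∧
      (4 / 3 * (25 / 1000) * (32 / 21) ^ 2 : ℝ) ^ 2 ≤ x * w + 3 * (y * w) := by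
  have hb : ep ≤ 0.00125000 := by norm_num at hep ⊢; linarith
  have hxy : (348 / 1000 : ℝ) ≤ x + y + 5 * w := by linarith
  have hskew : 348 / 1000 - 3 * w ≤ x + 3 * y := by linarith
  exact ⟨target_le_pair (P := 2 * (348 / 1000)) (Q := 11) (lo := 373 / 10000) (mid := 45 / 1000)
      (by norm_num) (by norm_num) (by norm_num) (by linarith) hwy hyx (by linarith) (by norm_num)
      (by norm_num) (by norm_num),
    target_le_skew (P := 348 / 1000) (Q := 3) (lo := 373 / 10000) (mid := 39 / 1000)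
      (by norm_num) (by norm_num) (by norm_num) (by linarith) hwy hyx hskew (by norm_num)
      (by norm_num) (by norm_num)⟩

/-- The targets for nine cells. -/
lemma targets_nine {ep x y w : ℝ} (hep : ep ≤ 2 * (2375 / 100000) ^ 2) (_hep0 : 0 ≤ ep)
    (hS : 358098 / 1000000 - 9 * ep ≤ x + y + 6 * w) (_hxH : x ≤ 159156 / 1000000 - ep)
    (hL : 193 / 5000 - ep ≤ w) (hwy : w ≤ y) (hyx : y ≤ x) :
    (4 / 3 * (2375 / 100000) * (37 / 24) ^ 2 : ℝ) ^ 2 ≤ x * y + x * w + y * w ∧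
      (4 / 3 * (2375 / 100000) * (37 / 24) ^ 2 : ℝ) ^ 2 ≤ x * w + 3 * (y * w) := by
  have hb : ep ≤ 0.001128125 := by norm_num at hep ⊢; linarith
  have hxy : (34794 / 100000 : ℝ) ≤ x + y + 6 * w := by linarith
  have hskew : 34794 / 100000 - 4 * w ≤ x + 3 * y := by linarith
  exact ⟨target_le_pair (P := 2 * (34794 / 100000)) (Q := 13) (lo := 3747 / 100000) (mid := 435 / 10000)
      (by norm_num) (by norm_num) (by norm_num) (by linarith) hwy hyx (by linarith) (by norm_num)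
      (by norm_num) (by norm_num),
    target_le_skew (P := 34794 / 100000) (Q := 4) (lo := 3747 / 100000) (mid := 377 / 10000)
      (by norm_num) (by norm_num) (by norm_num) (by linarith) hwy hyx hskew (by norm_num)
      (by norm_num) (by norm_num)⟩

/-- The targets for ten cells. -/
lemma targets_ten {ep x y w : ℝ} (hep : ep ≤ 2 * (207 / 10000) ^ 2) (_hep0 : 0 ≤ ep)
    (hS : 358098 / 1000000 - 10 * ep ≤ x + y + 7 * w) (_hxH : x ≤ 159156 / 1000000 - ep)
    (hL : 193 / 5000 - ep ≤ w) (hwy : w ≤ y) (hyx : y ≤ x) :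
    (4 / 3 * (207 / 10000) * (14 / 9) ^ 2 : ℝ) ^ 2 ≤ x * y + x * w + y * w ∧
      (4 / 3 * (207 / 10000) * (14 / 9) ^ 2 : ℝ) ^ 2 ≤ x * w + 3 * (y * w) := by
  have hb : ep ≤ 0.00085698 := by norm_num at hep ⊢; linarith
  have hxy : (3495 / 10000 : ℝ) ≤ x + y + 7 * w := by linarith
  have hskew : 3495 / 10000 - 5 * w ≤ x + 3 * y := by linarith
  exact ⟨target_le_pair (P := 2 * (3495 / 10000)) (Q := 15) (lo := 377 / 10000) (mid := 3868 / 100000)
      (by norm_num) (by norm_num) (by norm_num) (by linarith) hwy hyx (by linarith) (by norm_num)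
      (by norm_num) (by norm_num),
    target_le_skew (P := 3495 / 10000) (Q := 5) (lo := 377 / 10000) (mid := 377 / 10000)
      (by norm_num) (by norm_num) (by norm_num) (by linarith) hwy hyx hskew (by norm_num)
      (by norm_num) (by norm_num)⟩

/-- For five or more cells the Gram bound exceeds every admissible smallest area. -/
theorem area_le_gram {k : ℕ} (hk : 5 ≤ k) {a s1 s2 s3 G : ℝ} (ha : 0 ≤ a) (hak : a ≤ areaCut k)
    (h32 : s3 ≤ s2) (h21 : s2 ≤ s1) (h1 : s1 ≤ 1 / (2 * π)) (h3 : 193 / 5000 ≤ s3)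
    (hsum : 9 / (8 * π) - 2 * a ^ 2 ≤ s1 + s2 + ((k : ℝ) - 3) * s3)
    (hG : min ((s1 - 2 * a ^ 2) * (s2 - 2 * a ^ 2) + (s1 - 2 * a ^ 2) * (s3 - 2 * a ^ 2)
        + (s2 - 2 * a ^ 2) * (s3 - 2 * a ^ 2))
      ((s1 - 2 * a ^ 2) * (s3 - 2 * a ^ 2) + 3 * ((s2 - 2 * a ^ 2) * (s3 - 2 * a ^ 2))) ≤ G) :
    a ≤ 3 / 4 * √G / (((k : ℝ) - 2) / ((k : ℝ) - 1) + 2 / 3) ^ 2 := by
  have hk5 : (5 : ℝ) ≤ k := by exact_mod_cast hk
  set N := ((k : ℝ) - 2) / ((k : ℝ) - 1) + 2 / 3 with hNdef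
  have hN : 0 < N := by
    have : 0 ≤ ((k : ℝ) - 2) / ((k : ℝ) - 1) := div_nonneg (by linarith) (by linarith)
    linarith
  have hh : 1 / (2 * π) ≤ (159156 / 1000000 : ℝ) := by
    rw [div_le_iff₀ (by positivity)]; nlinarith [Real.pi_gt_d6]
  have hc : (358098 / 1000000 : ℝ) ≤ 9 / (8 * π) := by
    rw [le_div_iff₀ (by positivity)]; nlinarith [Real.pi_lt_d6]
  set ep := 2 * a ^ 2 with hep
  have hep0 : 0 ≤ ep := by positivity
  set x := s1 - ep with hx
  set y := s2 - ep with hy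
  set w := s3 - ep with hw
  have hS : 358098 / 1000000 - k * ep ≤ x + y + ((k : ℝ) - 3) * w := by
    have : x + y + ((k : ℝ) - 3) * w = s1 + s2 + ((k : ℝ) - 3) * s3 - ((k : ℝ) - 1) * ep := by
      rw [hx, hy, hw]; ring
    linarith
  have hxH : x ≤ 159156 / 1000000 - ep := by linarith
  have hyx : y ≤ x := by linarith
  have hwy : w ≤ y := by linarith
  have hL : 193 / 5000 - ep ≤ w := by linarith
  have hepb : ∀ e : ℝ, a ≤ e → ep ≤ 2 * e ^ 2 := fun e he => by
    have := pow_le_pow_left₀ ha he 2; linarith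
  have key : ∀ e B : ℝ, a ≤ e → N ≤ B → (4 / 3 * e * B ^ 2) ^ 2 ≤ x * y + x * w + y * w →
      (4 / 3 * e * B ^ 2) ^ 2 ≤ x * w + 3 * (y * w) → a ≤ 3 / 4 * √G / N ^ 2 :=
    fun e B he hNB t1 t2 => area_le_of_target ha he hN hNB ((le_min t1 t2).trans hG)
  rcases le_or_gt k 10 with hk10 | hk11
  · interval_cases k
    · have hak' : a ≤ 478 / 10000 := by simpa [areaCut] using hak
      have t := targets_five (hepb _ hak') hep0 (by norm_num at hS ⊢; linarith) hxH hL hwy hyx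
      exact key _ _ hak' (by rw [hNdef]; norm_num) t.1 t.2
    · have hak' : a ≤ 36 / 1000 := by simpa [areaCut] using hak
      have t := targets_six (hepb _ hak') hep0 (by norm_num at hS ⊢; linarith) hxH hL hwy hyx
      exact key _ _ hak' (by rw [hNdef]; norm_num) t.1 t.2
    · have hak' : a ≤ 31 / 1000 := by simpa [areaCut] using hak
      have t := targets_seven (hepb _ hak') hep0 (by norm_num at hS ⊢; linarith) hxH hL hwy hyx
      exact key _ _ hak' (by rw [hNdef]; norm_num) t.1 t.2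
    · have hak' : a ≤ 25 / 1000 := by simpa [areaCut] using hak
      have t := targets_eight (hepb _ hak') hep0 (by norm_num at hS ⊢; linarith) hxH hL hwy hyx
      exact key _ _ hak' (by rw [hNdef]; norm_num) t.1 t.2
    · have hak' : a ≤ 2375 / 100000 := by simpa [areaCut] using hak
      have t := targets_nine (hepb _ hak') hep0 (by norm_num at hS ⊢; linarith) hxH hL hwy hyx
      exact key _ _ hak' (by rw [hNdef]; norm_num) t.1 t.2
    · have hak' : a ≤ 207 / 10000 := by simpa [areaCut] using hak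
      have t := targets_ten (hepb _ hak') hep0 (by norm_num at hS ⊢; linarith) hxH hL hwy hyx
      exact key _ _ hak' (by rw [hNdef]; norm_num) t.1 t.2
  · have hcut : areaCut k = 175 / 10000 := by
      unfold areaCut; repeat' split_ifs <;> first | omega | rfl
    rw [hcut] at hak
    have hb := hepb _ hak
    have hw0 : 379 / 10000 ≤ w := by linarith
    have hNB : N ≤ 5 / 3 := by
      have : ((k : ℝ) - 2) / ((k : ℝ) - 1) ≤ 1 := by
        rw [div_le_one (by linarith)]; linarith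
      linarith
    have q := mul_le_mul hw0 hw0 (by norm_num) (by linarith : (0 : ℝ) ≤ w)
    have q1 := mul_le_mul (hwy.trans hyx) hwy (by linarith : (0 : ℝ) ≤ w) (by linarith)
    have q2 := mul_le_mul_of_nonneg_right (hwy.trans hyx) (by linarith : (0 : ℝ) ≤ w)
    have q3 := mul_le_mul_of_nonneg_right hwy (by linarith : (0 : ℝ) ≤ w)
    refine key _ (5 / 3) hak hNB ?_ ?_ <;> norm_num <;> linarith

end Vale.Agent.P226
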