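import Vale.Agent.P226.SmallCell

/-! Numerical certificates for four cells: with the exact cap profile in three dimensions some
cell is small and the other three are long and far from collinear, so that cell can be deleted. -/

noncomputable section

open Real Finset MeasureTheory
open scoped RealInnerProductSpace

namespace Vale.Agent.P226

/-- The cap profile in three dimensions, without the factor `8 / π`. -/
def prof (a : ℝ) : ℝ := a ^ 2 * (1 - a) ^ 2

/-- The tangent of the profile at `(1 - t) / 3` lies above it on `[t, 1]`. -/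
theorem prof_le_tangent {t a : ℝ} (ht : 0 ≤ t) (ht' : t ≤ 1) (hta : t ≤ a) (ha : a ≤ 1) :
    prof a ≤ prof ((1 - t) / 3) +
      2 * ((1 - t) / 3) * (1 - (1 - t) / 3) * (1 - 2 * ((1 - t) / 3)) * (a - (1 - t) / 3) := by
  set m := (1 - t) / 3 with hm
  have hm0 : 0 ≤ m := by linarith
  have hm1 : 0 ≤ 2 - 3 * m := by linarith
  have htm : t = 1 - 3 * m := by linarith
  have hw : a ^ 2 + (2 * m - 2) * a + (3 * m ^ 2 - 4 * m + 1) ≤ 0 := by
    rcases eq_or_lt_of_le ht' with h1 | h1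
    · have ea : a = 1 := by linarith
      have em : m = 0 := by linarith
      rw [ea, em]; norm_num
    · have e : (1 - t) * (a ^ 2 + (2 * m - 2) * a + (3 * m ^ 2 - 4 * m + 1))
          = -((1 - a) * (2 * m * t) + (a - t) * (m * (2 - 3 * m))
            + (1 - t) * ((a - t) * (1 - a))) := by
        rw [htm]; ring
      have k1 : 0 ≤ (1 - a) * (2 * m * t) := mul_nonneg (sub_nonneg.2 ha) (by positivity)
      have k2 : 0 ≤ (a - t) * (m * (2 - 3 * m)) :=
        mul_nonneg (sub_nonneg.2 hta) (mul_nonneg hm0 hm1)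
      have k3 : 0 ≤ (1 - t) * ((a - t) * (1 - a)) :=
        mul_nonneg (sub_nonneg.2 ht') (mul_nonneg (sub_nonneg.2 hta) (sub_nonneg.2 ha))
      by_contra h
      push Not at h
      have := mul_pos (sub_pos.2 h1) h
      linarith
  have e2 : prof m + 2 * m * (1 - m) * (1 - 2 * m) * (a - m) - prof a
      = (a - m) ^ 2 * -(a ^ 2 + (2 * m - 2) * a + (3 * m ^ 2 - 4 * m + 1)) := by
    simp only [prof]; ring
  have := mul_nonneg (sq_nonneg (a - m)) (neg_nonneg.2 hw)
  linarith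

theorem prof_sum_high {t : ℝ} (h0 : 1 / 10 ≤ t) (h1 : t ≤ 1 / 4) :
    prof t + 3 * prof ((1 - t) / 3) ≤ 9 / 64 := by
  simp only [prof]
  nlinarith [sq_nonneg (t - 1 / 4), mul_nonneg (sub_nonneg.2 h0) (sub_nonneg.2 h1),
    mul_nonneg (mul_nonneg (sub_nonneg.2 h0) (sub_nonneg.2 h1)) (sub_nonneg.2 h1)]

theorem prof_sum_low {t : ℝ} (h0 : 83 / 1000 ≤ t) (h1 : t ≤ 1 / 10) :
    3927 / 5000 * t ^ 2 + 3 * prof ((1 - t) / 3) ≤ 9 / 64 := by
  simp only [prof]
  nlinarith [mul_nonneg (sub_nonneg.2 h0) (sub_nonneg.2 h1), sq_nonneg (t - 1 / 4)]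

theorem prof_le_line {a : ℝ} (h0 : 0 ≤ a) (h1 : a ≤ 1) :
    prof a ≤ 157 / 400 * (3 / 20 * a + 89 / 1000) := by
  simp only [prof]
  nlinarith [sq_nonneg (a - 11 / 25), mul_nonneg h0 (sub_nonneg.2 h1),
    mul_nonneg (sq_nonneg (a - 11 / 25)) (mul_nonneg h0 (sub_nonneg.2 h1)), sq_nonneg (a - 1 / 2)]

/-- Four cells: one is small and the other three are long. -/
theorem four_small {κ : Type*} [Fintype κ] [DecidableEq κ] (hκ : Fintype.card κ = 4) (a s : κ → ℝ)
    (ha : ∀ l, 0 ≤ a l) (hsum : ∑ l, a l = 1) (hs2 : ∀ l, s l ≤ 2 * a l ^ 2)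
    (hcap : ∀ l, s l ≤ 8 / π * (a l ^ 2 * (1 - a l) ^ 2))
    (hS : 9 / (8 * π) < ∑ l, s l) :
    ∃ i, a i < 83 / 1000 ∧ ∀ l, l ≠ i → 1 / 20 ≤ s l ∧ s l ≤ 4 / 25 := by
  have hπ := pi_pos
  have hπ1 := pi_gt_d4
  have hπ2 := pi_lt_d4
  have ha1 : ∀ l, a l ≤ 1 := fun l =>
    (single_le_sum (fun j _ => ha j) (mem_univ l)).trans hsum.le
  have hsp : ∀ l, π / 8 * s l ≤ prof (a l) := fun l => by
    have := mul_le_mul_of_nonneg_left (hcap l) (show 0 ≤ π / 8 by positivity)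
    refine this.trans_eq ?_
    simp only [prof]; field_simp
  have hS' : 9 / 64 < ∑ l, π / 8 * s l := by
    rw [← mul_sum]
    refine lt_of_eq_of_lt ?_ (mul_lt_mul_of_pos_left hS (by positivity))
    field_simp; ring
  obtain ⟨i, -, hmin⟩ := exists_min_image univ a
    (univ_nonempty_iff.2 (Fintype.card_pos_iff.1 (by omega)))
  have hcard : (univ.erase i).card = 3 := by
    rw [card_erase_of_mem (mem_univ i), card_univ, hκ]
  have hrest : ∑ l ∈ univ.erase i, a l = 1 - a i := by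
    rw [← hsum, ← add_sum_erase _ _ (mem_univ i)]; ring
  have hi : a i < 83 / 1000 := by
    by_contra h
    push Not at h
    have h4 : a i ≤ 1 / 4 := by
      have := card_nsmul_le_sum (univ : Finset κ) a (a i) fun l hl => hmin l hl
      rw [card_univ, hκ, hsum, nsmul_eq_mul] at this
      norm_num at this ⊢
      linarith
    set m := (1 - a i) / 3 with hm
    have hR : ∑ l ∈ univ.erase i, π / 8 * s l ≤ 3 * prof m := by
      refine (sum_le_sum fun l hl => (hsp l).trans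
        (prof_le_tangent (ha i) (ha1 i) (hmin l (mem_univ l)) (ha1 l))).trans (le_of_eq ?_)
      rw [sum_add_distrib, sum_const, ← mul_sum, sum_sub_distrib, sum_const, hcard, hrest]
      simp only [nsmul_eq_mul, ← hm]
      push_cast
      ring
    have hsplit := add_sum_erase _ (fun l => π / 8 * s l) (mem_univ i)
    rcases le_or_gt (1 / 10) (a i) with ht | ht
    · linarith [hsp i, prof_sum_high ht h4]
    · have hb : π / 8 * s i ≤ 3927 / 5000 * a i ^ 2 := by
        have h1 := mul_le_mul_of_nonneg_left (hs2 i) (show 0 ≤ π / 8 by positivity)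
        have h2 := mul_le_mul_of_nonneg_right hπ2.le (sq_nonneg (a i))
        linarith
      linarith [prof_sum_low h ht.le]
  refine ⟨i, hi, fun l hl => ⟨?_, ?_⟩⟩
  · by_contra hc
    push Not at hc
    have hline : ∀ j, s j ≤ 3 / 20 * a j + 89 / 1000 := fun j => by
      have h1 := (hsp j).trans (prof_le_line (ha j) (ha1 j))
      rcases le_or_gt (s j) 0 with h0 | h0
      · have := ha j; linarith
      · have h2 := mul_le_mul_of_nonneg_right hπ1.le h0.le
        linarith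
    have hsl : s l ≤ 3 / 20 * a l + 263 / 10000 := by
      rcases le_or_gt (158 / 1000) (a l) with h | h
      · linarith
      · have h1 := mul_nonneg (ha l) (sub_nonneg.2 h.le)
        linarith [hs2 l]
    have hsi : s i ≤ 3 / 20 * a i + 14 / 10000 := by
      have h1 := mul_nonneg (ha i) (sub_nonneg.2 hi.le)
      linarith [hs2 i, ha i]
    have hli : l ∈ univ.erase i := mem_erase.2 ⟨hl, mem_univ l⟩
    have hc2 : ((univ.erase i).erase l).card = 2 := by rw [card_erase_of_mem hli, hcard]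
    have hs := sum_le_sum (s := (univ.erase i).erase l) fun j _ => hline j
    rw [sum_add_distrib, sum_const, hc2, ← mul_sum, nsmul_eq_mul] at hs
    have e1 := add_sum_erase _ s (mem_univ i)
    have e2 := add_sum_erase _ s hli
    have e3 := add_sum_erase _ a hli
    rw [hrest] at e3
    push_cast at hs
    have hcl : (358 : ℝ) / 1000 ≤ 9 / (8 * π) := by
      rw [le_div_iff₀ (by positivity)]; linarith
    linarith
  · have h1 := hsp l
    have h2 : prof (a l) ≤ 1 / 16 := by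
      simp only [prof]
      nlinarith [sq_nonneg (a l - 1 / 2), mul_nonneg (ha l) (sub_nonneg.2 (ha1 l))]
    rcases le_or_gt (s l) 0 with h0 | h0
    · linarith
    · have h3 := mul_le_mul_of_nonneg_right hπ1.le h0.le
      linarith

/-- A cell of measure at least one half keeps four cells below the propeller value, so all cells
obey the profile bound. -/
theorem profile_of_cap {κ : Type*} [Fintype κ] [DecidableEq κ] (a s : κ → ℝ)
    (ha : ∀ l, 0 ≤ a l) (hsum : ∑ l, a l = 1) (hhalf : ∀ l, s l ≤ 1 / (2 * π))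
    (hcap : ∀ l, s l ≤ 8 / π * (a l * (1 - a l)) ^ 2 ∨ 1 / 2 ≤ a l)
    (hS : 9 / (8 * π) < ∑ l, s l) (l : κ) : s l ≤ 8 / π * (a l ^ 2 * (1 - a l) ^ 2) := by
  rw [← mul_pow]
  refine (hcap l).resolve_right fun hl => ?_
  have hπ := pi_pos
  have hrest : ∑ j ∈ univ.erase l, a j = 1 - a l := by
    rw [← hsum, ← add_sum_erase _ _ (mem_univ l)]; ring
  have hj : ∀ j ∈ univ.erase l, s j ≤ 8 / π * (4 / 27) * a j := by
    intro j hj
    have h1 := single_le_sum (fun i _ => ha i) hj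
    rw [hrest] at h1
    rcases hcap j with h | h
    · refine h.trans ?_
      have h2 : (a j * (1 - a j)) ^ 2 ≤ 4 / 27 * a j := by
        have h3 : a j * (1 - a j) ^ 2 ≤ 4 / 27 := by
          nlinarith [mul_nonneg (sq_nonneg (a j - 1 / 3)) (show 0 ≤ 4 / 3 - a j by linarith)]
        have h4 := mul_le_mul_of_nonneg_left h3 (ha j)
        linarith
      have := mul_le_mul_of_nonneg_left h2 (show 0 ≤ 8 / π by positivity)
      linarith
    · refine (hhalf j).trans ?_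
      rw [show a j = 1 / 2 by linarith]
      rw [div_le_iff₀ (by positivity)]; field_simp; norm_num
  have h5 := sum_le_sum hj
  rw [← mul_sum, hrest] at h5
  have h6 := mul_le_mul_of_nonneg_left (show 1 - a l ≤ 1 / 2 by linarith)
    (show 0 ≤ 8 / π * (4 / 27) by positivity)
  have h7 : 1 / (2 * π) + 8 / π * (4 / 27) * (1 / 2) ≤ 9 / (8 * π) := by
    field_simp; norm_num
  rw [← add_sum_erase _ _ (mem_univ l)] at hS
  linarith [hhalf l]

/-- The triangle of three long projected vectors with zero sum has large area. -/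
theorem four_gram {p q r : ℝ} (hp : 9 / 250 ≤ p) (hp' : p ≤ 4 / 25) (hq : 9 / 250 ≤ q)
    (hq' : q ≤ 4 / 25) (hr : 9 / 250 ≤ r) (hr' : r ≤ 4 / 25) (hsum : 33 / 100 ≤ p + q + r) :
    11 / 625 ≤ 2 * (p * q + p * r + q * r) - (p ^ 2 + q ^ 2 + r ^ 2) := by
  nlinarith [mul_nonneg (sub_nonneg.2 hp) (sub_nonneg.2 hq), mul_nonneg (sub_nonneg.2 hp) (sub_nonneg.2 hr),
    mul_nonneg (sub_nonneg.2 hq) (sub_nonneg.2 hr), mul_nonneg (sub_nonneg.2 hp') (sub_nonneg.2 hq'),
    mul_nonneg (sub_nonneg.2 hp') (sub_nonneg.2 hr'), mul_nonneg (sub_nonneg.2 hq') (sub_nonneg.2 hr'),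
    mul_nonneg (sub_nonneg.2 hp) (sub_nonneg.2 hp'), mul_nonneg (sub_nonneg.2 hq) (sub_nonneg.2 hq'),
    mul_nonneg (sub_nonneg.2 hr) (sub_nonneg.2 hr')]

/-- Four cells cannot be above the propeller value, given the cap bound in three dimensions. -/
theorem four_false {d : ℕ} {κ : Type*} [Fintype κ] [DecidableEq κ]
    (z : κ → EuclideanSpace ℝ (Fin d)) (hκ : Fintype.card κ = 4) (hsum : ∑ l, z l = 0)
    (hneg : ∀ j l, j ≠ l → ⟪z j, z l⟫ < 0)
    (hmom : ∀ l, mom (below z l (univ.erase l)) = z l)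
    (ha : ∑ l, (gam d).real (below z l (univ.erase l)) = 1)
    (hs2 : ∀ l, ‖z l‖ ^ 2 < 2 * (gam d).real (below z l (univ.erase l)) ^ 2)
    (hcap : ∀ l, ‖z l‖ ^ 2 ≤ 8 / π * ((gam d).real (below z l (univ.erase l)) *
      (1 - (gam d).real (below z l (univ.erase l)))) ^ 2 ∨
      1 / 2 ≤ (gam d).real (below z l (univ.erase l)))
    (hfail : ∀ i, ∀ [Nonempty κ] [Nonempty {l // l ≠ i}],
      Fintype.card κ * ‖z i‖ ^ 2 / (2 * (Fintype.card κ - 1)) <
        ∫ x, maxForm z x ∂gam d - ∫ x, maxForm (fun l : {l // l ≠ i} => z l.1) x ∂gam d)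
    (hS : 9 / (8 * π) < ∑ l, ‖z l‖ ^ 2) : False := by
  set a : κ → ℝ := fun l => (gam d).real (below z l (univ.erase l)) with hadef
  have ha0 : ∀ l, 0 ≤ a l := fun l => measureReal_nonneg
  have hhalf : ∀ l, ‖z l‖ ^ 2 ≤ 1 / (2 * π) := fun l => by
    rw [← hmom l]; exact norm_moment_sq_le_half _
  obtain ⟨i, hi, hlong⟩ := four_small hκ a (fun l => ‖z l‖ ^ 2) ha0 ha
    (fun l => (hs2 l).le) (profile_of_cap a _ ha0 ha hhalf hcap hS) hS
  obtain ⟨j₁, j₂, j₃, h12, h13, h23, he⟩ := card_eq_three.1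
    (show (univ.erase i).card = 3 by rw [card_erase_of_mem (mem_univ i), card_univ, hκ])
  have hj : ∀ l, l = j₁ ∨ l = j₂ ∨ l = j₃ → l ≠ i := fun l hl =>
    ne_of_mem_erase (s := univ) (by rw [he]; simpa using hl)
  have n1 := hj j₁ (Or.inl rfl)
  have n2 := hj j₂ (Or.inr (Or.inl rfl))
  have n3 := hj j₃ (Or.inr (Or.inr rfl))
  have : Nonempty κ := ⟨i⟩
  have : Nonempty {l // l ≠ i} := ⟨⟨j₁, n1⟩⟩
  have hcell := small_cell i j₁ j₂ j₃ h12 h13 h23 n1 n2 n3 hsum hneg (hmom i) (hfail i)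
  have hw0 : 0 < ‖z i‖ ^ 2 := by
    refine pow_pos (norm_pos_iff.2 fun h => ?_) 2
    have := hneg i j₁ n1.symm
    rw [h, inner_zero_left] at this
    exact lt_irrefl _ this
  set δ : κ → ℝ := fun l => ⟪z i, z l⟫ ^ 2 / ‖z i‖ ^ 2 with hδdef
  have hperp : ∀ l, ‖perp (z i) (z l)‖ ^ 2 = ‖z l‖ ^ 2 - δ l := fun l => by
    rw [perp, norm_sub_sq_real, norm_smul, mul_pow, Real.norm_eq_abs, sq_abs,
      real_inner_smul_right, real_inner_comm (z i) (z l)]
    simp only [hδdef]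
    field_simp
    ring
  have hz4 : z i + z j₁ + z j₂ + z j₃ = 0 := by
    rw [← add_sum_erase univ z (mem_univ i), he, sum_insert (by simp [h12, h13]),
      sum_insert (by simp [h23]), sum_singleton] at hsum
    rw [← hsum]; abel
  have hrow : ‖z i‖ ^ 2 = -⟪z i, z j₁⟫ + -⟪z i, z j₂⟫ + -⟪z i, z j₃⟫ := by
    have := congrArg (fun v => ⟪z i, v⟫) hz4
    simp only [inner_add_right, inner_zero_right, real_inner_self_eq_norm_sq] at this
    linarith
  have hR : perp (z i) (z j₃) = -(perp (z i) (z j₁) + perp (z i) (z j₂)) := by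
    have e3 : z j₃ = -(z i + z j₁ + z j₂) := eq_neg_of_add_eq_zero_right hz4
    simp only [perp]
    rw [e3, inner_neg_right, inner_add_right, inner_add_right, real_inner_self_eq_norm_sq,
      neg_div, add_div, add_div, div_self hw0.ne']
    module
  set R₁ := perp (z i) (z j₁)
  set R₂ := perp (z i) (z j₂)
  have hnorm3 : ‖perp (z i) (z j₃)‖ ^ 2 = ‖R₁‖ ^ 2 + 2 * ⟪R₁, R₂⟫ + ‖R₂‖ ^ 2 := by
    rw [hR, norm_neg, norm_add_sq_real]
  have hG : gramDet (R₁ - perp (z i) (z j₃)) (R₂ - perp (z i) (z j₃)) =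
      9 / 4 * (2 * ((‖z j₁‖ ^ 2 - δ j₁) * (‖z j₂‖ ^ 2 - δ j₂) +
        (‖z j₁‖ ^ 2 - δ j₁) * (‖z j₃‖ ^ 2 - δ j₃) + (‖z j₂‖ ^ 2 - δ j₂) * (‖z j₃‖ ^ 2 - δ j₃)) -
        ((‖z j₁‖ ^ 2 - δ j₁) ^ 2 + (‖z j₂‖ ^ 2 - δ j₂) ^ 2 + (‖z j₃‖ ^ 2 - δ j₃) ^ 2)) := by
    rw [← hperp, ← hperp, ← hperp, hnorm3, hR, gramDet]
    simp only [← real_inner_self_eq_norm_sq, sub_neg_eq_add, inner_add_left, inner_add_right,
      real_inner_comm R₁ R₂]
    ring
  have hq1 := neg_nonneg.2 (hneg i j₁ n1.symm).le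
  have hq2 := neg_nonneg.2 (hneg i j₂ n2.symm).le
  have hq3 := neg_nonneg.2 (hneg i j₃ n3.symm).le
  have hδsum : δ j₁ + δ j₂ + δ j₃ ≤ ‖z i‖ ^ 2 := by
    simp only [hδdef]
    rw [← add_div, ← add_div, div_le_iff₀ hw0, hrow]
    linarith [mul_nonneg hq1 hq2, mul_nonneg hq1 hq3, mul_nonneg hq2 hq3]
  have hδ0 : ∀ l, 0 ≤ δ l := fun l => by simp only [hδdef]; positivity
  have hsi : ‖z i‖ ^ 2 ≤ 689 / 50000 := by
    have := pow_le_pow_left₀ (ha0 i) hi.le 2
    linarith [hs2 i]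
  have hS4 : ∑ l, ‖z l‖ ^ 2 = ‖z i‖ ^ 2 + ‖z j₁‖ ^ 2 + ‖z j₂‖ ^ 2 + ‖z j₃‖ ^ 2 := by
    rw [← add_sum_erase univ _ (mem_univ i), he, sum_insert (by simp [h12, h13]),
      sum_insert (by simp [h23]), sum_singleton]
    ring
  have hc : (358 : ℝ) / 1000 ≤ 9 / (8 * π) := by
    rw [le_div_iff₀ (by positivity)]; linarith [pi_lt_d4]
  have hT := four_gram (p := ‖z j₁‖ ^ 2 - δ j₁) (q := ‖z j₂‖ ^ 2 - δ j₂) (r := ‖z j₃‖ ^ 2 - δ j₃)
    (by linarith [(hlong j₁ n1).1, hδ0 j₂, hδ0 j₃]) (by linarith [(hlong j₁ n1).2, hδ0 j₁])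
    (by linarith [(hlong j₂ n2).1, hδ0 j₁, hδ0 j₃]) (by linarith [(hlong j₂ n2).2, hδ0 j₂])
    (by linarith [(hlong j₃ n3).1, hδ0 j₁, hδ0 j₂]) (by linarith [(hlong j₃ n3).2, hδ0 j₃])
    (by linarith)
  have hsq : (1989 : ℝ) / 10000 ≤ √(gramDet (R₁ - perp (z i) (z j₃)) (R₂ - perp (z i) (z j₃))) := by
    refine Real.le_sqrt_of_sq_le ?_
    rw [hG]; linarith
  rw [hκ] at hcell
  norm_num at hcell
  linarith

end Vale.Agent.P226
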