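import Vale.Agent.P226.Third

/-! For many cells, some cell of a configuration above the propeller value is small. -/

open Real Finset

namespace Vale.Agent.P226

/-- A sum bound from an affine majorant above a threshold. -/
lemma exists_lt_of_affine {κ : Type*} [Fintype κ] [Nonempty κ] {s a : κ → ℝ} {r M e : ℝ}
    (hr : 0 ≤ r) (ha1 : ∑ l, a l ≤ 1) (h : ∀ l, e ≤ a l → s l ≤ r * a l + M)
    (hc : r + (Fintype.card κ : ℝ) * M ≤ 9 / (8 * π)) (hS : 9 / (8 * π) < ∑ l, s l) :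
    ∃ l, a l < e := by
  by_contra hne
  push Not at hne
  have h1 : ∑ l, s l ≤ r * ∑ l, a l + (Fintype.card κ : ℝ) * M := by
    refine (sum_le_sum fun l _ => h l (hne l)).trans (le_of_eq ?_)
    rw [sum_add_distrib, ← mul_sum, sum_const, nsmul_eq_mul, card_univ]
  have h2 := mul_le_mul_of_nonneg_left ha1 hr
  linarith

lemma c_lower : (35809 / 100000 + 8 / 1000000 : ℝ) ≤ 9 / (8 * π) := by
  rw [le_div_iff₀ (by positivity)]; nlinarith [Real.pi_lt_d6]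

/-- An affine majorant of the squared profile on an interval, via seven tangent lines. -/
lemma le_affine_of_tangents {s a r M e : ℝ} (he : 0 ≤ e) (he' : e ≤ a) (ha1 : a ≤ 1)
    (h2 : s ≤ 2 * a ^ 2)
    (hs : ∀ t, s ≤ (max 0 (t * a + (phi t - t * cphi t))) ^ 2)
    (hrM : r = 4425 / 10000 ∧ M = -9378 / 1000000 ∧ e = 2375 / 100000 ∨
      r = 44 / 100 ∧ M = -1024 / 125000 ∧ e = 206 / 10000 ∨
      r = 4325 / 10000 ∧ M = -6764 / 1000000 ∧ e = 171 / 10000 ∨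
      r = 43 / 100 ∧ M = -6 / 1000 ∧ e = 151 / 10000) :
    s ≤ r * a + M := by
  rcases le_total a (19 / 100) with h | h
  · rcases hrM with ⟨rfl, rfl, rfl⟩ | ⟨rfl, rfl, rfl⟩ | ⟨rfl, rfl, rfl⟩ | ⟨rfl, rfl, rfl⟩ <;> nlinarith
  rcases le_total a (215 / 1000) with h' | h'
  · refine sq_line_le (hs (789 / 1000)) (by norm_num) ?_ (excess_le (by norm_num) (by norm_num))
      (by norm_num) h h' ?_ ?_ <;>
      rcases hrM with ⟨rfl, rfl, -⟩ | ⟨rfl, rfl, -⟩ | ⟨rfl, rfl, -⟩ | ⟨rfl, rfl, -⟩ <;> norm_num [expUp, primUp]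
  clear h
  rcases le_total a (240 / 1000) with h | h
  · refine sq_line_le (hs (733 / 1000)) (by norm_num) ?_ (excess_le (by norm_num) (by norm_num))
      (by norm_num) h' h ?_ ?_ <;>
      rcases hrM with ⟨rfl, rfl, -⟩ | ⟨rfl, rfl, -⟩ | ⟨rfl, rfl, -⟩ | ⟨rfl, rfl, -⟩ <;> norm_num [expUp, primUp]
  clear h'
  rcases le_total a (262 / 1000) with h' | h'
  · refine sq_line_le (hs (694 / 1000)) (by norm_num) ?_ (excess_le (by norm_num) (by norm_num))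
      (by norm_num) h h' ?_ ?_ <;>
      rcases hrM with ⟨rfl, rfl, -⟩ | ⟨rfl, rfl, -⟩ | ⟨rfl, rfl, -⟩ | ⟨rfl, rfl, -⟩ <;> norm_num [expUp, primUp]
  clear h
  rcases le_total a (285 / 1000) with h | h
  · refine sq_line_le (hs (637 / 1000)) (by norm_num) ?_ (excess_le (by norm_num) (by norm_num))
      (by norm_num) h' h ?_ ?_ <;>
      rcases hrM with ⟨rfl, rfl, -⟩ | ⟨rfl, rfl, -⟩ | ⟨rfl, rfl, -⟩ | ⟨rfl, rfl, -⟩ <;> norm_num [expUp, primUp]
  clear h'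
  rcases le_total a (320 / 1000) with h' | h'
  · refine sq_line_le (hs (568 / 1000)) (by norm_num) ?_ (excess_le (by norm_num) (by norm_num))
      (by norm_num) h h' ?_ ?_ <;>
      rcases hrM with ⟨rfl, rfl, -⟩ | ⟨rfl, rfl, -⟩ | ⟨rfl, rfl, -⟩ | ⟨rfl, rfl, -⟩ <;> norm_num [expUp, primUp]
  clear h
  rcases le_total a (400 / 1000) with h | h
  · refine sq_line_le (hs (468 / 1000)) (by norm_num) ?_ (excess_le (by norm_num) (by norm_num))
      (by norm_num) h' h ?_ ?_ <;>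
      rcases hrM with ⟨rfl, rfl, -⟩ | ⟨rfl, rfl, -⟩ | ⟨rfl, rfl, -⟩ | ⟨rfl, rfl, -⟩ <;> norm_num [expUp, primUp]
  · refine sq_line_le (hs (253 / 1000)) (by norm_num) ?_ (excess_le (by norm_num) (by norm_num))
      (by norm_num) h ha1 ?_ ?_ <;>
      rcases hrM with ⟨rfl, rfl, -⟩ | ⟨rfl, rfl, -⟩ | ⟨rfl, rfl, -⟩ | ⟨rfl, rfl, -⟩ <;> norm_num [expUp, primUp]

/-- (C2) for at least nine cells: some cell is small. -/
theorem exists_small_cell {κ : Type*} [Fintype κ] (s a : κ → ℝ) (ha0 : ∀ l, 0 ≤ a l)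
    (ha1 : ∑ l, a l ≤ 1) (h2 : ∀ l, s l ≤ 2 * a l ^ 2)
    (hs : ∀ l t, s l ≤ (max 0 (t * a l + (phi t - t * cphi t))) ^ 2)
    (hS : 9 / (8 * π) < ∑ l, s l) :
    (9 ≤ Fintype.card κ → ∃ l, a l < 2375 / 100000) ∧
    (10 ≤ Fintype.card κ → ∃ l, a l < 206 / 10000) ∧
    (11 ≤ Fintype.card κ → ∃ l, a l < 171 / 10000) ∧
    (12 ≤ Fintype.card κ → ∃ l, a l < 151 / 10000) := by
  have hal : ∀ l, a l ≤ 1 := fun l =>
    (single_le_sum (fun j _ => ha0 j) (mem_univ l)).trans ha1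
  have hc := c_lower
  have main : ∀ (n : ℕ) (r M e : ℝ), n ≤ Fintype.card κ → 0 < n →
      (r = 4425 / 10000 ∧ M = -9378 / 1000000 ∧ e = 2375 / 100000 ∨
      r = 44 / 100 ∧ M = -1024 / 125000 ∧ e = 206 / 10000 ∨
      r = 4325 / 10000 ∧ M = -6764 / 1000000 ∧ e = 171 / 10000 ∨
      r = 43 / 100 ∧ M = -6 / 1000 ∧ e = 151 / 10000) →
      0 ≤ r → 0 ≤ e → M ≤ 0 → r + n * M ≤ 9 / (8 * π) → ∃ l, a l < e := by
    intro n r M e hn hn0 hrM hr he hM hrn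
    have : Nonempty κ := Fintype.card_pos_iff.1 (by omega)
    refine exists_lt_of_affine hr ha1
      (fun l hl => le_affine_of_tangents he hl (hal l) (h2 l) (hs l) hrM) ?_ hS
    have := mul_le_mul_of_nonpos_right ((Nat.cast_le (α := ℝ)).2 hn) hM
    linarith
  refine ⟨fun h => main 9 _ _ _ h (by norm_num) (.inl ⟨rfl, rfl, rfl⟩) ?_ ?_ ?_ ?_,
    fun h => main 10 _ _ _ h (by norm_num) (.inr (.inl ⟨rfl, rfl, rfl⟩)) ?_ ?_ ?_ ?_,
    fun h => main 11 _ _ _ h (by norm_num) (.inr (.inr (.inl ⟨rfl, rfl, rfl⟩))) ?_ ?_ ?_ ?_,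
    fun h => main 12 _ _ _ h (by norm_num) (.inr (.inr (.inr ⟨rfl, rfl, rfl⟩))) ?_ ?_ ?_ ?_⟩ <;>
    norm_num at hc ⊢ <;> linarith

end Vale.Agent.P226
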