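import Vale.Agent.P226.Induction
import Vale.Agent.P226.DeltaBound
import Vale.Agent.P226.MinCell
import Vale.Agent.P226.Final5
import Vale.Agent.P226.Four

/-! Assembly: a balanced obtuse fixed point in which no deletion is cheap has total at most
`9 / (8 π)`. -/

open MeasureTheory Set Filter Real ProbabilityTheory
open scoped Topology RealInnerProductSpace NNReal

namespace Vale.Agent.P226

variable {d : ℕ} {κ : Type*} [Fintype κ] [DecidableEq κ]

/-- The measure of the `l`-th cell of a configuration. -/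
noncomputable def cellMass (z : κ → EuclideanSpace ℝ (Fin d)) (l : κ) : ℝ :=
  (gam d).real (below z l (Finset.univ.erase l))

lemma cellMass_nonneg (z : κ → EuclideanSpace ℝ (Fin d)) (l : κ) : 0 ≤ cellMass z l :=
  measureReal_nonneg

/-- The tangent bounds of the half-space profile for a fixed point. -/
lemma sq_norm_le_tangent {z : κ → EuclideanSpace ℝ (Fin d)}
    (hmom : ∀ l, mom (below z l (Finset.univ.erase l)) = z l) (l : κ) (t : ℝ) :
    ‖z l‖ ^ 2 ≤ (max 0 (t * cellMass z l + (phi t - t * cphi t))) ^ 2 := by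
  refine pow_le_pow_left₀ (norm_nonneg _) ?_ 2
  have := norm_moment_le (below z l (Finset.univ.erase l)) t
  rw [← show mom (below z l (Finset.univ.erase l)) = z l from hmom l]
  exact this

lemma sq_norm_le_half {z : κ → EuclideanSpace ℝ (Fin d)}
    (hmom : ∀ l, mom (below z l (Finset.univ.erase l)) = z l) (l : κ) :
    ‖z l‖ ^ 2 ≤ 1 / (2 * π) := by
  rw [← hmom l]
  exact norm_moment_sq_le_half _

omit [DecidableEq κ] in
/-- Three largest values. -/
lemma exists_top_three (s : κ → ℝ) {θ : ℝ}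
    (h : 2 < (Finset.univ.filter fun l => θ ≤ s l).card) :
    ∃ l₁ l₂ l₃, l₁ ≠ l₂ ∧ l₁ ≠ l₃ ∧ l₂ ≠ l₃ ∧ θ ≤ s l₃ ∧ s l₃ ≤ s l₂ ∧ s l₂ ≤ s l₁ ∧
      ∀ l, l ≠ l₁ → l ≠ l₂ → s l ≤ s l₃ := by
  classical
  set F := Finset.univ.filter fun l => θ ≤ s l with hF
  obtain ⟨l₁, -, h1⟩ := Finset.exists_max_image F s (Finset.card_pos.1 (by omega))
  have hne1 : (Finset.univ.erase l₁).Nonempty := by
    rw [← Finset.card_pos, Finset.card_erase_of_mem (Finset.mem_univ _)]
    have := Finset.card_le_univ F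
    rw [Finset.card_univ] at *
    omega
  have hall1 : ∀ l, s l ≤ s l₁ := fun l => by
    by_cases hl : l ∈ F
    · exact h1 l hl
    · obtain ⟨m, hm⟩ := Finset.card_pos.1 (show 0 < F.card by omega)
      have h2 : θ ≤ s m := (Finset.mem_filter.1 hm).2
      have h3 : s l < θ := not_le.1 fun c => hl (Finset.mem_filter.2 ⟨Finset.mem_univ _, c⟩)
      linarith [h1 m hm]
  obtain ⟨l₂, hl₂, h2⟩ := Finset.exists_max_image _ s hne1
  have hne2 : ((Finset.univ.erase l₁).erase l₂).Nonempty := by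
    rw [← Finset.card_pos, Finset.card_erase_of_mem hl₂,
      Finset.card_erase_of_mem (Finset.mem_univ _)]
    have := Finset.card_le_univ F
    rw [Finset.card_univ] at *
    omega
  obtain ⟨l₃, hl₃, h3⟩ := Finset.exists_max_image _ s hne2
  simp only [Finset.mem_erase, Finset.mem_univ, and_true] at hl₂ hl₃
  have hθ : θ ≤ s l₃ := by
    obtain ⟨m, hm⟩ : ((F.erase l₁).erase l₂).Nonempty := by
      rw [← Finset.card_pos]
      have e1 := Finset.pred_card_le_card_erase (a := l₁) (s := F)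
      have e2 := Finset.pred_card_le_card_erase (a := l₂) (s := F.erase l₁)
      omega
    simp only [Finset.mem_erase, F, Finset.mem_filter, Finset.mem_univ, true_and] at hm
    exact hm.2.2.trans (h3 m (by simp [hm.1, hm.2.1]))
  exact ⟨l₁, l₂, l₃, hl₂.symm, hl₃.2.symm, hl₃.1.symm, hθ, h2 l₃ (by simp [hl₃.2]), hall1 l₂,
    fun l a b => h3 l (by simp [a, b])⟩

/-- No bad configuration with at least five cells has a cell of measure within the area cut. -/
theorem no_bad_of_le_cut (z : κ → EuclideanSpace ℝ (Fin d)) (hk : 5 ≤ Fintype.card κ)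
    (hsum : ∑ l, z l = 0) (hneg : ∀ j l, j ≠ l → ⟪z j, z l⟫ < 0)
    (hmom : ∀ l, mom (below z l (Finset.univ.erase l)) = z l)
    (ha1 : ∑ l, cellMass z l = 1) (h2 : ∀ l, ‖z l‖ ^ 2 < 2 * cellMass z l ^ 2)
    (hfail : ∀ i, ∀ [Nonempty κ] [Nonempty {l // l ≠ i}],
      Fintype.card κ * ‖z i‖ ^ 2 / (2 * (Fintype.card κ - 1)) <
        ∫ x, maxForm z x ∂gam d - ∫ x, maxForm (fun l : {l // l ≠ i} => z l.1) x ∂gam d)
    (hS : 9 / (8 * π) < ∑ l, ‖z l‖ ^ 2) {i : κ}
    (hi : cellMass z i ≤ areaCut (Fintype.card κ)) : False := by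
  set s : κ → ℝ := fun l => ‖z l‖ ^ 2
  have hcard3 : 2 < (Finset.univ.filter fun l => (193 / 5000 : ℝ) ≤ s l).card :=
    two_lt_card_large s (cellMass z) (cellMass_nonneg z) ha1.le (fun l => (h2 l).le)
      (sq_norm_le_tangent hmom) hS
  obtain ⟨l₁, l₂, l₃, h12, h13, h23, hθ, h32, h21, hrest⟩ := exists_top_three s hcard3
  set a := cellMass z i
  have ha : 0 ≤ a := cellMass_nonneg z i
  have hcut : a ≤ 478 / 10000 := by
    refine hi.trans ?_
    unfold areaCut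
    repeat' split_ifs
    all_goals norm_num
  have hsi : s i ≤ 2 * a ^ 2 := (h2 i).le
  have hsmall : 2 * a ^ 2 < 193 / 5000 := by nlinarith
  have hi3 : l₃ ≠ i := fun c => by rw [c] at hθ; linarith
  have hi2 : l₂ ≠ i := fun c => by rw [c] at h32; linarith
  have hi1 : l₁ ≠ i := fun c => by rw [c] at h21; linarith
  have : Nonempty κ := ⟨i⟩
  have : Nonempty {l // l ≠ i} := ⟨⟨l₁, hi1⟩⟩
  have hG := gramDet_perp_ge i l₁ l₂ l₃ h12 h13 h23 hi1 hi2 hi3 hsum hneg (t := 2 * a ^ 2) hsi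
    (by change _ ≤ s l₃; linarith) h21 h32
  have hlt := small_cell i l₁ l₂ l₃ h12 h13 h23 hi1 hi2 hi3 hsum hneg (hmom i) (hfail i)
  have hsumle : 9 / (8 * π) - 2 * a ^ 2 ≤
      s l₁ + s l₂ + ((Fintype.card κ : ℝ) - 3) * s l₃ := by
    have hmem2 : l₂ ∈ Finset.univ.erase l₁ := Finset.mem_erase.2 ⟨h12.symm, Finset.mem_univ _⟩
    have hmemi : i ∈ (Finset.univ.erase l₁).erase l₂ :=
      Finset.mem_erase.2 ⟨hi2.symm, Finset.mem_erase.2 ⟨hi1.symm, Finset.mem_univ _⟩⟩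
    have e : ∑ l, s l = s l₁ + (s l₂ + (s i +
        ∑ l ∈ ((Finset.univ.erase l₁).erase l₂).erase i, s l)) := by
      rw [Finset.add_sum_erase _ _ hmemi, Finset.add_sum_erase _ _ hmem2,
        Finset.add_sum_erase _ _ (Finset.mem_univ _)]
    have hc : ((((Finset.univ.erase l₁).erase l₂).erase i).card : ℝ) =
        (Fintype.card κ : ℝ) - 3 := by
      rw [Finset.card_erase_of_mem hmemi, Finset.card_erase_of_mem hmem2,
        Finset.card_erase_of_mem (Finset.mem_univ _), Finset.card_univ, Nat.cast_sub (by omega),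
        Nat.cast_sub (by omega), Nat.cast_sub (by omega)]
      push_cast
      ring
    have hle := Finset.sum_le_sum (s := ((Finset.univ.erase l₁).erase l₂).erase i) (f := s)
      (g := fun _ => s l₃) fun l hl => by
      simp only [Finset.mem_erase] at hl
      exact hrest l hl.2.2.1 hl.2.1
    rw [Finset.sum_const, nsmul_eq_mul, hc] at hle
    change 9 / (8 * π) < ∑ l, s l at hS
    linarith
  have hfin := area_le_gram hk ha hi h32 h21 (sq_norm_le_half hmom l₁) hθ hsumle hG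
  have hk5 : (5 : ℝ) ≤ Fintype.card κ := by exact_mod_cast hk
  have hN : ((Fintype.card κ : ℝ) - 2) / ((Fintype.card κ : ℝ) - 1) + 2 / 3 =
      5 / 3 - 1 / ((Fintype.card κ : ℝ) - 1) := by
    have : (Fintype.card κ : ℝ) - 1 ≠ 0 := by linarith
    field_simp
    ring
  rw [hN] at hfin
  have hpos : 0 < 5 / 3 - 1 / ((Fintype.card κ : ℝ) - 1) := by
    have : 1 / ((Fintype.card κ : ℝ) - 1) ≤ 1 := by
      rw [div_le_one (by linarith)]; linarith
    linarith
  rw [le_div_iff₀ (by positivity)] at hfin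
  exact absurd hlt (not_lt.2 hfin)

/-- No bad configuration with at least nine cells. -/
theorem no_bad_nine (z : κ → EuclideanSpace ℝ (Fin d)) (hk : 9 ≤ Fintype.card κ)
    (hsum : ∑ l, z l = 0) (hneg : ∀ j l, j ≠ l → ⟪z j, z l⟫ < 0)
    (hmom : ∀ l, mom (below z l (Finset.univ.erase l)) = z l)
    (ha1 : ∑ l, cellMass z l = 1) (h2 : ∀ l, ‖z l‖ ^ 2 < 2 * cellMass z l ^ 2)
    (hfail : ∀ i, ∀ [Nonempty κ] [Nonempty {l // l ≠ i}],
      Fintype.card κ * ‖z i‖ ^ 2 / (2 * (Fintype.card κ - 1)) <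
        ∫ x, maxForm z x ∂gam d - ∫ x, maxForm (fun l : {l // l ≠ i} => z l.1) x ∂gam d)
    (hS : 9 / (8 * π) < ∑ l, ‖z l‖ ^ 2) : False := by
  obtain ⟨h9, h10, h11, -⟩ := exists_small_cell (fun l => ‖z l‖ ^ 2) (cellMass z)
    (cellMass_nonneg z) ha1.le (fun l => (h2 l).le) (sq_norm_le_tangent hmom) hS
  have key : ∀ e : ℝ, e ≤ areaCut (Fintype.card κ) → (∃ l, cellMass z l < e) → False :=
    fun e he ⟨i, hi⟩ => no_bad_of_le_cut z (by omega) hsum hneg hmom ha1 h2 hfail hS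
      (hi.le.trans he)
  rcases lt_or_ge (Fintype.card κ) 10 with h | h
  · refine key _ ?_ (h9 hk)
    rw [show Fintype.card κ = 9 by omega]
    norm_num [areaCut]
  rcases lt_or_ge (Fintype.card κ) 11 with h' | h'
  · refine key _ ?_ (h10 h)
    rw [show Fintype.card κ = 10 by omega]
    norm_num [areaCut]
  · refine key _ ?_ (h11 h')
    unfold areaCut
    repeat' split_ifs
    all_goals first | omega | norm_num

/-- The Gram determinant of the projections of three vectors summing to zero. -/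
lemma gramDet_sub_of_sum_zero {A B C : EuclideanSpace ℝ (Fin d)} (h : A + B + C = 0) :
    gramDet (A - C) (B - C) = 9 / 4 * (2 * (‖A‖ ^ 2 * ‖B‖ ^ 2 + ‖A‖ ^ 2 * ‖C‖ ^ 2 +
      ‖B‖ ^ 2 * ‖C‖ ^ 2) - ((‖A‖ ^ 2) ^ 2 + (‖B‖ ^ 2) ^ 2 + (‖C‖ ^ 2) ^ 2)) := by
  have hC : C = -(A + B) := eq_neg_of_add_eq_zero_right h
  subst hC
  simp only [gramDet, sub_neg_eq_add, norm_neg, ← real_inner_self_eq_norm_sq, inner_add_left,
    inner_add_right, real_inner_comm A B]
  ring

/-- No bad configuration with four cells, given the cap profile in three dimensions. -/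
theorem no_bad_four (z : κ → EuclideanSpace ℝ (Fin d)) (hk : Fintype.card κ = 4)
    (hsum : ∑ l, z l = 0) (hneg : ∀ j l, j ≠ l → ⟪z j, z l⟫ < 0)
    (hmom : ∀ l, mom (below z l (Finset.univ.erase l)) = z l)
    (ha1 : ∑ l, cellMass z l = 1) (h2 : ∀ l, ‖z l‖ ^ 2 < 2 * cellMass z l ^ 2)
    (hcap : ∀ l, ‖z l‖ ^ 2 ≤ 8 / π * (cellMass z l ^ 2 * (1 - cellMass z l) ^ 2))
    (hfail : ∀ i, ∀ [Nonempty κ] [Nonempty {l // l ≠ i}],
      Fintype.card κ * ‖z i‖ ^ 2 / (2 * (Fintype.card κ - 1)) <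
        ∫ x, maxForm z x ∂gam d - ∫ x, maxForm (fun l : {l // l ≠ i} => z l.1) x ∂gam d)
    (hS : 9 / (8 * π) < ∑ l, ‖z l‖ ^ 2) : False := by
  obtain ⟨i, hi, hlong⟩ := four_small hk (cellMass z) (fun l => ‖z l‖ ^ 2) (cellMass_nonneg z) ha1
    (fun l => (h2 l).le) hcap hS
  have hc3 : (Finset.univ.erase i).card = 3 := by
    rw [Finset.card_erase_of_mem (Finset.mem_univ i), Finset.card_univ, hk]
  obtain ⟨j₁, j₂, j₃, h12, h13, h23, he⟩ := Finset.card_eq_three.1 hc3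
  have hmem : ∀ {j}, j ∈ ({j₁, j₂, j₃} : Finset κ) → j ≠ i := fun hj =>
    Finset.ne_of_mem_erase (he ▸ hj)
  have h1 : j₁ ≠ i := hmem (by simp)
  have h2' : j₂ ≠ i := hmem (by simp)
  have h3 : j₃ ≠ i := hmem (by simp)
  have : Nonempty κ := ⟨i⟩
  have : Nonempty {l // l ≠ i} := ⟨⟨j₁, h1⟩⟩
  have hlt := small_cell i j₁ j₂ j₃ h12 h13 h23 h1 h2' h3 hsum hneg (hmom i) (hfail i)
  have hz0 : z i ≠ 0 := fun h => by
    have := hneg i j₁ h1.symm
    rw [h, inner_zero_left] at this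
    exact lt_irrefl _ this
  set si := ‖z i‖ ^ 2 with hsi
  have hsi0 : 0 < si := by positivity
  have hsplit : ∀ {M : Type} [AddCommMonoid M] (f : κ → M),
      ∑ l, f l = f i + (f j₁ + f j₂ + f j₃) := fun f => by
    rw [← Finset.add_sum_erase _ _ (Finset.mem_univ i), he, Finset.sum_insert (by simp [h12, h13]),
      Finset.sum_pair h23, add_assoc (f j₁)]
  have hperp : ∀ v, ‖perp (z i) v‖ ^ 2 = ‖v‖ ^ 2 - ⟪z i, v⟫ ^ 2 / si := fun v => by
    rw [← real_inner_self_eq_norm_sq, inner_perp_perp hz0, real_inner_self_eq_norm_sq]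
    ring
  have hzero : perp (z i) (z j₁) + perp (z i) (z j₂) + perp (z i) (z j₃) = 0 := by
    have hs := hsplit (fun l => perp (z i) (z l))
    have hself : perp (z i) (z i) = 0 := by
      rw [perp, real_inner_self_eq_norm_sq, div_self hsi0.ne', one_smul, sub_self]
    rw [hself, zero_add] at hs
    rw [← hs]
    simp only [perp, Finset.sum_sub_distrib, ← Finset.sum_smul, ← Finset.sum_div, ← inner_sum,
      hsum, inner_zero_right, zero_div, zero_smul, sub_zero]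
  rw [gramDet_sub_of_sum_zero hzero, hperp, hperp, hperp] at hlt
  set g : κ → ℝ := fun j => -⟪z i, z j⟫ with hg
  have hg0 : ∀ j, j ≠ i → 0 ≤ g j := fun j hj => neg_nonneg.2 (hneg i j hj.symm).le
  have hgsum : g j₁ + g j₂ + g j₃ = si := by
    have h0 := hsplit g
    simp only [g, Finset.sum_neg_distrib, ← inner_sum, hsum, inner_zero_right, neg_zero,
      real_inner_self_eq_norm_sq] at h0
    simp only [g]
    linarith
  have hq : ∀ j, ⟪z i, z j⟫ ^ 2 / si = g j ^ 2 / si := fun j => by simp only [g, neg_sq]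
  simp only [hq] at hlt
  have hgle : ∀ j, j ≠ i → g j ≤ si → g j ^ 2 / si ≤ g j := fun j hj h => by
    rw [div_le_iff₀ hsi0, sq]
    exact mul_le_mul_of_nonneg_left h (hg0 j hj)
  have hsib : si ≤ 13778 / 1000000 := by
    have h4 := (h2 i).le
    have := pow_le_pow_left₀ (cellMass_nonneg z i) hi.le 2
    linarith
  have hq1 : g j₁ ^ 2 / si ≤ g j₁ := hgle _ h1 (by linarith [hg0 _ h2', hg0 _ h3])
  have hq2 : g j₂ ^ 2 / si ≤ g j₂ := hgle _ h2' (by linarith [hg0 _ h1, hg0 _ h3])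
  have hq3 : g j₃ ^ 2 / si ≤ g j₃ := hgle _ h3 (by linarith [hg0 _ h1, hg0 _ h2'])
  have hn : ∀ j, 0 ≤ g j ^ 2 / si := fun j => by positivity
  obtain ⟨a1, b1⟩ := hlong _ h1
  obtain ⟨a2, b2⟩ := hlong _ h2'
  obtain ⟨a3, b3⟩ := hlong _ h3
  have hS' := hsplit (fun l => ‖z l‖ ^ 2)
  have hc := c_lower
  have hgram := four_gram (p := ‖z j₁‖ ^ 2 - g j₁ ^ 2 / si) (q := ‖z j₂‖ ^ 2 - g j₂ ^ 2 / si)
    (r := ‖z j₃‖ ^ 2 - g j₃ ^ 2 / si) (by linarith [hg0 _ h2', hg0 _ h3]) (by linarith [hn j₁])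
    (by linarith [hg0 _ h1, hg0 _ h3]) (by linarith [hn j₂])
    (by linarith [hg0 _ h1, hg0 _ h2']) (by linarith [hn j₃]) (by linarith)
  have hroot : (198 / 1000 : ℝ) ≤ √(9 / 4 * (2 * ((‖z j₁‖ ^ 2 - g j₁ ^ 2 / si) *
      (‖z j₂‖ ^ 2 - g j₂ ^ 2 / si) + (‖z j₁‖ ^ 2 - g j₁ ^ 2 / si) *
      (‖z j₃‖ ^ 2 - g j₃ ^ 2 / si) + (‖z j₂‖ ^ 2 - g j₂ ^ 2 / si) *
      (‖z j₃‖ ^ 2 - g j₃ ^ 2 / si)) - ((‖z j₁‖ ^ 2 - g j₁ ^ 2 / si) ^ 2 +
      (‖z j₂‖ ^ 2 - g j₂ ^ 2 / si) ^ 2 + (‖z j₃‖ ^ 2 - g j₃ ^ 2 / si) ^ 2))) :=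
    Real.le_sqrt_of_sq_le (by linarith)
  have hN : (5 / 3 - 1 / (((4 : ℕ) : ℝ) - 1)) ^ 2 = 16 / 9 := by norm_num
  rw [hk, hN] at hlt
  have : cellMass z i < 83 / 1000 := hi
  simp only [cellMass] at this
  linarith

end Vale.Agent.P226
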