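import Vale.Agent.P226.Gauss

/-! Decay of Gaussian integrals against powers of the distribution function. -/

open MeasureTheory Set Filter Real ProbabilityTheory
open scoped Topology NNReal

namespace Vale.Agent.P226

/-- Weighted moment of a power of the distribution function. -/
noncomputable def decay (a : ℝ) (n : ℕ) : ℝ :=
  ∫ s, max s 0 * (1 + max s 0) * (1 - cphi (a * s)) ^ n ∂gaussianReal 0 1

lemma cphi_le_one (x : ℝ) : cphi x ≤ 1 := by
  rw [← integral_phi_Ioi, ← integral_gaussianPDFReal_eq_one 0 one_ne_zero]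
  exact setIntegral_le_integral (integrable_gaussianPDFReal 0 1)
    (Eventually.of_forall fun x => gaussianPDFReal_nonneg _ _ _)

lemma integrable_weight :
    Integrable (fun s : ℝ => max s 0 * (1 + max s 0)) (gaussianReal 0 1) := by
  have h2 : Integrable (fun s : ℝ => s ^ 2) (gaussianReal 0 1) :=
    (IsGaussian.memLp_two_id (μ := gaussianReal 0 1)).integrable_sq
  have h3 : Integrable (fun s : ℝ => 1 + 2 * s ^ 2) (gaussianReal 0 1) :=
    (integrable_const (1 : ℝ)).add (h2.const_mul 2)
  refine h3.mono' (Continuous.aestronglyMeasurable (by fun_prop))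
    (Eventually.of_forall fun s => ?_)
  rw [Real.norm_eq_abs, abs_of_nonneg (by positivity)]
  rcases le_total s 0 with h | h
  · rw [max_eq_right h]; nlinarith
  · rw [max_eq_left h]; nlinarith

lemma decay_nonneg (a : ℝ) (n : ℕ) : 0 ≤ decay a n :=
  integral_nonneg fun s =>
    mul_nonneg (by positivity) (pow_nonneg (sub_nonneg.2 (cphi_le_one _)) n)

lemma integrable_decay (a : ℝ) (n : ℕ) :
    Integrable (fun s : ℝ => max s 0 * (1 + max s 0) * (1 - cphi (a * s)) ^ n)
      (gaussianReal 0 1) := by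
  refine integrable_weight.mono' (Continuous.aestronglyMeasurable ?_)
    (Eventually.of_forall fun s => ?_)
  · have := continuous_cphi
    fun_prop
  · rw [Real.norm_eq_abs, abs_mul, abs_of_nonneg (by positivity : 0 ≤ max s 0 * (1 + max s 0))]
    refine mul_le_of_le_one_right (by positivity) ?_
    rw [abs_pow]
    refine pow_le_one₀ (abs_nonneg _) ?_
    rw [abs_le]; constructor <;> linarith [cphi_pos (a * s), cphi_le_one (a * s)]

lemma tendsto_mul_phi : Tendsto (fun x : ℝ => (x + 2) * phi x) atTop (𝓝 0) := by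
  have h1 := tendsto_pow_mul_exp_neg_atTop_nhds_zero 1
  have h0 := tendsto_pow_mul_exp_neg_atTop_nhds_zero 0
  have h : Tendsto (fun x : ℝ => exp (1 / 2) * (x ^ 1 * exp (-x) + 2 * (x ^ 0 * exp (-x))))
      atTop (𝓝 0) := by
    simpa using (h1.add (h0.const_mul 2)).const_mul (exp (1 / 2))
  refine squeeze_zero' ?_ ?_ h
  · filter_upwards [eventually_ge_atTop (0 : ℝ)] with x hx
    exact mul_nonneg (by linarith) (phi_pos x).le
  · filter_upwards [eventually_ge_atTop (0 : ℝ)] with x hx
    have h2 : (√(2 * π))⁻¹ ≤ 1 :=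
      inv_le_one_of_one_le₀ (Real.one_le_sqrt.2 (by nlinarith [Real.pi_gt_three]))
    have h3 : exp (-(x ^ 2) / 2) ≤ exp (1 / 2) * exp (-x) := by
      rw [← exp_add]; exact exp_le_exp.2 (by nlinarith [sq_nonneg (x - 1)])
    have h4 : phi x ≤ exp (1 / 2) * exp (-x) := by
      rw [phi_eq]
      exact (mul_le_of_le_one_left (exp_pos _).le h2).trans h3
    calc (x + 2) * phi x ≤ (x + 2) * (exp (1 / 2) * exp (-x)) := by gcongr
      _ = exp (1 / 2) * (x ^ 1 * exp (-x) + 2 * (x ^ 0 * exp (-x))) := by ring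

lemma integral_weight_tail {T : ℝ} (hT : 1 ≤ T) :
    ∫ x in Ioi T, (x + x ^ 2) * phi x ≤ (T + 2) * phi T := by
  have hd : ∀ x, HasDerivAt (fun y => -((y + 2) * phi y)) ((x ^ 2 + 2 * x - 1) * phi x) x := by
    intro x
    refine (((hasDerivAt_id x).add_const 2).mul (hasDerivAt_phi x)).neg.congr_deriv ?_
    simp only [id]; ring
  have hi : IntegrableOn (fun x => (x ^ 2 + 2 * x - 1) * phi x) (Ioi T) :=
    integrableOn_Ioi_deriv_of_nonneg' (fun x _ => hd x)
      (fun x hx => mul_nonneg (by nlinarith [mem_Ioi.1 hx]) (phi_pos x).le)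
      (l := -0) tendsto_mul_phi.neg
  have he := integral_Ioi_of_hasDerivAt_of_tendsto' (fun x _ => hd x) hi tendsto_mul_phi.neg
  calc ∫ x in Ioi T, (x + x ^ 2) * phi x ≤ ∫ x in Ioi T, (x ^ 2 + 2 * x - 1) * phi x := by
        refine integral_mono_of_nonneg ?_ hi ?_
        · filter_upwards [ae_restrict_mem measurableSet_Ioi] with x hx
          exact mul_nonneg (by nlinarith [mem_Ioi.1 hx]) (phi_pos x).le
        · filter_upwards [ae_restrict_mem measurableSet_Ioi] with x hx
          exact mul_le_mul_of_nonneg_right (by nlinarith [mem_Ioi.1 hx]) (phi_pos x).le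
    _ = (T + 2) * phi T := by rw [he]; ring

lemma decay_le {a T : ℝ} (ha : 0 < a) (hT : 1 ≤ T) (n : ℕ) :
    decay a n ≤ 3 * exp (-(n : ℝ) * cphi (a * T)) + (T + 2) * phi T := by
  set E := exp (-(n : ℝ) * cphi (a * T))
  have hw : ∀ s : ℝ, 0 ≤ max s 0 * (1 + max s 0) := fun s => by positivity
  have hpt : ∀ s, max s 0 * (1 + max s 0) * (1 - cphi (a * s)) ^ n
      ≤ E * (max s 0 * (1 + max s 0))
        + (Ioi T).indicator (fun s => max s 0 * (1 + max s 0)) s := by
    intro s
    by_cases hs : s ∈ Ioi T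
    · rw [indicator_of_mem hs]
      have h1 : (1 - cphi (a * s)) ^ n ≤ 1 :=
        pow_le_one₀ (sub_nonneg.2 (cphi_le_one _)) (by linarith [cphi_pos (a * s)])
      nlinarith [mul_le_mul_of_nonneg_left h1 (hw s), mul_nonneg (exp_pos (-(n : ℝ) * cphi (a * T))).le (hw s)]
    · rw [indicator_of_notMem hs, add_zero, mul_comm E]
      refine mul_le_mul_of_nonneg_left ?_ (hw s)
      calc (1 - cphi (a * s)) ^ n ≤ (1 - cphi (a * T)) ^ n := by
            refine pow_le_pow_left₀ (sub_nonneg.2 (cphi_le_one _)) ?_ n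
            have : a * s ≤ a * T := mul_le_mul_of_nonneg_left (not_lt.1 hs) ha.le
            linarith [cphi_antitone this]
        _ ≤ exp (-cphi (a * T)) ^ n :=
            pow_le_pow_left₀ (sub_nonneg.2 (cphi_le_one _)) (one_sub_le_exp_neg _) n
        _ = E := by rw [← exp_nat_mul]; congr 1; ring
  have hI : Integrable ((Ioi T).indicator fun s : ℝ => max s 0 * (1 + max s 0))
      (gaussianReal 0 1) := integrable_weight.indicator measurableSet_Ioi
  refine (integral_mono (integrable_decay a n) ((integrable_weight.const_mul E).add hI) hpt).trans ?_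
  simp only [Pi.add_apply]
  rw [integral_add (integrable_weight.const_mul E) hI, integral_const_mul]
  refine add_le_add ?_ ?_
  · have h2 : Integrable (fun s : ℝ => s ^ 2) (gaussianReal 0 1) :=
      (IsGaussian.memLp_two_id (μ := gaussianReal 0 1)).integrable_sq
    have : ∫ s, max s 0 * (1 + max s 0) ∂gaussianReal 0 1
        ≤ ∫ s, (1 + 2 * s ^ 2) ∂gaussianReal 0 1 := by
      refine integral_mono integrable_weight ((integrable_const (1:ℝ)).add (h2.const_mul 2))
        fun s => ?_
      rcases le_total s 0 with h | h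
      · simp only [max_eq_right h]; nlinarith
      · simp only [max_eq_left h]; nlinarith
    have e2 : ∫ s, s ^ 2 ∂gaussianReal 0 1 = 1 := by
      have h := variance_id_gaussianReal (μ := 0) (v := 1)
      rw [variance_of_integral_eq_zero aemeasurable_id integral_id_gaussianReal] at h
      simpa using h
    rw [integral_add (integrable_const _) (h2.const_mul 2), integral_const_mul, e2,
      integral_const, smul_eq_mul, probReal_univ] at this
    nlinarith [exp_pos (-(n : ℝ) * cphi (a * T))]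
  · refine le_trans (le_of_eq ?_) (integral_weight_tail hT)
    rw [integral_gaussianReal_eq_integral_smul one_ne_zero, ← integral_indicator measurableSet_Ioi]
    refine integral_congr_ae (Eventually.of_forall fun s => ?_)
    by_cases hs : s ∈ Ioi T
    · simp only [indicator_of_mem hs, smul_eq_mul, phi]
      rw [max_eq_left (by linarith [mem_Ioi.1 hs])]
      ring
    · simp only [indicator_of_notMem hs, smul_zero]

lemma exists_cphi_lower {x : ℝ} (hx : 0 ≤ x) :
    exp (-11 / 2) / 3 * exp (-(11 / 10 * x ^ 2) / 2) ≤ cphi x := by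
  have h1 : phi (x + 1) ≤ cphi x := by
    rw [← integral_phi_Ioi]
    calc phi (x + 1) = ∫ _ in Ioc x (x + 1), phi (x + 1) := by
          rw [setIntegral_const, Real.volume_real_Ioc_of_le (by linarith)]; simp
      _ ≤ ∫ y in Ioc x (x + 1), phi y := by
          refine setIntegral_mono_on (integrableOn_const (by simp) (by simp))
            integrable_phi.integrableOn measurableSet_Ioc fun y hy => ?_
          rw [phi_eq, phi_eq]
          gcongr
          · linarith [hy.1]
          · exact hy.2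
      _ ≤ ∫ y in Ioi x, phi y :=
          setIntegral_mono_set integrable_phi.integrableOn
            (Eventually.of_forall fun y => (phi_pos y).le) Ioc_subset_Ioi_self.eventuallyLE
  refine le_trans ?_ h1
  rw [phi_eq, div_mul_eq_mul_div, ← exp_add, inv_mul_eq_div]
  refine div_le_div₀ (exp_pos _).le (exp_le_exp.2 ?_) (by positivity) ?_
  · nlinarith [sq_nonneg (x - 10)]
  · rw [Real.sqrt_le_iff]; exact ⟨by norm_num, by nlinarith [Real.pi_lt_four]⟩

/-- The polynomial decay rate of `decay`. -/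
theorem tendsto_rpow_mul_decay {a γ θ : ℝ} (ha : 0 < a) (hγ : 0 ≤ γ) (hθ : γ < θ)
    (h : 11 / 10 * a ^ 2 * θ < 1) :
    Tendsto (fun n : ℕ => (n : ℝ) ^ γ * decay a n) atTop (𝓝 0) := by
  set δ := 1 - 11 / 10 * a ^ 2 * θ with hδ
  have hδ0 : 0 < δ := by linarith
  obtain ⟨p, hp⟩ := exists_nat_gt (γ / δ)
  have hp' : γ < p * δ := by rwa [div_lt_iff₀ hδ0] at hp
  set C0 := exp (-11 / 2) / 3 with hC0
  set ν := (θ - γ) / 2 with hν
  have hν0 : 0 < ν := by linarith
  have hz : ∀ e : ℝ, e < 0 → Tendsto (fun n : ℕ => (n : ℝ) ^ e) atTop (𝓝 0) := fun e he => by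
    have := (tendsto_rpow_neg_atTop (y := -e) (by linarith)).comp tendsto_natCast_atTop_atTop
    simpa [Function.comp_def] using this
  have hlim : Tendsto (fun n : ℕ => 3 * (p.factorial / C0 ^ p) * (n : ℝ) ^ (γ - p * δ)
      + (2 * θ / ν + 3) * (n : ℝ) ^ (γ + ν - θ)) atTop (𝓝 0) := by
    simpa using ((hz (γ - p * δ) (by linarith)).const_mul (3 * (p.factorial / C0 ^ p))).add
      ((hz (γ + ν - θ) (by rw [hν]; linarith)).const_mul (2 * θ / ν + 3))
  refine squeeze_zero' (Eventually.of_forall fun n => mul_nonneg (by positivity) (decay_nonneg _ _))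
    ?_ hlim
  have hlog : ∀ᶠ n : ℕ in atTop, 1 ≤ 2 * θ * log n :=
    ((tendsto_log_atTop.comp tendsto_natCast_atTop_atTop).const_mul_atTop
      (by linarith : 0 < 2 * θ)).eventually (eventually_ge_atTop 1)
  filter_upwards [hlog, eventually_ge_atTop 1] with n hn hn1
  have hn0 : (0 : ℝ) < n := by exact_mod_cast hn1
  set T := √(2 * θ * log n) with hT
  have hT1 : 1 ≤ T := Real.one_le_sqrt.2 hn
  have hT2 : T ^ 2 = 2 * θ * log n := sq_sqrt (by linarith)
  -- the bulk term
  have hc : C0 * (n : ℝ) ^ (-(11 / 10 * a ^ 2 * θ)) ≤ cphi (a * T) := by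
    refine le_trans (le_of_eq ?_) (exists_cphi_lower (mul_nonneg ha.le (by linarith)))
    rw [rpow_def_of_pos hn0, mul_pow, hT2, hC0]
    ring_nf
  have hy : C0 * (n : ℝ) ^ δ ≤ n * cphi (a * T) := by
    have : (n : ℝ) ^ δ = n * (n : ℝ) ^ (-(11 / 10 * a ^ 2 * θ)) := by
      rw [hδ, sub_eq_add_neg, rpow_add hn0, rpow_one]
    rw [this]
    calc C0 * (n * (n : ℝ) ^ (-(11 / 10 * a ^ 2 * θ)))
        = n * (C0 * (n : ℝ) ^ (-(11 / 10 * a ^ 2 * θ))) := by ring
      _ ≤ n * cphi (a * T) := by gcongr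
  have hexp : exp (-(n : ℝ) * cphi (a * T)) ≤ p.factorial / C0 ^ p * (n : ℝ) ^ (-((p : ℝ) * δ)) := by
    have hpos : 0 < C0 * (n : ℝ) ^ δ := by positivity
    refine (exp_le_exp.2 (show -(n : ℝ) * cphi (a * T) ≤ -(C0 * (n : ℝ) ^ δ) by linarith)).trans ?_
    have h1 := Real.pow_div_factorial_le_exp (C0 * (n : ℝ) ^ δ) hpos.le p
    rw [exp_neg]
    refine (inv_anti₀ (by positivity) h1).trans (le_of_eq ?_)
    rw [inv_div, mul_pow, rpow_neg hn0.le, ← rpow_natCast ((n : ℝ) ^ δ) p, ← rpow_mul hn0.le,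
      mul_comm δ, div_mul_eq_div_mul_one_div, one_div]
  -- the tail term
  have htail : (T + 2) * phi T ≤ (2 * θ / ν + 3) * (n : ℝ) ^ (ν - θ) := by
    have hφ : phi T ≤ (n : ℝ) ^ (-θ) := by
      rw [phi_eq, hT2, rpow_def_of_pos hn0]
      refine (mul_le_of_le_one_left (exp_pos _).le
        (inv_le_one_of_one_le₀ (Real.one_le_sqrt.2 (by nlinarith [Real.pi_gt_three])))).trans ?_
      exact le_of_eq (by ring_nf)
    have hlogn : log n ≤ (n : ℝ) ^ ν / ν := Real.log_le_rpow_div hn0.le hν0
    have h1n : (1 : ℝ) ≤ (n : ℝ) ^ ν := one_le_rpow (by exact_mod_cast hn1) hν0.le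
    have hTb : T + 2 ≤ (2 * θ / ν + 3) * (n : ℝ) ^ ν := by
      have : 2 * θ * log n ≤ 2 * θ / ν * (n : ℝ) ^ ν := by
        calc 2 * θ * log n ≤ 2 * θ * ((n : ℝ) ^ ν / ν) := by
              refine mul_le_mul_of_nonneg_left hlogn (by linarith)
          _ = _ := by ring
      nlinarith
    calc (T + 2) * phi T ≤ (2 * θ / ν + 3) * (n : ℝ) ^ ν * (n : ℝ) ^ (-θ) :=
          mul_le_mul hTb hφ (phi_pos T).le (mul_nonneg (add_nonneg (div_nonneg (by linarith) hν0.le) (by norm_num)) (by positivity))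
      _ = _ := by rw [mul_assoc, ← rpow_add hn0, ← sub_eq_add_neg]
  have hpow : 0 ≤ (n : ℝ) ^ γ := by positivity
  calc (n : ℝ) ^ γ * decay a n
      ≤ (n : ℝ) ^ γ * (3 * (p.factorial / C0 ^ p * (n : ℝ) ^ (-((p : ℝ) * δ)))
        + (2 * θ / ν + 3) * (n : ℝ) ^ (ν - θ)) := by
        refine mul_le_mul_of_nonneg_left ((decay_le ha hT1 n).trans ?_) hpow
        linarith
    _ = _ := by
        rw [show γ - (p : ℝ) * δ = γ + -((p : ℝ) * δ) by ring, rpow_add hn0,
          show γ + ν - θ = γ + (ν - θ) by ring, rpow_add hn0]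
        ring

end Vale.Agent.P226
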