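import Vale.Agent.P226.CapExcess

/-! Cap bounds for the cells of balanced fixed configurations with few cells. -/

open MeasureTheory Set Filter Real ProbabilityTheory
open scoped Topology RealInnerProductSpace NNReal

namespace Vale.Agent.P226.Cap

variable {d : ℕ} {κ : Type*} [Fintype κ] [DecidableEq κ] [Nontrivial κ]

lemma hasDerivAt_wt_inv_pow (j : ℕ) (q : ℝ) :
    HasDerivAt (fun q => (√(1 + q ^ 2) ^ (j + 1))⁻¹)
      (-((j : ℝ) + 1) * q / √(1 + q ^ 2) ^ (j + 3)) q := by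
  have hw := wt_pos q
  have hd : HasDerivAt (fun q => √(1 + q ^ 2)) (q / √(1 + q ^ 2)) q := by
    refine (((hasDerivAt_pow 2 q).const_add 1).sqrt (by positivity)).congr_deriv ?_
    push_cast; field_simp
  refine ((hd.pow (j + 1)).inv (pow_ne_zero _ hw.ne')).congr_deriv ?_
  simp only [Pi.pow_apply, Nat.add_sub_cancel]
  push_cast
  field_simp
  ring

lemma P_three (q : ℝ) :
    HasDerivAt (fun q => -(√(1 + q ^ 2) ^ (0 + 1))⁻¹) (q ^ (2 - 1) / √(1 + q ^ 2) ^ (2 + 1)) q := by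
  refine (hasDerivAt_wt_inv_pow 0 q).neg.congr_deriv ?_
  push_cast; ring

lemma P_four (q : ℝ) :
    HasDerivAt (fun q => (arctan q - q / (1 + q ^ 2)) / 2)
      (q ^ (3 - 1) / √(1 + q ^ 2) ^ (3 + 1)) q := by
  have h1 : (0 : ℝ) < 1 + q ^ 2 := by positivity
  refine (((hasDerivAt_arctan q).sub
    ((hasDerivAt_id q).div ((hasDerivAt_pow 2 q).const_add 1) h1.ne')).div_const 2).congr_deriv ?_
  rw [show √(1 + q ^ 2) ^ (3 + 1) = (√(1 + q ^ 2) ^ 2) ^ 2 by ring, Real.sq_sqrt h1.le]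
  simp only [id]
  push_cast
  field_simp
  ring

lemma P_five (q : ℝ) :
    HasDerivAt (fun q => -(√(1 + q ^ 2) ^ (0 + 1))⁻¹ + (√(1 + q ^ 2) ^ (2 + 1))⁻¹ / 3)
      (q ^ (4 - 1) / √(1 + q ^ 2) ^ (4 + 1)) q := by
  refine ((hasDerivAt_wt_inv_pow 0 q).neg.add
    ((hasDerivAt_wt_inv_pow 2 q).div_const 3)).congr_deriv ?_
  have hw := (wt_pos q).ne'
  have h2 : √(1 + q ^ 2) ^ 2 = 1 + q ^ 2 := Real.sq_sqrt (by positivity)
  push_cast
  field_simp
  ring_nf
  rw [show √(1 + q ^ 2) ^ 2 = 1 + q ^ 2 from h2]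
  ring

lemma P_seven (q : ℝ) :
    HasDerivAt (fun q => -(√(1 + q ^ 2) ^ (0 + 1))⁻¹ + 2 / 3 * (√(1 + q ^ 2) ^ (2 + 1))⁻¹
        - (√(1 + q ^ 2) ^ (4 + 1))⁻¹ / 5)
      (q ^ (6 - 1) / √(1 + q ^ 2) ^ (6 + 1)) q := by
  refine (((hasDerivAt_wt_inv_pow 0 q).neg.add
    ((hasDerivAt_wt_inv_pow 2 q).const_mul (2 / 3))).sub
    ((hasDerivAt_wt_inv_pow 4 q).div_const 5)).congr_deriv ?_
  have hw := (wt_pos q).ne'
  have h2 : √(1 + q ^ 2) ^ 2 = 1 + q ^ 2 := Real.sq_sqrt (by positivity)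
  have h4 : √(1 + q ^ 2) ^ 4 = (1 + q ^ 2) ^ 2 := by
    rw [show √(1 + q ^ 2) ^ 4 = (√(1 + q ^ 2) ^ 2) ^ 2 by ring, h2]
  push_cast
  field_simp
  ring_nf
  simp only [h2, h4]
  ring

/-- The parameter `q₀` belonging to a level `t`. -/
lemma exists_param {t : ℝ} (ht : 0 < t) (ht1 : t < 1) :
    ∃ q₀ : ℝ, 0 < q₀ ∧ √(1 + q₀ ^ 2) = t⁻¹ ∧ q₀ = √(1 - t ^ 2) / t ∧
      q₀ / √(1 + q₀ ^ 2) = √(1 - t ^ 2) := by
  have h : 0 < 1 - t ^ 2 := by nlinarith
  have hw : √(1 + (√(1 - t ^ 2) / t) ^ 2) = t⁻¹ := by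
    rw [div_pow, Real.sq_sqrt h.le, show 1 + (1 - t ^ 2) / t ^ 2 = t⁻¹ ^ 2 by field_simp; ring,
      Real.sqrt_sq (inv_pos.2 ht).le]
  exact ⟨√(1 - t ^ 2) / t, by positivity, hw, rfl, by rw [hw]; field_simp⟩

lemma J_two : J 2 = √(π / 2) := by rw [J_succ_succ 0, J_zero]; norm_num

lemma sqrt_half_pi : √(π / 2) = √(2 * π) / 2 := by
  rw [show 2 * π = 2 ^ 2 * (π / 2) by ring, Real.sqrt_mul (by norm_num), Real.sqrt_sq (by norm_num)]
  ring

lemma J_three : J 3 = 2 := by rw [J_succ_succ 1, J_one]; norm_num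
lemma J_four : J 4 = 3 * √(π / 2) := by rw [J_succ_succ 2, J_two]; norm_num
lemma J_five : J 5 = 8 := by rw [J_succ_succ 3, J_three]; norm_num
lemma J_six : J 6 = 15 * √(π / 2) := by rw [J_succ_succ 4, J_four]; push_cast; ring
lemma J_seven : J 7 = 48 := by rw [J_succ_succ 5, J_five]; norm_num

variable (z : κ → EuclideanSpace ℝ (Fin d)) (hsum : ∑ l, z l = 0) {i : κ}
  (hfix : mom (below z i (Finset.univ.erase i)) = z i) (hne : z i ≠ 0)

include hsum hfix hne

/-- Line bounds for at most four cells (caps in `ℝ³`). -/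
theorem line_three (hk : Fintype.card κ ≤ 4) {t : ℝ} (ht : 0 < t) (ht1 : t < 1) :
    √(2 * π) * ‖z i‖ ≤
      4 * t * (gam d).real (below z i (Finset.univ.erase i)) + (1 - t) ^ 2 := by
  have h := norm_cell_le z hsum (n := 2) hk hfix t hne
  obtain ⟨q, hq, hw, _, hqw⟩ := exists_param ht ht1
  have hf := excess_formula two_pos hq P_three
  rw [hw, inv_inv] at hf
  rw [integral_norm (by norm_num), hf, J_three, J_two, sqrt_half_pi] at h
  have hs : 0 < √(2 * π) := by positivity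
  refine (mul_le_mul_of_nonneg_left h hs.le).trans (le_of_eq ?_)
  have e : q / t⁻¹ = √(1 - t ^ 2) := by rw [← hw]; exact hqw
  rw [e, Real.sq_sqrt (by nlinarith)]
  simp
  field_simp
  ring

/-- The exact profile for at most four cells. -/
theorem sq_three (hk : Fintype.card κ ≤ 4) :
    ‖z i‖ ^ 2 ≤ 8 / π * ((gam d).real (below z i (Finset.univ.erase i)) *
      (1 - (gam d).real (below z i (Finset.univ.erase i)))) ^ 2 ∨
    1 / 2 ≤ (gam d).real (below z i (Finset.univ.erase i)) := by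
  set a := (gam d).real (below z i (Finset.univ.erase i))
  rcases le_or_gt (1 / 2) a with h | h
  · exact Or.inr h
  left
  rcases eq_or_lt_of_le (measureReal_nonneg : 0 ≤ a) with h0 | h0
  · have hb : (gam d) (below z i (Finset.univ.erase i)) = 0 := by
      have := h0.symm
      rwa [measureReal_eq_zero_iff] at this
    exact absurd (by rw [← hfix, mom, Measure.restrict_eq_zero.2 hb, integral_zero_measure]) hne
  have hl := line_three z hsum hfix hne hk (t := 1 - 2 * a) (by linarith) (by linarith)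
  have e : 4 * (1 - 2 * a) * a + (1 - (1 - 2 * a)) ^ 2 = 4 * (a * (1 - a)) := by ring
  rw [e] at hl
  have hs : 0 ≤ √(2 * π) * ‖z i‖ := by positivity
  have h2 := pow_le_pow_left₀ hs hl 2
  rw [mul_pow, Real.sq_sqrt (by positivity)] at h2
  calc ‖z i‖ ^ 2 = (2 * π * ‖z i‖ ^ 2) / (2 * π) := by field_simp
    _ ≤ (4 * (a * (1 - a))) ^ 2 / (2 * π) := by gcongr
    _ = _ := by field_simp; ring

/-- Line bounds for at most five cells (caps in `ℝ⁴`). -/
theorem line_four (hk : Fintype.card κ ≤ 5) {t : ℝ} (ht : 0 < t) (ht1 : t < 1) :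
    √(2 * π) * ‖z i‖ ≤ 3 * π / 2 * t * (gam d).real (below z i (Finset.univ.erase i))
      + √(1 - t ^ 2) ^ 3 - 3 / 2 * t * (arctan (√(1 - t ^ 2) / t) - t * √(1 - t ^ 2)) := by
  have h := norm_cell_le z hsum (n := 3) hk hfix t hne
  obtain ⟨q, hq, hw, hqd, hqw⟩ := exists_param ht ht1
  have hf := excess_formula three_pos hq P_four
  rw [hw, inv_inv] at hf
  rw [integral_norm (by norm_num), hf, J_four, J_three, sqrt_half_pi] at h
  have hs : 0 < √(2 * π) := by positivity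
  refine (mul_le_mul_of_nonneg_left h hs.le).trans (le_of_eq ?_)
  have e : q / t⁻¹ = √(1 - t ^ 2) := by rw [← hw]; exact hqw
  have e2 : q / (1 + q ^ 2) = t * √(1 - t ^ 2) := by
    have h1 : 1 + q ^ 2 = t⁻¹ ^ 2 := by rw [← hw, Real.sq_sqrt (by positivity)]
    rw [h1, hqd]; field_simp
  have h2 : √(2 * π) ^ 2 = 2 * π := Real.sq_sqrt (by positivity)
  rw [e, e2, hqd]
  generalize √(2 * π) = S at hs h2 ⊢
  simp
  field_simp
  linear_combination (3 * t * (gam d).real (below z i (Finset.univ.erase i))) * h2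

/-- Line bounds for at most six cells (caps in `ℝ⁵`). -/
theorem line_five (hk : Fintype.card κ ≤ 6) {t : ℝ} (ht : 0 < t) (ht1 : t < 1) :
    √(2 * π) * ‖z i‖ ≤ 16 / 3 * t * (gam d).real (below z i (Finset.univ.erase i))
      + (1 - t ^ 2) ^ 2 - 4 * t * (2 / 3 - t + t ^ 3 / 3) := by
  have h := norm_cell_le z hsum (n := 4) hk hfix t hne
  obtain ⟨q, hq, hw, _, hqw⟩ := exists_param ht ht1
  have hf := excess_formula four_pos hq P_five
  rw [hw, inv_inv] at hf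
  rw [integral_norm (by norm_num), hf, J_five, J_four, sqrt_half_pi] at h
  have hs : 0 < √(2 * π) := by positivity
  refine (mul_le_mul_of_nonneg_left h hs.le).trans (le_of_eq ?_)
  have e : q / t⁻¹ = √(1 - t ^ 2) := by rw [← hw]; exact hqw
  rw [e, show √(1 - t ^ 2) ^ 4 = (√(1 - t ^ 2) ^ 2) ^ 2 by ring, Real.sq_sqrt (by nlinarith)]
  simp
  field_simp
  ring

/-- Line bounds for at most eight cells (caps in `ℝ⁷`). -/
theorem line_seven (hk : Fintype.card κ ≤ 8) {t : ℝ} (ht : 0 < t) (ht1 : t < 1) :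
    √(2 * π) * ‖z i‖ ≤ 32 / 5 * t * (gam d).real (below z i (Finset.univ.erase i))
      + (1 - t ^ 2) ^ 3 - 6 * t * (8 / 15 - t + 2 / 3 * t ^ 3 - t ^ 5 / 5) := by
  have h := norm_cell_le z hsum (n := 6) hk hfix t hne
  obtain ⟨q, hq, hw, _, hqw⟩ := exists_param ht ht1
  have hf := excess_formula (by norm_num : 0 < 6) hq P_seven
  rw [hw, inv_inv] at hf
  rw [integral_norm (by norm_num), hf, J_seven, J_six, sqrt_half_pi] at h
  have hs : 0 < √(2 * π) := by positivity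
  refine (mul_le_mul_of_nonneg_left h hs.le).trans (le_of_eq ?_)
  have e : q / t⁻¹ = √(1 - t ^ 2) := by rw [← hw]; exact hqw
  rw [e, show √(1 - t ^ 2) ^ 6 = (√(1 - t ^ 2) ^ 2) ^ 3 by ring, Real.sq_sqrt (by nlinarith)]
  simp
  field_simp
  ring

end Vale.Agent.P226.Cap
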