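import Vale.Agent.P226.CapLine

/-! Closed form of the excess of a coordinate over a multiple of the norm. -/

open MeasureTheory Set Filter Real ProbabilityTheory
open scoped Topology RealInnerProductSpace NNReal

namespace Vale.Agent.P226.Cap

lemma one_le_wt (q : ℝ) : 1 ≤ √(1 + q ^ 2) :=
  Real.one_le_sqrt.2 (by nlinarith)

lemma wt_pos (q : ℝ) : 0 < √(1 + q ^ 2) := lt_of_lt_of_le one_pos (one_le_wt q)

/-- Disintegration along the first coordinate. -/
lemma excess_eq_iterated {n : ℕ} (hn : 0 < n) (t : ℝ) :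
    excess n t = ∫ s, (∫ r in Ioi (0 : ℝ),
        r ^ (n - 1) * exp (-(r ^ 2) / 2) * max (s - t * √(s ^ 2 + r ^ 2)) 0) / J (n - 1)
      ∂gaussianReal 0 1 := by
  set u : EuclideanSpace ℝ (Fin (n + 1)) := EuclideanSpace.single 0 1
  let r : Fin n → EuclideanSpace ℝ (Fin (n + 1)) := fun l => EuclideanSpace.single l.succ 1
  let f : ℝ × (Fin n → ℝ) → ℝ := fun p =>
    max (p.1 - t * √(p.1 ^ 2 + ∑ l, p.2 l ^ 2)) 0
  have hf : Measurable f := by fun_prop
  have hfx : ∀ x, f (⟪u, x⟫, fun l => ⟪r l, x⟫) = max (⟪u, x⟫ - t * ‖x‖) 0 := by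
    intro x
    simp only [f, u, r, EuclideanSpace.inner_single_left, map_one, one_mul]
    rw [EuclideanSpace.norm_eq, Fin.sum_univ_succ]
    simp only [Real.norm_eq_abs, sq_abs]
  have hi : Integrable (fun x => f (⟪u, x⟫, fun l => ⟪r l, x⟫)) (gam (n + 1)) := by
    simp only [hfx]
    exact ((integrable_inner u).sub (integrable_norm_gam.const_mul t)).pos_part
  have horth : ∀ l, ⟪u, r l⟫ = 0 := fun l => by
    simp [u, r, EuclideanSpace.inner_single_left, (Fin.succ_ne_zero l).symm]
  have h := (integral_indep u r horth hf hi).1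
  simp only [hfx] at h
  rw [excess, h]
  have hu : ‖u‖ = 1 := by simp [u]
  rw [hu, one_pow, Real.toNNReal_one]
  refine integral_congr_ae (Eventually.of_forall fun s => ?_)
  dsimp only
  have hg : ∀ i j, ⟪(EuclideanSpace.single i 1 : EuclideanSpace ℝ (Fin n)),
      EuclideanSpace.single j 1⟫ = ⟪r i, r j⟫ := fun i j => by
    simp [r, EuclideanSpace.inner_single_left]
  rw [← integral_inner_congr r (fun l => EuclideanSpace.single l 1) hg
    (f := fun y => f (s, y)) (hf.comp measurable_prodMk_left)]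
  have e : (fun x : EuclideanSpace ℝ (Fin n) =>
      f (s, fun l => ⟪(EuclideanSpace.single l 1 : EuclideanSpace ℝ (Fin n)), x⟫)) =
      fun x => max (s - t * √(s ^ 2 + ‖x‖ ^ 2)) 0 := by
    funext x
    simp [f, EuclideanSpace.inner_single_left, EuclideanSpace.norm_sq_eq, sq_abs]
  rw [e, integral_radial hn (fun r => max (s - t * √(s ^ 2 + r ^ 2)) 0)]

/-- Closed form of the excess at `t = 1 / √(1 + q₀²)`. -/
theorem excess_formula {n : ℕ} (hn : 0 < n) {q₀ : ℝ} (hq₀ : 0 < q₀) {P : ℝ → ℝ}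
    (hP : ∀ q, HasDerivAt P (q ^ (n - 1) / √(1 + q ^ 2) ^ (n + 1)) q) :
    excess n (√(1 + q₀ ^ 2))⁻¹ = ((q₀ / √(1 + q₀ ^ 2)) ^ n
      - n / √(1 + q₀ ^ 2) * (P q₀ - P 0)) / √(2 * π) := by
  set w₀ := √(1 + q₀ ^ 2) with hw₀
  set t := w₀⁻¹ with ht
  have hw0 : 0 < w₀ := wt_pos q₀
  have ht0 : 0 ≤ t := (inv_pos.2 hw0).le
  set μ := (volume : Measure ℝ).restrict (Ioi 0) with hμ
  set h : ℝ → ℝ := fun q => q ^ (n - 1) * max (1 - t * √(1 + q ^ 2)) 0 with hh
  set K : ℝ → ℝ → ℝ := fun s q => s ^ (n + 1) * exp (-((√(1 + q ^ 2) * s) ^ 2) / 2) * h q with hK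
  -- pointwise rewriting of the iterated integral
  have hrw : ∀ s, gaussianPDFReal 0 1 s • ((∫ r in Ioi (0 : ℝ),
        r ^ (n - 1) * exp (-(r ^ 2) / 2) * max (s - t * √(s ^ 2 + r ^ 2)) 0) / J (n - 1))
      = (Ioi (0 : ℝ)).indicator
        (fun s => (∫ q, K s q ∂μ) / (√(2 * π) * J (n - 1))) s := by
    intro s
    rcases le_or_gt s 0 with hs | hs
    · rw [indicator_of_notMem (notMem_Ioi.2 hs)]
      have e : ∀ r : ℝ, max (s - t * √(s ^ 2 + r ^ 2)) 0 = 0 := fun r => max_eq_right (by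
        have := mul_nonneg ht0 (sqrt_nonneg (s ^ 2 + r ^ 2)); linarith)
      simp [e]
    · rw [indicator_of_mem (mem_Ioi.2 hs)]
      have hc := integral_comp_mul_left_Ioi
        (fun r => r ^ (n - 1) * exp (-(r ^ 2) / 2) * max (s - t * √(s ^ 2 + r ^ 2)) 0) 0 hs
      simp only [mul_zero, smul_eq_mul] at hc
      have hc' : ∫ r in Ioi (0 : ℝ),
          r ^ (n - 1) * exp (-(r ^ 2) / 2) * max (s - t * √(s ^ 2 + r ^ 2)) 0
          = s * ∫ q in Ioi (0 : ℝ), (s * q) ^ (n - 1) * exp (-((s * q) ^ 2) / 2)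
              * max (s - t * √(s ^ 2 + (s * q) ^ 2)) 0 := by
        rw [hc, ← mul_assoc, mul_inv_cancel₀ hs.ne', one_mul]
      rw [hc', gaussianPDFReal_def, smul_eq_mul]
      simp only [sub_zero, NNReal.coe_one, mul_one]
      have e : ∀ q, K s q = exp (-(s ^ 2) / 2) * (s * ((s * q) ^ (n - 1)
          * exp (-((s * q) ^ 2) / 2) * max (s - t * √(s ^ 2 + (s * q) ^ 2)) 0)) := by
        intro q
        have e1 : √(s ^ 2 + (s * q) ^ 2) = s * √(1 + q ^ 2) := by
          rw [show s ^ 2 + (s * q) ^ 2 = s ^ 2 * (1 + q ^ 2) by ring, Real.sqrt_mul (sq_nonneg s),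
            Real.sqrt_sq hs.le]
        have e2 : max (s - t * (s * √(1 + q ^ 2))) 0 = s * max (1 - t * √(1 + q ^ 2)) 0 := by
          rw [mul_max_of_nonneg _ _ hs.le, mul_zero]; ring_nf
        have e3 : exp (-(s ^ 2) / 2) * exp (-((s * q) ^ 2) / 2)
            = exp (-((√(1 + q ^ 2) * s) ^ 2) / 2) := by
          rw [← exp_add, mul_pow (√(1 + q ^ 2)), Real.sq_sqrt (by positivity)]
          ring_nf
        simp only [hK, hh]
        rw [e1, e2, ← e3]
        obtain ⟨m, rfl⟩ : ∃ m, n = m + 1 := ⟨n - 1, by omega⟩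
        simp only [Nat.add_sub_cancel]
        ring
      simp only [e]
      rw [integral_const_mul, integral_const_mul]
      ring
  -- integrability for Fubini
  have hhm : Measurable h := by fun_prop
  have hh0 : ∀ q, 0 < q → 0 ≤ h q := fun q hq => mul_nonneg (by positivity) (le_max_right _ _)
  have hzero : ∀ q, q₀ < q → h q = 0 := fun q hq => by
    have : w₀ ≤ √(1 + q ^ 2) := Real.sqrt_le_sqrt (by nlinarith)
    have h1 : 1 ≤ t * √(1 + q ^ 2) := by
      rw [ht, inv_mul_eq_div, le_div_iff₀ hw0, one_mul]; exact this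
    simp only [hh]
    rw [max_eq_right (by linarith), mul_zero]
  have hint : Integrable h μ := by
    refine ((integrableOn_const (C := q₀ ^ (n - 1)) (measure_Icc_lt_top (a := (0 : ℝ))
      (b := q₀)).ne).integrable_indicator measurableSet_Icc).restrict.mono'
      hhm.aestronglyMeasurable ?_
    filter_upwards [ae_restrict_mem measurableSet_Ioi] with q hq
    have hq : 0 < q := hq
    rw [Real.norm_eq_abs, abs_of_nonneg (hh0 q hq)]
    rcases le_or_gt q q₀ with hle | hgt
    · rw [indicator_of_mem (show q ∈ Icc 0 q₀ from ⟨hq.le, hle⟩)]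
      refine le_trans (mul_le_of_le_one_right (by positivity) (max_le ?_ zero_le_one))
        (pow_le_pow_left₀ hq.le hle _)
      have := mul_nonneg ht0 (sqrt_nonneg (1 + q ^ 2)); linarith
    · rw [hzero q hgt]
      exact indicator_nonneg (fun _ _ => by positivity) _
  have hK2 : Integrable (Function.uncurry K) (μ.prod μ) := by
    refine Integrable.mono' (Integrable.mul_prod (integrableOn_pow_exp (n + 1)) hint) ?_ ?_
    · exact Measurable.aestronglyMeasurable (by unfold K; fun_prop)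
    · rw [Measure.prod_restrict]
      filter_upwards [ae_restrict_mem (measurableSet_Ioi.prod measurableSet_Ioi)] with p hp
      have hs : (0 : ℝ) < p.1 := hp.1
      have hq : (0 : ℝ) < p.2 := hp.2
      have hhq := hh0 p.2 hq
      rw [Real.norm_eq_abs, Function.uncurry_def, abs_of_nonneg (by simp only [hK]; positivity)]
      refine mul_le_mul_of_nonneg_right (mul_le_mul_of_nonneg_left (exp_le_exp.2 ?_)
        (by positivity)) hhq
      rw [mul_pow, Real.sq_sqrt (by positivity)]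
      nlinarith [mul_nonneg (sq_nonneg p.2) (sq_nonneg p.1)]
  rw [excess_eq_iterated hn, integral_gaussianReal_eq_integral_smul one_ne_zero]
  simp only [hrw]
  rw [integral_indicator measurableSet_Ioi, integral_div, integral_integral_swap hK2]
  -- inner integral
  have hinner : ∀ q, ∫ s, K s q ∂μ = J (n + 1) * (h q / √(1 + q ^ 2) ^ (n + 2)) := fun q => by
    simp only [hK]
    rw [integral_mul_const]
    rw [hμ, integral_pow_exp_mul (n + 1) (wt_pos q)]
    ring
  simp only [hinner]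
  rw [integral_const_mul]
  -- the outer integral
  have hcont : ∀ m : ℕ, ∀ j : ℕ, Continuous fun q : ℝ => q ^ m / √(1 + q ^ 2) ^ j := fun m j =>
    (continuous_pow m).div (by fun_prop) fun q => pow_ne_zero _ (wt_pos q).ne'
  have hsupp : ∫ q, h q / √(1 + q ^ 2) ^ (n + 2) ∂μ
      = ∫ q in (0 : ℝ)..q₀, (q ^ (n - 1) / √(1 + q ^ 2) ^ (n + 2)
          - t * (q ^ (n - 1) / √(1 + q ^ 2) ^ (n + 1))) := by
    rw [hμ, intervalIntegral.integral_of_le hq₀.le,
      setIntegral_eq_of_subset_of_forall_sdiff_eq_zero measurableSet_Ioi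
        (Ioc_subset_Ioi_self : Ioc 0 q₀ ⊆ Ioi 0)]
    · refine setIntegral_congr_fun measurableSet_Ioc fun q hq => ?_
      have h1 : t * √(1 + q ^ 2) ≤ 1 := by
        rw [ht, inv_mul_eq_div, div_le_one hw0]
        exact Real.sqrt_le_sqrt (by nlinarith [hq.1, hq.2])
      have := (wt_pos q).ne'
      simp only [hh]
      rw [max_eq_left (by linarith), pow_succ _ (n + 1)]
      field_simp
    · intro q hq
      rw [hzero q (by simpa using fun c => hq.2 ⟨hq.1, c⟩), zero_div]
  rw [hsupp, intervalIntegral.integral_sub ((hcont _ _).intervalIntegrable _ _)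
    (((hcont _ _).intervalIntegrable _ _).const_mul t), intervalIntegral.integral_const_mul,
    intervalIntegral.integral_eq_sub_of_hasDerivAt (fun q _ => hP q)
      ((hcont _ _).intervalIntegrable _ _)]
  have hΦ : ∀ q, HasDerivAt (fun q => (q / √(1 + q ^ 2)) ^ n / n)
      (q ^ (n - 1) / √(1 + q ^ 2) ^ (n + 2)) q := by
    intro q
    have hw := wt_pos q
    have hd : HasDerivAt (fun q => √(1 + q ^ 2)) (q / √(1 + q ^ 2)) q := by
      refine (((hasDerivAt_pow 2 q).const_add 1).sqrt (by positivity)).congr_deriv ?_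
      push_cast; field_simp
    have h2 : (√(1 + q ^ 2)) ^ 2 = 1 + q ^ 2 := Real.sq_sqrt (by positivity)
    have hd2 : HasDerivAt (fun q => q / √(1 + q ^ 2)) (1 / √(1 + q ^ 2) ^ 3) q := by
      refine ((hasDerivAt_id q).div hd hw.ne').congr_deriv ?_
      simp only [id]
      field_simp
      linear_combination h2
    refine ((hd2.pow n).div_const (n : ℝ)).congr_deriv ?_
    obtain ⟨m, rfl⟩ : ∃ m, n = m + 1 := ⟨n - 1, by omega⟩
    simp only [Nat.add_sub_cancel, div_pow]
    field_simp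
    ring
  rw [intervalIntegral.integral_eq_sub_of_hasDerivAt (fun q _ => hΦ q)
      ((hcont _ _).intervalIntegrable _ _)]
  have hJ : J (n + 1) = n * J (n - 1) := by
    obtain ⟨m, rfl⟩ : ∃ m, n = m + 1 := ⟨n - 1, by omega⟩
    rw [J_succ_succ, Nat.add_sub_cancel]; push_cast; ring
  have hn' : (n : ℝ) ≠ 0 := Nat.cast_ne_zero.2 hn.ne'
  have hJ0 := (J_pos (n - 1)).ne'
  rw [hJ, zero_div, zero_pow hn.ne', zero_div, ht]
  field_simp
  ring

end Vale.Agent.P226.Cap
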