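import Vale.Agent.P226.Transfer
import Vale.Agent.P226.Asymp

/-! In a large obtuse configuration the shortest vector can be deleted at negligible cost. -/

open MeasureTheory Set Filter Real ProbabilityTheory
open scoped Topology RealInnerProductSpace NNReal

namespace Vale.Agent.P226

variable {d : ℕ}

/-- Cells of small measure have tiny first moment. -/
lemma norm_mom_sq_le_small (A : Set (EuclideanSpace ℝ (Fin d))) :
    ‖mom A‖ ^ 2 ≤ 25 * ((gam d).real A * √((gam d).real A)) := by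
  set a := (gam d).real A
  have ha0 : 0 ≤ a := measureReal_nonneg
  have ha1 : a ≤ 1 := measureReal_le_one
  rcases eq_or_lt_of_le ha0 with h0 | h0
  · have : gam d A = 0 := by
      have := h0.symm
      rwa [measureReal_eq_zero_iff] at this
    rw [mom, Measure.restrict_eq_zero.2 this, integral_zero_measure, norm_zero, ← h0]
    simp
  set r := √(√a) with hr
  have hr0 : 0 < r := by positivity
  have hr1 : r ≤ 1 := by rw [hr, Real.sqrt_le_one, Real.sqrt_le_one]; exact ha1
  have hr2 : r ^ 2 = √a := sq_sqrt (sqrt_nonneg a)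
  have hr4 : r ^ 4 = a := by
    rw [show r ^ 4 = (r ^ 2) ^ 2 by ring, hr2, sq_sqrt ha0]
  have hphi : phi (1 / r) ≤ 4 * r ^ 4 := by
    rw [phi_eq, inv_mul_eq_div]
    have h1 := Real.pow_div_factorial_le_exp ((1 / r) ^ 2 / 2) (by positivity) 2
    have h2 : exp (-((1 / r) ^ 2) / 2) ≤ 8 * r ^ 4 := by
      rw [neg_div, exp_neg]
      refine (inv_anti₀ (by positivity) h1).trans (le_of_eq ?_)
      simp [Nat.factorial]; field_simp; ring_nf
    have h3 : (2 : ℝ) ≤ √(2 * π) := Real.le_sqrt_of_sq_le (by nlinarith [Real.pi_gt_three])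
    exact (div_le_div₀ (by positivity) h2 (by norm_num) h3).trans (le_of_eq (by ring))
  have hm := norm_moment_le A (1 / r)
  have ht : 1 / r * a = r ^ 3 := by rw [← hr4]; field_simp
  have hc : 0 ≤ 1 / r * cphi (1 / r) := mul_nonneg (by positivity) (cphi_pos _).le
  have hb : ‖mom A‖ ≤ 5 * r ^ 3 := by
    refine hm.trans (max_le (by positivity) ?_)
    change 1 / r * a + _ ≤ _
    rw [ht]
    have : r ^ 4 ≤ r ^ 3 := pow_le_pow_of_le_one hr0.le hr1 (by norm_num)
    linarith
  calc ‖mom A‖ ^ 2 ≤ (5 * r ^ 3) ^ 2 := pow_le_pow_left₀ (norm_nonneg _) hb 2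
    _ = 25 * (r ^ 4 * r ^ 2) := by ring
    _ = 25 * (a * √a) := by rw [hr4, hr2]

section Laplacian

variable {ι : Type*} [Fintype ι] {z : ι → EuclideanSpace ℝ (Fin d)}

lemma norm_sq_sum_eq (hsum : ∑ l, z l = 0) (x : ι → ℝ) :
    ‖∑ l, x l • z l‖ ^ 2 = 1 / 2 * ∑ j, ∑ l, -⟪z j, z l⟫ * (x j - x l) ^ 2 := by
  have row : ∀ j, ∑ l, ⟪z j, z l⟫ = 0 := fun j => by rw [← inner_sum, hsum, inner_zero_right]
  have col : ∀ l, ∑ j, ⟪z j, z l⟫ = 0 := fun l => by rw [← sum_inner, hsum, inner_zero_left]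
  have h1 : ∑ j, ∑ l, x j ^ 2 * ⟪z j, z l⟫ = 0 := by simp [← Finset.mul_sum, row]
  have h2 : ∑ j, ∑ l, x l ^ 2 * ⟪z j, z l⟫ = 0 := by
    rw [Finset.sum_comm]; simp [← Finset.mul_sum, col]
  have e : ∀ j l, -⟪z j, z l⟫ * (x j - x l) ^ 2 = 2 * (x j * (x l * ⟪z j, z l⟫))
      - x j ^ 2 * ⟪z j, z l⟫ - x l ^ 2 * ⟪z j, z l⟫ := fun j l => by ring
  simp only [e, Finset.sum_sub_distrib, ← Finset.mul_sum, h2]
  rw [show ∑ j, x j ^ 2 * ∑ l, ⟪z j, z l⟫ = 0 by simp [row]]
  rw [← real_inner_self_eq_norm_sq, sum_inner]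
  simp only [inner_sum, real_inner_smul_left, real_inner_smul_right, Finset.mul_sum]
  simp only [sub_zero, Finset.mul_sum]
  refine Finset.sum_congr rfl fun j _ => Finset.sum_congr rfl fun l _ => ?_
  ring

omit [Fintype ι] in
lemma norm_sq_sum_le_of_obtuse (hneg : ∀ j l, j ≠ l → ⟪z j, z l⟫ ≤ 0) (s : Finset ι) :
    ‖∑ l ∈ s, z l‖ ^ 2 ≤ ∑ l ∈ s, ‖z l‖ ^ 2 := by
  classical
  induction s using Finset.induction_on with
  | empty => simp
  | insert i s hi ih =>
    rw [Finset.sum_insert hi, Finset.sum_insert hi, norm_add_sq_real, inner_sum]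
    have : ∑ l ∈ s, ⟪z i, z l⟫ ≤ 0 :=
      Finset.sum_nonpos fun l hl => hneg i l fun c => hi (c ▸ hl)
    linarith

end Laplacian

/-- The eighth Gaussian moment. -/
noncomputable def eighth : ℝ := ∫ s, s ^ 8 ∂gaussianReal 0 1

lemma eighth_nonneg : 0 ≤ eighth := integral_nonneg fun s => by positivity

lemma integrable_eighth : Integrable (fun s : ℝ => s ^ 8) (gaussianReal 0 1) := by
  have h := (memLp_id_gaussianReal' (μ := 0) (v := 1) (8 : ℕ) (by simp)).integrable_norm_pow'
  refine h.congr (Eventually.of_forall fun s => ?_)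
  simp only [id, Real.norm_eq_abs]
  rw [show (8 : ℕ) = 2 * 4 from rfl, pow_mul, sq_abs, ← pow_mul]

lemma integral_inner_eighth (v : EuclideanSpace ℝ (Fin d)) :
    Integrable (fun x => ⟪v, x⟫ ^ 8) (gam d) ∧ ∫ x, ⟪v, x⟫ ^ 8 ∂gam d = ‖v‖ ^ 8 * eighth := by
  rcases eq_or_ne v 0 with h0 | h0
  · simp [h0]
  set u := ‖v‖⁻¹ • v
  have hn := norm_ne_zero_iff.2 h0
  have hu : ‖u‖ = 1 := by rw [norm_smul, norm_inv, norm_norm, inv_mul_cancel₀ hn]
  have e : (fun x => ⟪v, x⟫ ^ 8) = fun x => ‖v‖ ^ 8 * ⟪u, x⟫ ^ 8 := by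
    funext x
    rw [← mul_pow, real_inner_smul_left, ← mul_assoc, mul_inv_cancel₀ hn, one_mul]
  have hi : Integrable (fun x => ⟪u, x⟫ ^ 8) (gam d) := by
    have h := integrable_eighth
    rw [← map_inner_unit hu, integrable_map_measure (by fun_prop) (by fun_prop)] at h
    exact h
  rw [e]
  refine ⟨hi.const_mul _, ?_⟩
  rw [integral_const_mul, eighth, ← map_inner_unit hu, integral_map (by fun_prop) (by fun_prop)]

/-- The event that every `G_l`, `l ∈ S`, is at most `G_i`. -/
def below {ι : Type*} (z : ι → EuclideanSpace ℝ (Fin d)) (i : ι) (S : Finset ι) :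
    Set (EuclideanSpace ℝ (Fin d)) :=
  {x | ∀ l ∈ S, ⟪z l, x⟫ ≤ ⟪z i, x⟫}

lemma measurableSet_below {ι : Type*} (z : ι → EuclideanSpace ℝ (Fin d)) (i : ι) (S : Finset ι) :
    MeasurableSet (below z i S) := by
  simp only [below, Set.ofPred_forall]
  exact MeasurableSet.biInter S.countable_toSet fun l _ =>
    measurableSet_le (by fun_prop) (by fun_prop)

/-- Moments of `G_i⁺` on the event that many nearly uncorrelated vectors stay below `G_i`. -/
lemma integral_below_le {ι : Type*} [Fintype ι] [DecidableEq ι]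
    {z : ι → EuclideanSpace ℝ (Fin d)} (hneg : ∀ j l, j ≠ l → ⟪z j, z l⟫ ≤ 0)
    {i : ι} (hi : z i ≠ 0) (hmin : ∀ l, ‖z i‖ ≤ ‖z l‖) {S S' : Finset ι} (hS : S ⊆ S')
    (hiS : ∀ l ∈ S, l ≠ i) (hlam : ∀ l ∈ S, -⟪z i, z l⟫ ≤ ‖z i‖ ^ 2 / 16)
    {a : ℝ} (ha : ∀ l ∈ S, 109 / 100 * ‖z i‖ ≤ a * ‖z l‖) (ha0 : 0 ≤ a) :
    ∫ x, (below z i S').indicator
      (fun x => max ⟪‖z i‖⁻¹ • z i, x⟫ 0 * (1 + max ⟪‖z i‖⁻¹ • z i, x⟫ 0)) x ∂gam d
      ≤ decay a S.card := by
  set σ := ‖z i‖ with hσ
  have hσ0 : 0 < σ := norm_pos_iff.2 hi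
  set e := σ⁻¹ • z i with he
  have he1 : ‖e‖ = 1 := by rw [he, norm_smul, norm_inv, norm_norm, inv_mul_cancel₀ hσ0.ne']
  set r : ι → EuclideanSpace ℝ (Fin d) := fun l => z l - ⟪e, z l⟫ • e with hr
  set f : ℝ × ({l // l ∈ S} → ℝ) → ℝ := fun p =>
    {p : ℝ × ({l // l ∈ S} → ℝ) | ∀ l, ⟪e, z l.1⟫ * p.1 + p.2 l ≤ σ * p.1}.indicator
      (fun p => max p.1 0 * (1 + max p.1 0)) p with hf
  have hAm : MeasurableSet
      {p : ℝ × ({l // l ∈ S} → ℝ) | ∀ l, ⟪e, z l.1⟫ * p.1 + p.2 l ≤ σ * p.1} := by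
    rw [Set.ofPred_forall]
    exact MeasurableSet.iInter fun l => measurableSet_le (by fun_prop) (by fun_prop)
  have hfm : Measurable f := Measurable.indicator (by fun_prop) hAm
  have horth : ∀ l : {l // l ∈ S}, ⟪e, r l.1⟫ = 0 := by
    intro l
    simp [hr, inner_sub_right, inner_smul_right, he1]
  have hzi : ∀ x, ⟪z i, x⟫ = σ * ⟪e, x⟫ := by
    intro x
    rw [he, real_inner_smul_left, ← mul_assoc, mul_inv_cancel₀ hσ0.ne', one_mul]
  have hzl : ∀ l x, ⟪z l, x⟫ = ⟪e, z l⟫ * ⟪e, x⟫ + ⟪r l, x⟫ := by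
    intro l x
    simp [hr, inner_sub_left, real_inner_smul_left]
  have hfx : ∀ x, f (⟪e, x⟫, fun l => ⟪r l.1, x⟫) = (below z i S).indicator
      (fun x => max ⟪e, x⟫ 0 * (1 + max ⟪e, x⟫ 0)) x := by
    intro x
    have hiff : ((⟪e, x⟫, fun l : {l // l ∈ S} => ⟪r l.1, x⟫) ∈
        {p : ℝ × ({l // l ∈ S} → ℝ) | ∀ l, ⟪e, z l.1⟫ * p.1 + p.2 l ≤ σ * p.1})
        ↔ x ∈ below z i S := by
      simp [below, hzi, hzl]
    by_cases hx : x ∈ below z i S
    · simp only [hf]; rw [indicator_of_mem hx, indicator_of_mem (hiff.2 hx)]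
    · simp only [hf]; rw [indicator_of_notMem hx, indicator_of_notMem (fun c => hx (hiff.1 c))]
  have hwi : Integrable (fun x => max ⟪e, x⟫ 0 * (1 + max ⟪e, x⟫ 0)) (gam d) := by
    have h := integrable_weight
    rw [← map_inner_unit he1, integrable_map_measure (by fun_prop) (by fun_prop)] at h
    exact h
  have hfi : Integrable (fun x => f (⟪e, x⟫, fun l => ⟪r l.1, x⟫)) (gam d) := by
    simp only [hfx]
    exact hwi.indicator (measurableSet_below z i S)
  have hmain := (integral_indep e (fun l : {l // l ∈ S} => r l.1) horth hfm hfi).1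
  calc _ ≤ ∫ x, f (⟪e, x⟫, fun l => ⟪r l.1, x⟫) ∂gam d := by
        refine integral_mono (hwi.indicator (measurableSet_below z i S')) hfi fun x => ?_
        rw [hfx]
        refine indicator_le_indicator_of_subset (show below z i S' ⊆ below z i S from fun y (hy : ∀ l ∈ S', _) l hl => hy l (hS hl))
          (fun y => by positivity) x
    _ ≤ decay a S.card := by
        rw [hmain, he1, one_pow, Real.toNNReal_one]
        refine integral_mono_of_nonneg (Eventually.of_forall fun s => integral_nonneg fun x => ?_)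
          (integrable_decay a S.card) (Eventually.of_forall fun s => ?_)
        · simp only [hf, Pi.zero_apply]
          exact indicator_nonneg (fun p _ => by positivity) _
        · rcases le_or_gt s 0 with hs | hs
          · refine le_of_eq_of_le (integral_eq_zero_of_ae (Eventually.of_forall fun x => ?_))
              (mul_nonneg (by positivity) (pow_nonneg (sub_nonneg.2 (cphi_le_one _)) _))
            simp only [hf, Pi.zero_apply]
            by_cases hx : (s, fun l : {l // l ∈ S} => ⟪r l.1, x⟫) ∈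
                {p : ℝ × ({l // l ∈ S} → ℝ) | ∀ l, ⟪e, z l.1⟫ * p.1 + p.2 l ≤ σ * p.1}
            · rw [indicator_of_mem hx]; simp [max_eq_right hs]
            · rw [indicator_of_notMem hx]
          · have hint : ∫ x, f (s, fun l => ⟪r l.1, x⟫) ∂gam d = max s 0 * (1 + max s 0) *
                (gam d).real {x | ∀ l ∈ S, ⟪r l, x⟫ ≤ σ * s - ⟪e, z l⟫ * s} := by
              have hms : MeasurableSet
                  {x | ∀ l ∈ S, ⟪r l, x⟫ ≤ σ * s - ⟪e, z l⟫ * s} := by
                simp only [Set.ofPred_forall]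
                exact MeasurableSet.iInter fun l => MeasurableSet.iInter fun _ =>
                  measurableSet_le (by fun_prop) (by fun_prop)
              rw [← integral_indicator_one hms, ← integral_const_mul]
              refine integral_congr_ae (Eventually.of_forall fun x => ?_)
              dsimp only
              have hiff : ((s, fun l : {l // l ∈ S} => ⟪r l.1, x⟫) ∈
                  {p : ℝ × ({l // l ∈ S} → ℝ) | ∀ l, ⟪e, z l.1⟫ * p.1 + p.2 l ≤ σ * p.1})
                  ↔ x ∈ {x | ∀ l ∈ S, ⟪r l, x⟫ ≤ σ * s - ⟪e, z l⟫ * s} := by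
                simp only [Set.mem_ofPred_eq, Subtype.forall]
                exact forall₂_congr fun l _ => by constructor <;> intro <;> linarith
              by_cases hx : x ∈ {x | ∀ l ∈ S, ⟪r l, x⟫ ≤ σ * s - ⟪e, z l⟫ * s}
              · simp only [hf]
                rw [indicator_of_mem hx, indicator_of_mem (hiff.2 hx)]; simp
              · simp only [hf]
                rw [indicator_of_notMem hx, indicator_of_notMem (fun c => hx (hiff.1 c))]; simp
            dsimp only
            rw [hint]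
            refine mul_le_mul_of_nonneg_left ?_ (by positivity)
            have hce : ∀ l ∈ S, ⟪e, z l⟫ ≤ 0 ∧ -σ / 16 ≤ ⟪e, z l⟫ := by
              intro l hl
              rw [he, real_inner_smul_left]
              refine ⟨mul_nonpos_of_nonneg_of_nonpos (by positivity)
                (hneg i l (hiS l hl).symm), ?_⟩
              rw [inv_mul_eq_div, le_div_iff₀ hσ0]
              linarith [hlam l hl]
            have hrn : ∀ l ∈ S, 99 / 100 * ‖z l‖ ≤ ‖r l‖ := by
              intro l hl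
              obtain ⟨h1, h2⟩ := hce l hl
              have e1 : ‖r l‖ ^ 2 = ‖z l‖ ^ 2 - ⟪e, z l⟫ ^ 2 := by
                simp only [hr]
                rw [norm_sub_sq_real, norm_smul, he1, mul_one, Real.norm_eq_abs, sq_abs,
                  inner_smul_right, real_inner_comm e (z l)]
                ring
              refine (sq_le_sq₀ (by positivity) (norm_nonneg _)).1 ?_
              rw [e1]
              have := hmin l
              nlinarith
            calc (gam d).real {x | ∀ l ∈ S, ⟪r l, x⟫ ≤ σ * s - ⟪e, z l⟫ * s}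
                ≤ ∏ l ∈ S, (gam d).real {x | ⟪r l, x⟫ ≤ σ * s - ⟪e, z l⟫ * s} := by
                  refine negcor_prod S r (fun l hl m hm hlm => ?_) _
                  obtain ⟨h1, _⟩ := hce l hl
                  obtain ⟨h2, _⟩ := hce m hm
                  simp only [hr, inner_sub_left, inner_sub_right, real_inner_smul_left,
                    inner_smul_right, real_inner_comm e (z l), real_inner_self_eq_norm_sq, he1]
                  nlinarith [hneg l m hlm, mul_nonneg_of_nonpos_of_nonpos h1 h2]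
              _ ≤ ∏ _l ∈ S, (1 - cphi (a * s)) := by
                  refine Finset.prod_le_prod (fun l _ => measureReal_nonneg) fun l hl => ?_
                  have hl0 : 0 < ‖z l‖ := hσ0.trans_le (hmin l)
                  have hr0 : 0 < ‖r l‖ := by linarith [hrn l hl]
                  rw [prob_inner_le (norm_pos_iff.1 hr0)]
                  suffices (σ * s - ⟪e, z l⟫ * s) / ‖r l‖ ≤ a * s by linarith [cphi_antitone this]
                  rw [div_le_iff₀ hr0]
                  obtain ⟨_, h2⟩ := hce l hl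
                  have h3 : σ - ⟪e, z l⟫ ≤ a * ‖r l‖ := by
                    nlinarith [ha l hl, hrn l hl]
                  nlinarith
              _ = (1 - cphi (a * s)) ^ S.card := by rw [Finset.prod_const]

/-- A linear functional independent of the weight lands in an interval rarely. -/
lemma integral_interval_le {κ : Type*} [Fintype κ] {u : EuclideanSpace ℝ (Fin d)} (hu : u ≠ 0)
    (r : κ → EuclideanSpace ℝ (Fin d)) (h : ∀ l, ⟪u, r l⟫ = 0)
    {w lo hi : (κ → ℝ) → ℝ} (hw : Measurable w) (hlo : Measurable lo) (hhi : Measurable hi)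
    (hw0 : ∀ y, 0 ≤ w y) (hwi : Integrable (fun x => w fun l => ⟪r l, x⟫) (gam d))
    (hbd : Integrable (fun x => (w fun l => ⟪r l, x⟫) *
      max (hi (fun l => ⟪r l, x⟫) - lo fun l => ⟪r l, x⟫) 0) (gam d)) :
    ∫ x, ({x | lo (fun l => ⟪r l, x⟫) ≤ ⟪u, x⟫ ∧ ⟪u, x⟫ ≤ hi fun l => ⟪r l, x⟫} :
        Set (EuclideanSpace ℝ (Fin d))).indicator (fun x => w fun l => ⟪r l, x⟫) x ∂gam d
      ≤ 1 / ‖u‖ * ∫ x, (w fun l => ⟪r l, x⟫) *
        max (hi (fun l => ⟪r l, x⟫) - lo fun l => ⟪r l, x⟫) 0 ∂gam d := by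
  set f : ℝ × (κ → ℝ) → ℝ := fun p =>
    {p : ℝ × (κ → ℝ) | lo p.2 ≤ p.1 ∧ p.1 ≤ hi p.2}.indicator (fun p => w p.2) p with hf
  have hAm : MeasurableSet {p : ℝ × (κ → ℝ) | lo p.2 ≤ p.1 ∧ p.1 ≤ hi p.2} :=
    (measurableSet_le (hlo.comp measurable_snd) measurable_fst).inter
      (measurableSet_le measurable_fst (hhi.comp measurable_snd))
  have hfm : Measurable f := (hw.comp measurable_snd).indicator hAm
  have hX : MeasurableSet {x : EuclideanSpace ℝ (Fin d) |
      lo (fun l => ⟪r l, x⟫) ≤ ⟪u, x⟫ ∧ ⟪u, x⟫ ≤ hi fun l => ⟪r l, x⟫} :=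
    (by fun_prop : Measurable fun x : EuclideanSpace ℝ (Fin d) =>
      (⟪u, x⟫, fun l => ⟪r l, x⟫)) hAm
  have hfx : (fun x => f (⟪u, x⟫, fun l => ⟪r l, x⟫)) =
      ({x | lo (fun l => ⟪r l, x⟫) ≤ ⟪u, x⟫ ∧ ⟪u, x⟫ ≤ hi fun l => ⟪r l, x⟫} :
        Set (EuclideanSpace ℝ (Fin d))).indicator (fun x => w fun l => ⟪r l, x⟫) := by
    funext x
    simp only [hf]
    rfl
  have hfi : Integrable (fun x => f (⟪u, x⟫, fun l => ⟪r l, x⟫)) (gam d) := by
    rw [hfx]; exact hwi.indicator hX
  rw [← hfx, (integral_indep u r h hfm hfi).2, ← integral_const_mul]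
  refine integral_mono_of_nonneg (Eventually.of_forall fun x => integral_nonneg fun s => ?_)
    (hbd.const_mul _) (Eventually.of_forall fun x => ?_)
  · simp only [hf, Pi.zero_apply]; exact indicator_nonneg (fun p _ => hw0 _) _
  · dsimp only
    set y := fun l => ⟪r l, x⟫
    have e : (fun s => f (s, y)) = (Icc (lo y) (hi y)).indicator (fun _ => w y) := by
      funext s; simp only [hf, indicator]; rfl
    rw [e, integral_indicator_const _ measurableSet_Icc, smul_eq_mul]
    have hv : (‖u‖ ^ 2).toNNReal ≠ 0 := by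
      rw [ne_eq, Real.toNNReal_eq_zero, not_le]; positivity
    have hI := gauss_interval hv (lo y) (hi y)
    rw [Real.coe_toNNReal _ (sq_nonneg _), Real.sqrt_sq (norm_nonneg _)] at hI
    calc _ ≤ max (hi y - lo y) 0 / ‖u‖ * w y := mul_le_mul_of_nonneg_right hI (hw0 y)
      _ = _ := by ring

end Vale.Agent.P226
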