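import Vale.Agent.P226.CapRadial
import Vale.Agent.P226.Deletion

/-! The cap line bound for cells of configurations of rank at most `n`. -/

open MeasureTheory Set Filter Real ProbabilityTheory
open scoped Topology RealInnerProductSpace NNReal

namespace Vale.Agent.P226.Cap

variable {d : ℕ}

/-- Families with the same Gram matrix have the same law. -/
lemma map_inner_congr {ι : Type*} [Fintype ι] {D : ℕ} (v : ι → EuclideanSpace ℝ (Fin d))
    (w : ι → EuclideanSpace ℝ (Fin D)) (h : ∀ i j, ⟪w i, w j⟫ = ⟪v i, v j⟫) :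
    ((gam D).map fun x i => ⟪w i, x⟫) = ((gam d).map fun x i => ⟪v i, x⟫) := by
  have law : ∀ (n : ℕ) (u : ι → EuclideanSpace ℝ (Fin n)) (t : EuclideanSpace ℝ ι),
      charFun ((gam n).map fun x => WithLp.toLp 2 fun i => ⟪u i, x⟫) t
        = charFun (gam n) (∑ i, t i • u i) := by
    intro n u t
    rw [charFun_apply, charFun_apply, integral_map (by fun_prop) (by fun_prop)]
    congr 1
    funext x
    congr 3
    simp [PiLp.inner_apply, inner_sum, real_inner_comm x, Finset.mul_sum, mul_assoc]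
  have hnorm : ∀ t : EuclideanSpace ℝ ι, ‖∑ i, t i • w i‖ = ‖∑ i, t i • v i‖ := by
    intro t
    have e : ⟪∑ i, t i • w i, ∑ i, t i • w i⟫ = ⟪∑ i, t i • v i, ∑ i, t i • v i⟫ := by
      simp only [sum_inner, inner_sum, real_inner_smul_left, real_inner_smul_right, h]
    rw [real_inner_self_eq_norm_sq, real_inner_self_eq_norm_sq] at e
    exact (sq_eq_sq₀ (norm_nonneg _) (norm_nonneg _)).1 e
  have heq : ((gam D).map fun x => WithLp.toLp 2 fun i => ⟪w i, x⟫)
      = ((gam d).map fun x => WithLp.toLp 2 fun i => ⟪v i, x⟫) := by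
    have : IsProbabilityMeasure ((gam D).map fun x => WithLp.toLp 2 fun i => ⟪w i, x⟫) :=
      Measure.isProbabilityMeasure_map (by fun_prop)
    have : IsProbabilityMeasure ((gam d).map fun x => WithLp.toLp 2 fun i => ⟪v i, x⟫) :=
      Measure.isProbabilityMeasure_map (by fun_prop)
    refine Measure.ext_of_charFun (funext fun t => ?_)
    rw [law D w t, law d v t, charFun_stdGaussian, charFun_stdGaussian, hnorm]
  have h2 := congrArg (Measure.map (WithLp.ofLp : EuclideanSpace ℝ ι → ι → ℝ)) heq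
  rwa [Measure.map_map (by fun_prop) (by fun_prop), Measure.map_map (by fun_prop) (by fun_prop)]
    at h2

/-- The same, for integrals. -/
lemma integral_inner_congr {ι : Type*} [Fintype ι] {D : ℕ} (v : ι → EuclideanSpace ℝ (Fin d))
    (w : ι → EuclideanSpace ℝ (Fin D)) (h : ∀ i j, ⟪w i, w j⟫ = ⟪v i, v j⟫)
    {f : (ι → ℝ) → ℝ} (hf : Measurable f) :
    ∫ x, f (fun i => ⟪w i, x⟫) ∂gam D = ∫ x, f (fun i => ⟪v i, x⟫) ∂gam d := by
  rw [← integral_map (φ := fun x i => ⟪w i, x⟫) (by fun_prop) hf.aestronglyMeasurable,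
    ← integral_map (φ := fun x i => ⟪v i, x⟫) (by fun_prop) hf.aestronglyMeasurable,
    map_inner_congr v w h]

/-- A balanced family of `k ≤ n + 1` vectors is isometric to a balanced family in `ℝ^n`. -/
lemma exists_copy_rank {κ : Type*} [Fintype κ] [DecidableEq κ] [Nontrivial κ]
    (z : κ → EuclideanSpace ℝ (Fin d)) (hsum : ∑ l, z l = 0) {n : ℕ}
    (hn : Fintype.card κ ≤ n + 1) :
    ∃ w : κ → EuclideanSpace ℝ (Fin n), ∀ i j, ⟪w i, w j⟫ = ⟪z i, z j⟫ := by
  obtain ⟨i₀⟩ := (inferInstance : Nonempty κ)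
  have hne : Nonempty {l // l ≠ i₀} := by
    obtain ⟨l, hl⟩ := exists_ne i₀
    exact ⟨⟨l, hl⟩⟩
  have hcard : Fintype.card {l // l ≠ i₀} ≤ n := by
    rw [Fintype.card_subtype_compl, Fintype.card_subtype_eq]; omega
  obtain ⟨w', hw'⟩ := exists_gram_copy (fun l : {l // l ≠ i₀} => z l.1) hcard
  refine ⟨fun l => if h : l = i₀ then -∑ j, w' j else w' ⟨l, h⟩, fun i j => ?_⟩
  have hz : z i₀ = -∑ l : {l // l ≠ i₀}, z l.1 := by
    rw [Fintype.sum_eq_add_sum_subtype_ne z i₀] at hsum
    exact eq_neg_of_add_eq_zero_left hsum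
  by_cases hi : i = i₀ <;> by_cases hj : j = i₀
  · simp only [hi, hj, ↓reduceDIte, hz, inner_neg_left, inner_neg_right, sum_inner, inner_sum, hw']
  · simp only [hi, hj, ↓reduceDIte, hz, inner_neg_left, sum_inner, hw']
  · simp only [hi, hj, ↓reduceDIte, hz, inner_neg_right, inner_sum, hw']
  · simp only [hi, hj, ↓reduceDIte, hw']

/-- The excess of a standard coordinate over `t` times the norm. -/
noncomputable def excess (n : ℕ) (t : ℝ) : ℝ :=
  ∫ x, max (⟪EuclideanSpace.single (0 : Fin (n + 1)) (1 : ℝ), x⟫ - t * ‖x‖) 0 ∂gam (n + 1)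

lemma excess_eq (n : ℕ) (t : ℝ) {u : EuclideanSpace ℝ (Fin (n + 1))} (hu : ‖u‖ = 1) :
    ∫ x, max (⟪u, x⟫ - t * ‖x‖) 0 ∂gam (n + 1) = excess n t := by
  obtain ⟨e, he⟩ := P157.exists_isometry_eq (E := EuclideanSpace ℝ (Fin (n + 1)))
    (v := EuclideanSpace.single (0 : Fin (n + 1)) (1 : ℝ)) (w := u) (by simp [hu])
  conv_lhs => rw [gam, ← stdGaussian_map e]
  rw [integral_map e.continuous.measurable.aemeasurable
    (by fun_prop : AEStronglyMeasurable (fun x => max (⟪u, x⟫ - t * ‖x‖) 0) _)]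
  refine integral_congr_ae (Eventually.of_forall fun x => ?_)
  dsimp only
  rw [← he, LinearIsometryEquiv.inner_map_map, LinearIsometryEquiv.norm_map]

/-- Line bound for cones. -/
lemma cone_line {n : ℕ} {A : Set (EuclideanSpace ℝ (Fin (n + 1)))} (hA : MeasurableSet A)
    (hc : ∀ c : ℝ, 0 < c → ∀ x, x ∈ A → c • x ∈ A) {u : EuclideanSpace ℝ (Fin (n + 1))}
    (hu : ‖u‖ = 1) (t : ℝ) :
    ∫ x in A, ⟪u, x⟫ ∂gam (n + 1)
      ≤ t * (∫ x, ‖x‖ ∂gam (n + 1)) * (gam (n + 1)).real A + excess n t := by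
  have hN := integrable_norm_gam (n := n + 1)
  have hI := integrable_inner (d := n + 1) u
  have hE : Integrable (fun x => max (⟪u, x⟫ - t * ‖x‖) 0) (gam (n + 1)) :=
    (hI.sub (hN.const_mul t)).pos_part
  calc ∫ x in A, ⟪u, x⟫ ∂gam (n + 1)
      ≤ ∫ x in A, (t * ‖x‖ + max (⟪u, x⟫ - t * ‖x‖) 0) ∂gam (n + 1) :=
        integral_mono hI.integrableOn ((hN.const_mul t).integrableOn.add hE.integrableOn)
          fun x => by dsimp only [Pi.add_apply]; linarith [le_max_left (⟪u, x⟫ - t * ‖x‖) 0]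
    _ = t * ((gam (n + 1)).real A * ∫ x, ‖x‖ ∂gam (n + 1))
          + ∫ x in A, max (⟪u, x⟫ - t * ‖x‖) 0 ∂gam (n + 1) := by
        rw [integral_add (hN.const_mul t).integrableOn hE.integrableOn, integral_const_mul,
          setIntegral_norm_cone n.succ_pos hA hc]
    _ ≤ _ := by
        have := setIntegral_le_integral hE (Eventually.of_forall fun x => le_max_right _ _) (s := A)
        rw [excess_eq n t hu] at this
        linarith

/-- Cap line bound for the cells of a balanced fixed configuration of at most `n + 2` vectors. -/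
theorem norm_cell_le {κ : Type*} [Fintype κ] [DecidableEq κ] [Nontrivial κ]
    (z : κ → EuclideanSpace ℝ (Fin d)) (hsum : ∑ l, z l = 0) {n : ℕ}
    (hn : Fintype.card κ ≤ n + 2) {i : κ}
    (hfix : mom (below z i (Finset.univ.erase i)) = z i) (t : ℝ) (hne : z i ≠ 0) :
    ‖z i‖ ≤ t * (∫ x, ‖x‖ ∂gam (n + 1)) * (gam d).real (below z i (Finset.univ.erase i))
      + excess n t := by
  obtain ⟨w, hw⟩ := exists_copy_rank z hsum (n := n + 1) hn
  set S : Set (κ → ℝ) := {y | ∀ l ∈ Finset.univ.erase i, y l ≤ y i}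
  have hS : MeasurableSet S := by
    simp only [S, Set.ofPred_forall]
    exact MeasurableSet.iInter fun l => MeasurableSet.iInter fun _ =>
      measurableSet_le (measurable_pi_apply l) (measurable_pi_apply i)
  have hmw := measurableSet_below w i (Finset.univ.erase i)
  have hmz := measurableSet_below z i (Finset.univ.erase i)
  have hcone : ∀ c : ℝ, 0 < c → ∀ x, x ∈ below w i (Finset.univ.erase i) →
      c • x ∈ below w i (Finset.univ.erase i) := fun c hc x hx l hl => by
    change ⟪w l, c • x⟫ ≤ ⟪w i, c • x⟫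
    rw [inner_smul_right, inner_smul_right]
    exact mul_le_mul_of_nonneg_left (hx l hl) hc.le
  have hmeas : (gam (n + 1)).real (below w i (Finset.univ.erase i))
      = (gam d).real (below z i (Finset.univ.erase i)) := by
    rw [← integral_indicator_one hmw, ← integral_indicator_one hmz]
    have := integral_inner_congr z w hw
      (f := S.indicator 1) (measurable_one.indicator hS)
    refine Eq.trans (integral_congr_ae (Eventually.of_forall fun x => ?_))
      (this.trans (integral_congr_ae (Eventually.of_forall fun x => ?_))) <;> rfl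
  have hmom : ∫ x in below w i (Finset.univ.erase i), ⟪w i, x⟫ ∂gam (n + 1) = ‖z i‖ ^ 2 := by
    rw [← real_inner_self_eq_norm_sq (z i)]
    conv_rhs => enter [2]; rw [← hfix]
    rw [real_inner_comm, ← setIntegral_inner_eq, ← integral_indicator hmw, ← integral_indicator hmz]
    have := integral_inner_congr z w hw
      (f := S.indicator fun y => y i) ((measurable_pi_apply i).indicator hS)
    refine Eq.trans (integral_congr_ae (Eventually.of_forall fun x => ?_))
      (this.trans (integral_congr_ae (Eventually.of_forall fun x => ?_))) <;> rfl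
  have hni : ‖w i‖ = ‖z i‖ := by
    refine (sq_eq_sq₀ (norm_nonneg _) (norm_nonneg _)).1 ?_
    rw [← real_inner_self_eq_norm_sq, ← real_inner_self_eq_norm_sq, hw]
  have hpos : 0 < ‖z i‖ := norm_pos_iff.2 hne
  have hunit : ‖(‖z i‖⁻¹) • w i‖ = 1 := by
    rw [norm_smul, norm_inv, norm_norm, hni, inv_mul_cancel₀ hpos.ne']
  have h := cone_line hmw hcone hunit t
  simp only [real_inner_smul_left] at h
  rw [integral_const_mul, hmom, hmeas, sq, ← mul_assoc, inv_mul_cancel₀ hpos.ne', one_mul] at h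
  exact h

end Vale.Agent.P226.Cap
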