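import Vale.Agent.P226.Transfer
import Vale.Agent.P157.Polar
import Vale.Agent.P347.Gauss

/-! Radial Gaussian integrals, and radial moments of cones. -/

open MeasureTheory Set Filter Real ProbabilityTheory
open scoped Topology RealInnerProductSpace NNReal

namespace Vale.Agent.P226.Cap

/-- `∫₀^∞ r^j exp (-r²/2)`. -/
noncomputable def J (j : ℕ) : ℝ := ∫ r in Ioi (0 : ℝ), r ^ j * exp (-(r ^ 2) / 2)

lemma J_eq (j : ℕ) :
    J j = (1 / 2 : ℝ) ^ (-((j : ℝ) + 1) / 2) * (1 / 2) * Real.Gamma (((j : ℝ) + 1) / 2) := by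
  have hj : (-1 : ℝ) < (j : ℝ) := by
    have := Nat.cast_nonneg (α := ℝ) j; linarith
  rw [← integral_rpow_mul_exp_neg_mul_rpow (p := 2) (q := (j : ℝ)) (b := 1 / 2) two_pos hj
    one_half_pos]
  refine setIntegral_congr_fun measurableSet_Ioi fun r _ => ?_
  rw [rpow_natCast, show r ^ (2 : ℝ) = r ^ (2 : ℕ) from rpow_natCast r 2]
  ring_nf

lemma J_succ_succ (j : ℕ) : J (j + 2) = ((j : ℝ) + 1) * J j := by
  rw [J_eq, J_eq]
  have h : 0 < ((j : ℝ) + 1) / 2 := by positivity
  rw [show ((((j + 2 : ℕ) : ℝ)) + 1) / 2 = ((j : ℝ) + 1) / 2 + 1 by push_cast; ring,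
    Real.Gamma_add_one h.ne',
    show -(((j + 2 : ℕ) : ℝ) + 1) / 2 = -((j : ℝ) + 1) / 2 + (-1) by push_cast; ring,
    rpow_add one_half_pos, rpow_neg_one]
  ring

lemma J_pos (j : ℕ) : 0 < J j := by
  rw [J_eq]
  exact mul_pos (mul_pos (rpow_pos_of_pos one_half_pos _) one_half_pos)
    (Real.Gamma_pos_of_pos (by positivity))

lemma J_zero : J 0 = √(π / 2) := by
  have h := integral_gaussian_Ioi (1 / 2 : ℝ)
  rw [J, show √(π / 2) = √(π / (1 / 2)) / 2 from ?_, ← h]
  · exact setIntegral_congr_fun measurableSet_Ioi fun r _ => by ring_nf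
  · rw [show π / (1 / 2 : ℝ) = 2 ^ 2 * (π / 2) by ring, Real.sqrt_mul (by norm_num),
      Real.sqrt_sq (by norm_num)]
    ring

lemma J_one : J 1 = 1 := by
  rw [J_eq]
  norm_num

lemma integrableOn_pow_exp (j : ℕ) :
    IntegrableOn (fun r : ℝ => r ^ j * exp (-(r ^ 2) / 2)) (Ioi 0) := by
  refine (integrableOn_rpow_mul_exp_neg_mul_sq (b := 1 / 2) one_half_pos
    (s := (j : ℝ)) (by have := Nat.cast_nonneg (α := ℝ) j; linarith)).congr_fun (fun r _ => ?_)
    measurableSet_Ioi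
  dsimp only
  rw [rpow_natCast]
  ring_nf

/-- A scaled half-line moment. -/
lemma integral_pow_exp_mul (j : ℕ) {c : ℝ} (hc : 0 < c) :
    ∫ r in Ioi (0 : ℝ), r ^ j * exp (-((c * r) ^ 2) / 2) = J j / c ^ (j + 1) := by
  have h := integral_comp_mul_left_Ioi (fun r => r ^ j * exp (-(r ^ 2) / 2)) 0 hc
  simp only [mul_zero, smul_eq_mul] at h
  have e : (fun r => (c * r) ^ j * exp (-((c * r) ^ 2) / 2))
      = fun r => c ^ j * (r ^ j * exp (-((c * r) ^ 2) / 2)) := by funext r; ring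
  rw [e, integral_const_mul] at h
  rw [eq_div_iff (pow_ne_zero _ hc.ne')]
  have h' : c ^ j * (∫ r in Ioi (0 : ℝ), r ^ j * exp (-((c * r) ^ 2) / 2)) = c⁻¹ * J j := h
  field_simp at h' ⊢
  linear_combination h'

/-- Gaussian integrals of radial functions. -/
lemma integral_radial {m : ℕ} (hm : 0 < m) (F : ℝ → ℝ) :
    ∫ x, F ‖x‖ ∂gam m
      = (∫ r in Ioi (0 : ℝ), r ^ (m - 1) * exp (-(r ^ 2) / 2) * F r) / J (m - 1) := by
  have : Nonempty (Fin m) := ⟨⟨0, hm⟩⟩
  have : Nontrivial (EuclideanSpace ℝ (Fin m)) :=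
    Module.nontrivial_of_finrank_pos (R := ℝ) (by simpa using hm)
  have h1 := integral_fun_norm_addHaar (volume : Measure (EuclideanSpace ℝ (Fin m)))
    (fun r => exp (-(r ^ 2) / 2) * F r)
  have h0 := integral_fun_norm_addHaar (volume : Measure (EuclideanSpace ℝ (Fin m)))
    (fun r => exp (-(r ^ 2) / 2))
  simp only [finrank_euclideanSpace_fin, smul_eq_mul, nsmul_eq_mul] at h1 h0
  have hv : 0 < (volume : Measure (EuclideanSpace ℝ (Fin m))).real (Metric.ball 0 1) :=
    ENNReal.toReal_pos (Metric.measure_ball_pos volume 0 one_pos).ne' measure_ball_lt_top.ne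
  have hm' : (0 : ℝ) < m := Nat.cast_pos.2 hm
  rw [gam, P347.integral_stdGaussian]
  simp only [P347.gPot, smul_eq_mul, show ∀ x : EuclideanSpace ℝ (Fin m),
    -(‖x‖ ^ 2 / 2) = -(‖x‖ ^ 2) / 2 from fun x => (neg_div _ _).symm]
  rw [h1, h0]
  have e : (fun r : ℝ => r ^ (m - 1) * exp (-(r ^ 2) / 2) * F r)
      = fun r => r ^ (m - 1) * (exp (-(r ^ 2) / 2) * F r) := by funext r; ring
  have hJ := J_pos (m - 1)
  rw [J] at hJ ⊢
  rw [e]
  field_simp

lemma integral_norm {n : ℕ} (hn : 0 < n) :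
    ∫ x, ‖x‖ ∂gam n = J n / J (n - 1) := by
  rw [integral_radial hn (fun r => r), J]
  congr 1
  refine setIntegral_congr_fun measurableSet_Ioi fun r _ => ?_
  obtain ⟨m, rfl⟩ : ∃ m, n = m + 1 := ⟨n - 1, by omega⟩
  rw [Nat.add_sub_cancel, pow_succ]
  ring

lemma integrable_norm_gam {n : ℕ} : Integrable (fun x => ‖x‖) (gam n) := by
  simpa using (IsGaussian.integrable_id (μ := gam n)).norm

/-- For a cone, the first radial moment is proportional to the measure. -/
lemma setIntegral_norm_cone {n : ℕ} (hn : 0 < n) {A : Set (EuclideanSpace ℝ (Fin n))}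
    (hA : MeasurableSet A) (hc : ∀ c : ℝ, 0 < c → ∀ x, x ∈ A → c • x ∈ A) :
    ∫ x in A, ‖x‖ ∂gam n = (gam n).real A * ∫ x, ‖x‖ ∂gam n := by
  have : Nonempty (Fin n) := ⟨⟨0, hn⟩⟩
  set γ := gam n with hγ
  set F : EuclideanSpace ℝ (Fin n) × EuclideanSpace ℝ (Fin n) → EuclideanSpace ℝ (Fin n) :=
    fun p => (‖p.1‖ / ‖p.2‖) • p.2
  have hF : Measurable F :=
    ((measurable_norm.comp measurable_fst).div (measurable_norm.comp measurable_snd)).smul
      measurable_snd
  have hz : ∀ᵐ z ∂γ, z ≠ 0 := by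
    rw [ae_iff]
    simpa using P157.stdGaussian_singleton_zero
  have h1 : ∀ᵐ p ∂γ.prod γ, p.1 ≠ 0 := (Measure.quasiMeasurePreserving_fst (μ := γ) (ν := γ)).ae hz
  have h2 : ∀ᵐ p ∂γ.prod γ, p.2 ≠ 0 := (Measure.quasiMeasurePreserving_snd (μ := γ) (ν := γ)).ae hz
  have : IsProbabilityMeasure ((γ.prod γ).map F) :=
    Measure.isProbabilityMeasure_map hF.aemeasurable
  have heq : (γ.prod γ).map F = γ := by
    refine P157.eq_of_rotInv ?_ P157.rotInv_stdGaussian ?_
    · intro e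
      rw [Measure.map_map e.continuous.measurable hF]
      have : (⇑e ∘ F) = F ∘ Prod.map id e := by
        ext p : 1; simp [F, Prod.map]
      rw [this, ← Measure.map_map hF (measurable_id.prodMap e.continuous.measurable),
        ← Measure.map_prod_map _ _ measurable_id e.continuous.measurable, Measure.map_id,
        hγ, gam, P157.rotInv_stdGaussian e]
    · rw [Measure.map_map measurable_norm hF]
      have : ((fun x => ‖x‖) ∘ F) =ᵐ[γ.prod γ] ((fun x => ‖x‖) ∘ Prod.fst) := by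
        filter_upwards [h2] with p hp
        have := norm_ne_zero_iff.2 hp
        simp [F, norm_smul]
        field_simp
      rw [Measure.map_congr this, ← Measure.map_map measurable_norm measurable_fst,
        Measure.map_fst_prod]
      simp
  have hiff : ∀ (c : ℝ) (x : EuclideanSpace ℝ (Fin n)), 0 < c → (c • x ∈ A ↔ x ∈ A) := by
    intro c x hc0
    refine ⟨fun h => ?_, hc c hc0 x⟩
    have := hc c⁻¹ (inv_pos.2 hc0) _ h
    rwa [smul_smul, inv_mul_cancel₀ hc0.ne', one_smul] at this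
  rw [← integral_indicator hA]
  conv_lhs => rw [← heq]
  rw [integral_map hF.aemeasurable (measurable_norm.indicator hA).aestronglyMeasurable]
  have e : (fun p => A.indicator (fun x => ‖x‖) (F p)) =ᵐ[γ.prod γ]
      fun p => ‖p.1‖ * A.indicator 1 p.2 := by
    filter_upwards [h1, h2] with p hp1 hp2
    have c0 : 0 < ‖p.1‖ / ‖p.2‖ := div_pos (norm_pos_iff.2 hp1) (norm_pos_iff.2 hp2)
    by_cases h : p.2 ∈ A
    · rw [indicator_of_mem ((hiff _ _ c0).2 h), indicator_of_mem h]
      have := norm_ne_zero_iff.2 hp2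
      simp [F, norm_smul]
      field_simp
    · rw [indicator_of_notMem (fun c => h ((hiff _ _ c0).1 c)), indicator_of_notMem h, mul_zero]
  rw [integral_congr_ae e, integral_prod_mul (fun x => ‖x‖) (A.indicator 1),
    integral_indicator_one hA, mul_comm]

end Vale.Agent.P226.Cap
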