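import Vale.Agent.P226.Numeric

/-! Per-cell bounds for Gaussian first moments. -/

open MeasureTheory Set Filter Real ProbabilityTheory
open scoped Topology RealInnerProductSpace

namespace Vale.Agent.P226

variable {d : ℕ}

lemma integrable_id_std :
    Integrable (fun x : EuclideanSpace ℝ (Fin d) => x) (stdGaussian (EuclideanSpace ℝ (Fin d))) :=
  IsGaussian.integrable_id

lemma map_inner_unit {u : EuclideanSpace ℝ (Fin d)} (hu : ‖u‖ = 1) :
    (stdGaussian (EuclideanSpace ℝ (Fin d))).map (fun x => ⟪u, x⟫) = gaussianReal 0 1 := by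
  have h := IsGaussian.map_eq_gaussianReal (μ := stdGaussian (EuclideanSpace ℝ (Fin d)))
    (innerSL ℝ u)
  rw [integral_strongDual_stdGaussian, variance_dual_stdGaussian, innerSL_apply_norm, hu] at h
  simpa using h

/-- Threshold bound for the Gaussian first moment of a set. -/
lemma norm_moment_le (A : Set (EuclideanSpace ℝ (Fin d))) (t : ℝ) :
    ‖∫ x in A, x ∂stdGaussian (EuclideanSpace ℝ (Fin d))‖ ≤
      max 0 (t * (stdGaussian (EuclideanSpace ℝ (Fin d))).real A + (phi t - t * cphi t)) := by
  set μ := stdGaussian (EuclideanSpace ℝ (Fin d))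
  set z := ∫ x in A, x ∂μ with hz
  rcases eq_or_ne z 0 with h0 | h0
  · rw [h0, norm_zero]; exact le_max_left _ _
  refine le_trans ?_ (le_max_right _ _)
  set u := ‖z‖⁻¹ • z with hu
  have hu1 : ‖u‖ = 1 := by
    rw [hu, norm_smul, norm_inv, norm_norm, inv_mul_cancel₀ (norm_ne_zero_iff.2 h0)]
  have hzu : ‖z‖ = ⟪u, z⟫ := by
    rw [hu, real_inner_smul_left, real_inner_self_eq_norm_sq, sq, ← mul_assoc,
      inv_mul_cancel₀ (norm_ne_zero_iff.2 h0), one_mul]
  have hid : Integrable (fun x : EuclideanSpace ℝ (Fin d) => x) μ := integrable_id_std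
  have hin : Integrable (fun x => ⟪u, x⟫) μ := (innerSL ℝ u).integrable_comp hid
  have hex : Integrable (fun x => max (⟪u, x⟫ - t) 0) μ :=
    (hin.sub (integrable_const t)).pos_part
  rw [hzu, hz, ← integral_inner hid.integrableOn]
  calc ∫ x in A, ⟪u, x⟫ ∂μ ≤ ∫ x in A, (t + max (⟪u, x⟫ - t) 0) ∂μ := by
        apply integral_mono hin.integrableOn ((integrable_const t).add hex.integrableOn)
        intro x
        dsimp only [Pi.add_apply]
        linarith [le_max_left (⟪u, x⟫ - t) 0]
    _ = t * μ.real A + ∫ x in A, max (⟪u, x⟫ - t) 0 ∂μ := by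
        rw [integral_add (integrable_const t) hex.integrableOn, setIntegral_const, smul_eq_mul,
          mul_comm]
    _ ≤ t * μ.real A + ∫ x, max (⟪u, x⟫ - t) 0 ∂μ := by
        have h := setIntegral_le_integral hex (Eventually.of_forall fun x => le_max_right _ _) (s := A)
        linarith
    _ = t * μ.real A + (phi t - t * cphi t) := by
        rw [← integral_excess t, ← map_inner_unit hu1, integral_map (by fun_prop) (by fun_prop)]

/-- At the quantile the bound is the isoperimetric profile. -/
lemma norm_moment_sq_le_of_quantile (A : Set (EuclideanSpace ℝ (Fin d))) {t : ℝ}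
    (h : cphi t = (stdGaussian (EuclideanSpace ℝ (Fin d))).real A) :
    ‖∫ x in A, x ∂stdGaussian (EuclideanSpace ℝ (Fin d))‖ ^ 2 ≤ phi t ^ 2 := by
  have := norm_moment_le A t
  rw [← h] at this
  ring_nf at this
  rw [max_eq_right (phi_pos t).le] at this
  exact pow_le_pow_left₀ (norm_nonneg _) this 2

lemma norm_moment_sq_le_half (A : Set (EuclideanSpace ℝ (Fin d))) :
    ‖∫ x in A, x ∂stdGaussian (EuclideanSpace ℝ (Fin d))‖ ^ 2 ≤ 1 / (2 * π) := by
  have := norm_moment_le A 0
  simp only [zero_mul, zero_add, sub_zero] at this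
  rw [max_eq_right (phi_pos 0).le] at this
  refine (pow_le_pow_left₀ (norm_nonneg _) this 2).trans ?_
  rw [phi_sq]; simp

lemma norm_moment_sq_le (A : Set (EuclideanSpace ℝ (Fin d))) :
    ‖∫ x in A, x ∂stdGaussian (EuclideanSpace ℝ (Fin d))‖ ^ 2 ≤
      81 / 200 * (stdGaussian (EuclideanSpace ℝ (Fin d))).real A := by
  set μ := stdGaussian (EuclideanSpace ℝ (Fin d))
  rcases eq_or_lt_of_le (measureReal_nonneg : 0 ≤ μ.real A) with h0 | h0
  · have : μ A = 0 := by
      have := h0.symm
      rwa [measureReal_eq_zero_iff] at this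
    rw [Measure.restrict_eq_zero.2 this, integral_zero_measure, norm_zero]
    rw [← h0]; norm_num
  rcases le_or_gt (μ.real A) (1 / 2) with h2 | h2
  · obtain ⟨t, ht, he⟩ := exists_quantile h0 h2
    exact (norm_moment_sq_le_of_quantile A he).trans (by rw [← he]; exact phi_sq_le_universal ht)
  · refine (norm_moment_sq_le_half A).trans ?_
    rw [div_le_iff₀ (by positivity)]
    nlinarith [Real.pi_gt_three]

lemma norm_moment_sq_le_conjectured (A : Set (EuclideanSpace ℝ (Fin d)))
    (hA : (stdGaussian (EuclideanSpace ℝ (Fin d))).real A ≤ 1 / 7 ∨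
      4 / 9 ≤ (stdGaussian (EuclideanSpace ℝ (Fin d))).real A) :
    ‖∫ x in A, x ∂stdGaussian (EuclideanSpace ℝ (Fin d))‖ ^ 2 ≤
      9 / (8 * π) * (stdGaussian (EuclideanSpace ℝ (Fin d))).real A := by
  set μ := stdGaussian (EuclideanSpace ℝ (Fin d))
  rcases hA with h | h
  · rcases eq_or_lt_of_le (measureReal_nonneg : 0 ≤ μ.real A) with h0 | h0
    · have : μ A = 0 := by
        have := h0.symm
        rwa [measureReal_eq_zero_iff] at this
      rw [Measure.restrict_eq_zero.2 this, integral_zero_measure, norm_zero]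
      rw [← h0]; norm_num
    obtain ⟨t, _, he⟩ := exists_quantile h0 (by linarith)
    refine (norm_moment_sq_le_of_quantile A he).trans ?_
    rw [← he]
    refine phi_sq_le_nine_eighths ?_
    by_contra hc
    have := cphi_antitone (le_of_not_ge hc)
    linarith [one_seventh_lt_cphi]
  · calc _ ≤ 1 / (2 * π) := norm_moment_sq_le_half A
      _ = 9 / (8 * π) * (4 / 9) := by field_simp; ring
      _ ≤ _ := by gcongr

end Vale.Agent.P226
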