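import Vale.Agent.P226.Short

/-! Removing the shortest vector of a large obtuse configuration costs little. -/

open MeasureTheory Set Filter Real ProbabilityTheory
open scoped Topology RealInnerProductSpace NNReal

namespace Vale.Agent.P226

variable {d : ℕ}

/-- Removing the shortest vector of a large obtuse configuration costs little. -/
lemma exists_cheap_deletion :
    ∃ K : ℕ, 2 ≤ K ∧ ∀ (d : ℕ) (ι : Type) [Fintype ι] [DecidableEq ι]
      (z : ι → EuclideanSpace ℝ (Fin d)) (a : ι → ℝ),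
      K < Fintype.card ι → ∑ l, z l = 0 → (∀ j l, j ≠ l → ⟪z j, z l⟫ ≤ 0) → (∀ l, z l ≠ 0) →
      (∀ l, 0 ≤ a l) → ∑ l, a l ≤ 1 → (∀ l, ‖z l‖ ^ 2 ≤ 81 / 200 * a l) →
      (∀ l, ‖z l‖ ^ 2 ≤ 25 * (a l * √(a l))) → 1 / 3 ≤ ∑ l, ‖z l‖ ^ 2 →
      ∃ i, ∫ x, (below z i (Finset.univ.erase i)).indicator (fun x => max ⟪z i, x⟫ 0) x ∂gam d
        ≤ ‖z i‖ ^ 2 / 6 := by
  obtain ⟨N, hN⟩ := eventually_atTop.1 eventually_goodSize
  obtain ⟨A0, hA0⟩ : ∃ A : ℕ, (A : ℝ) = 5184000000000000 :=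
    ⟨5184000000000000, by norm_num⟩
  refine ⟨max (N + A0 + 19) 2880001, le_trans (by norm_num) (le_max_right _ _), ?_⟩
  intro d ι _ _ z a hcard hsum hneg hne ha0 ha1 hza hzs hF
  have hk1 : N + A0 + 19 < Fintype.card ι := lt_of_le_of_lt (le_max_left _ _) hcard
  have hk2 : 2880001 < Fintype.card ι := lt_of_le_of_lt (le_max_right _ _) hcard
  clear hcard
  have : Nonempty ι := Fintype.card_pos_iff.1 (by omega)
  obtain ⟨i, -, hi⟩ := Finset.exists_min_image Finset.univ (fun l => ‖z l‖) Finset.univ_nonempty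
  obtain ⟨b, -, hb⟩ := Finset.exists_max_image Finset.univ (fun l => ‖z l‖) Finset.univ_nonempty
  replace hi : ∀ l, ‖z i‖ ≤ ‖z l‖ := fun l => hi l (Finset.mem_univ l)
  replace hb : ∀ l, ‖z l‖ ≤ ‖z b‖ := fun l => hb l (Finset.mem_univ l)
  set σ := ‖z i‖ with hσ
  have hσ0 : 0 < σ := norm_pos_iff.2 (hne i)
  have hB : 1 / 360000 ≤ ‖z b‖ ^ 2 := longest_not_short ha0 ha1 hzs hF hb
  -- the shortest vector is short
  have hσk : σ ^ 2 ≤ 1 / 2880001 := by
    have h1 : (Fintype.card ι : ℝ) * σ ^ 2 ≤ ∑ l, ‖z l‖ ^ 2 := by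
      rw [← nsmul_eq_mul, ← Finset.card_univ, ← Finset.sum_const]
      exact Finset.sum_le_sum fun l _ => pow_le_pow_left₀ (norm_nonneg _) (hi l) 2
    have h2 : ∑ l, ‖z l‖ ^ 2 ≤ 1 := by
      calc ∑ l, ‖z l‖ ^ 2 ≤ ∑ l, 81 / 200 * a l := Finset.sum_le_sum fun l _ => hza l
        _ = 81 / 200 * ∑ l, a l := by rw [Finset.mul_sum]
        _ ≤ 1 := by linarith [Finset.sum_nonneg fun l (_ : l ∈ Finset.univ) => ha0 l]
    have h3 : (2880001 : ℝ) ≤ Fintype.card ι := by exact_mod_cast hk2.le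
    nlinarith
  have hib : i ≠ b := fun c => by rw [← c] at hB; linarith
  set α : ℝ := (1 / 72000000) ^ 2 with hα
  set J := Finset.univ.filter
    (fun l => l ≠ i ∧ l ≠ b ∧ a l < α ∧ -⟪z i, z l⟫ ≤ σ ^ 2 / 16) with hJ
  have hJi : ∀ l ∈ J, l ≠ i := fun l hl => (Finset.mem_filter.1 hl).2.1
  have hJb : ∀ l ∈ J, l ≠ b := fun l hl => (Finset.mem_filter.1 hl).2.2.1
  have hJlam : ∀ l ∈ J, -⟪z i, z l⟫ ≤ σ ^ 2 / 16 := fun l hl => (Finset.mem_filter.1 hl).2.2.2.2
  have hiJ : i ∉ J := fun c => hJi i c rfl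
  have hbJ : b ∉ J := fun c => hJb b c rfl
  -- the complement of {i, b} ∪ J is small
  set C := (Finset.univ \ insert i (insert b J)) with hC
  have hCcard : C.card ≤ A0 + 16 := by
    have h1 : (Finset.univ.filter fun l => α ≤ a l).card ≤ A0 := by
      set s := Finset.univ.filter fun l => α ≤ a l with hs
      have hc : (s.card : ℝ) * α ≤ 1 := by
        calc (s.card : ℝ) * α = ∑ _l ∈ s, α := by simp
          _ ≤ ∑ l ∈ s, a l := Finset.sum_le_sum fun l hl => (Finset.mem_filter.1 hl).2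
          _ ≤ ∑ l, a l := Finset.sum_le_sum_of_subset_of_nonneg (Finset.filter_subset _ _)
              fun l _ _ => ha0 l
          _ ≤ 1 := ha1
      have : (s.card : ℝ) ≤ (A0 : ℝ) := by
        rw [hα] at hc; linarith
      exact_mod_cast this
    have h2 : (Finset.univ.filter fun l => l ≠ i ∧ σ ^ 2 / 16 < -⟪z i, z l⟫).card ≤ 16 := by
      set s := Finset.univ.filter fun l => l ≠ i ∧ σ ^ 2 / 16 < -⟪z i, z l⟫ with hs
      have hrow : ∑ l ∈ Finset.univ.erase i, -⟪z i, z l⟫ = σ ^ 2 := by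
        have : ∑ l, ⟪z i, z l⟫ = 0 := by rw [← inner_sum, hsum, inner_zero_right]
        rw [← Finset.add_sum_erase _ _ (Finset.mem_univ i), real_inner_self_eq_norm_sq] at this
        rw [Finset.sum_neg_distrib]; linarith
      have hc : (s.card : ℝ) * (σ ^ 2 / 16) ≤ σ ^ 2 := by
        calc (s.card : ℝ) * (σ ^ 2 / 16) = ∑ _l ∈ s, σ ^ 2 / 16 := by simp
          _ ≤ ∑ l ∈ s, -⟪z i, z l⟫ :=
              Finset.sum_le_sum fun l hl => (Finset.mem_filter.1 hl).2.2.le
          _ ≤ ∑ l ∈ Finset.univ.erase i, -⟪z i, z l⟫ :=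
              Finset.sum_le_sum_of_subset_of_nonneg
                (fun l hl => Finset.mem_erase.2 ⟨(Finset.mem_filter.1 hl).2.1, Finset.mem_univ l⟩)
                fun l hl _ => neg_nonneg.2 (hneg i l (Finset.ne_of_mem_erase hl).symm)
          _ = σ ^ 2 := hrow
      have : (s.card : ℝ) ≤ 16 := by
        by_contra h
        nlinarith [not_le.1 h, pow_pos hσ0 2]
      exact_mod_cast this
    refine le_trans (Finset.card_le_card ?_) ((Finset.card_union_le _ _).trans (add_le_add h1 h2))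
    intro l hl
    simp only [hC, Finset.mem_sdiff, Finset.mem_insert, not_or, Finset.mem_univ, true_and, hJ,
      Finset.mem_filter] at hl
    simp only [Finset.mem_union, Finset.mem_filter, Finset.mem_univ, true_and]
    by_contra hcon
    simp only [not_or, not_and, not_le, not_lt] at hcon
    exact hl.2.2 ⟨hl.1, hl.2.1, hcon.1, hcon.2 hl.1⟩
  set n := J.card with hn
  have hnN : N ≤ n ∧ 1 ≤ n := by
    have := Finset.card_le_card (s := (Finset.univ : Finset ι)) (t := C ∪ insert i (insert b J))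
      (fun l _ => by
        by_cases hl : l ∈ insert i (insert b J)
        · exact Finset.mem_union_right _ hl
        · exact Finset.mem_union_left _ (Finset.mem_sdiff.2 ⟨Finset.mem_univ l, hl⟩))
    have h1 := Finset.card_union_le C (insert i (insert b J))
    have h2 := Finset.card_insert_le i (insert b J)
    have h3 := Finset.card_insert_le b J
    rw [Finset.card_univ] at this
    omega
  set r : {l // l ∈ insert i J} → EuclideanSpace ℝ (Fin d) := fun l => z l.1
  have hJ2 : ∑ l ∈ J, ‖z l‖ ^ 2 ≤ 1 / 2880000 := by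
    calc ∑ l ∈ J, ‖z l‖ ^ 2 ≤ ∑ l ∈ J, 1 / 2880000 * a l := by
          refine Finset.sum_le_sum fun l hl => (hzs l).trans ?_
          have : √(a l) ≤ 1 / 72000000 := by
            rw [Real.sqrt_le_iff]
            exact ⟨by norm_num, (Finset.mem_filter.1 hl).2.2.2.1.le⟩
          nlinarith [ha0 l]
      _ ≤ 1 / 2880000 * ∑ l, a l := by
          rw [Finset.mul_sum]
          exact Finset.sum_le_sum_of_subset_of_nonneg (Finset.subset_univ _)
            fun l _ _ => mul_nonneg (by norm_num) (ha0 l)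
      _ ≤ _ := by linarith
  refine ⟨i, shortest_cell_le hC hib hiJ hbJ hsum hneg (hne i) hi hJlam ?_ ?_
    (hN n hnN.1) hnN.2⟩
  · refine le_trans (by linarith) (residual_sq_ge hib hiJ hbJ hsum hneg ?_)
    linarith
  · have : (C.card : ℝ) ≤ (A0 : ℝ) + 16 := by exact_mod_cast hCcard
    rw [hA0] at this
    linarith

end Vale.Agent.P226
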