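import Vale.Agent.P226.Cap
import Vale.Agent.P226.MinCell

/-! Five cells: one of them has measure below `478 / 10000`. -/

open MeasureTheory Set Filter Real ProbabilityTheory
open scoped Topology RealInnerProductSpace NNReal

namespace Vale.Agent.P226

/-- Five terms of the arctangent series bound it from above. -/
lemma arctan_le_series {y : ℝ} (hy : 0 ≤ y) :
    arctan y ≤ y - y ^ 3 / 3 + y ^ 5 / 5 - y ^ 7 / 7 + y ^ 9 / 9 := by
  have hd : ∀ x : ℝ, HasDerivAt
      (fun x => x - x ^ 3 / 3 + x ^ 5 / 5 - x ^ 7 / 7 + x ^ 9 / 9 - arctan x)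
      (x ^ 10 / (1 + x ^ 2)) x := by
    intro x
    refine ((((((hasDerivAt_id x).sub ((hasDerivAt_pow 3 x).div_const 3)).add
      ((hasDerivAt_pow 5 x).div_const 5)).sub ((hasDerivAt_pow 7 x).div_const 7)).add
      ((hasDerivAt_pow 9 x).div_const 9)).sub (hasDerivAt_arctan x)).congr_deriv ?_
    have : (1 : ℝ) + x ^ 2 ≠ 0 := by positivity
    push_cast
    field_simp
    ring
  have hm := monotone_of_hasDerivAt_nonneg hd fun x => div_nonneg ((Even.pow_nonneg (by decide) x))
    (by positivity)
  have := hm hy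
  simp at this
  linarith

/-- Rational form of the excess constant of the cap line in `ℝ⁴`. -/
lemma excess_four_le {t l u : ℝ} (ht : 0 < t) (hl : 0 < l) (hl2 : l ^ 2 ≤ 1 - t ^ 2)
    (hu : 1 - t ^ 2 ≤ u ^ 2) (hu0 : 0 ≤ u) :
    √(1 - t ^ 2) ^ 3 - 3 / 2 * t * (arctan (√(1 - t ^ 2) / t) - t * √(1 - t ^ 2))
      ≤ u ^ 3 - 3 / 2 * t * (1570796 / 1000000
          - (t / l - (t / l) ^ 3 / 3 + (t / l) ^ 5 / 5 - (t / l) ^ 7 / 7 + (t / l) ^ 9 / 9)
          - t * u) := by
  have h0 : 0 < 1 - t ^ 2 := lt_of_lt_of_le (by positivity) hl2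
  have hls : l ≤ √(1 - t ^ 2) := Real.le_sqrt_of_sq_le hl2
  have hus : √(1 - t ^ 2) ≤ u := Real.sqrt_le_iff.2 ⟨hu0, hu⟩
  have hs : 0 < √(1 - t ^ 2) := Real.sqrt_pos.2 h0
  have hinv : arctan (√(1 - t ^ 2) / t) = π / 2 - arctan (t / √(1 - t ^ 2)) := by
    rw [← arctan_inv_of_pos (by positivity), inv_div]
  have hat : arctan (t / √(1 - t ^ 2)) ≤
      t / l - (t / l) ^ 3 / 3 + (t / l) ^ 5 / 5 - (t / l) ^ 7 / 7 + (t / l) ^ 9 / 9 := by
    refine le_trans (arctan_strictMono.monotone ?_) (arctan_le_series (by positivity))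
    exact div_le_div_of_nonneg_left ht.le hl hls
  have hth : 1570796 / 1000000
      - (t / l - (t / l) ^ 3 / 3 + (t / l) ^ 5 / 5 - (t / l) ^ 7 / 7 + (t / l) ^ 9 / 9) - t * u
      ≤ arctan (√(1 - t ^ 2) / t) - t * √(1 - t ^ 2) := by
    have := mul_le_mul_of_nonneg_left hus ht.le
    rw [hinv]
    linarith [Real.pi_gt_d6]
  have h3 := pow_le_pow_left₀ hs.le hus 3
  have := mul_le_mul_of_nonneg_left hth (by positivity : (0 : ℝ) ≤ 3 / 2 * t)
  linarith

/-- A squared line below an affine function at the endpoints is below it in between. -/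
lemma sq_seg_le {x a P Q lo hi r M : ℝ} (hx0 : 0 ≤ x) (hx : x ≤ P * a + Q) (hlo : lo ≤ a)
    (hhi : a ≤ hi) (h1 : (P * lo + Q) ^ 2 ≤ r * lo + M) (h2 : (P * hi + Q) ^ 2 ≤ r * hi + M) :
    x ^ 2 ≤ r * a + M := by
  refine (pow_le_pow_left₀ hx0 hx 2).trans ?_
  rcases eq_or_lt_of_le (hlo.trans hhi) with he | hlt
  · obtain rfl : a = lo := le_antisymm (he ▸ hhi) hlo
    exact h1
  · have e1 := mul_le_mul_of_nonneg_left h1 (sub_nonneg.2 hhi)
    have e2 := mul_le_mul_of_nonneg_left h2 (sub_nonneg.2 hlo)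
    have e3 : 0 ≤ (hi - lo) * (P ^ 2 * ((a - lo) * (hi - a))) :=
      mul_nonneg (sub_nonneg.2 hlt.le)
        (mul_nonneg (sq_nonneg P) (mul_nonneg (sub_nonneg.2 hlo) (sub_nonneg.2 hhi)))
    refine le_of_mul_le_mul_left ?_ (sub_pos.2 hlt)
    linear_combination e1 + e2 + e3

variable {d : ℕ} {κ : Type*} [Fintype κ] [DecidableEq κ]

/-- (C2) for five cells: some cell is small. -/
theorem exists_small_five (z : κ → EuclideanSpace ℝ (Fin d)) (hk : Fintype.card κ = 5)
    (hsum : ∑ l, z l = 0) (hfix : ∀ l, mom (below z l (Finset.univ.erase l)) = z l)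
    (ha : ∑ l, (gam d).real (below z l (Finset.univ.erase l)) = 1)
    (hsmall : ∀ l, ‖z l‖ ^ 2 < 2 * (gam d).real (below z l (Finset.univ.erase l)) ^ 2)
    (hS : 9 / (8 * π) < ∑ l, ‖z l‖ ^ 2) :
    ∃ l, (gam d).real (below z l (Finset.univ.erase l)) < 478 / 10000 := by
  have : Nonempty κ := Fintype.card_pos_iff.1 (by omega)
  have : Nontrivial κ := Fintype.one_lt_card_iff_nontrivial.1 (by omega)
  refine exists_lt_of_affine (r := 44016 / 100000) (M := -(1646 / 100000)) (by norm_num) ha.le
    (fun i hi => ?_) ?_ hS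
  · set a := (gam d).real (below z i (Finset.univ.erase i))
    have ha1 : a ≤ 1 := measureReal_le_one
    rcases eq_or_ne (z i) 0 with hz | hz
    · rw [hz, norm_zero]; linarith
    have hx : ∀ t l u P Q : ℝ, 0 < t → t < 1 → 0 < l → l ^ 2 ≤ 1 - t ^ 2 → 1 - t ^ 2 ≤ u ^ 2 →
        0 ≤ u → 0 ≤ Q → 3 * (3141593 / 1000000) / 2 * t ≤ P * (2506628 / 1000000) →
        u ^ 3 - 3 / 2 * t * (1570796 / 1000000
          - (t / l - (t / l) ^ 3 / 3 + (t / l) ^ 5 / 5 - (t / l) ^ 7 / 7 + (t / l) ^ 9 / 9)
          - t * u) ≤ Q * (2506628 / 1000000) →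
        ‖z i‖ ≤ P * a + Q := by
      intro t l u P Q ht ht1 hl hl2 hu hu0 hQ hP hQ'
      have h := Cap.line_four z hsum (hfix i) hz hk.le ht ht1
      have he := excess_four_le ht hl hl2 hu hu0
      have ha0 : 0 ≤ a := measureReal_nonneg
      have hp1 : 3 * π / 2 * t * a ≤ P * (2506628 / 1000000) * a := by
        refine mul_le_mul_of_nonneg_right (le_trans ?_ hP) ha0
        gcongr
        linarith [Real.pi_lt_d6]
      have hPQ : 0 ≤ P * a + Q := by
        have : 0 ≤ P * (2506628 / 1000000) := le_trans (by positivity) hP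
        have : 0 ≤ P := by linarith
        positivity
      have hroot := mul_le_mul_of_nonneg_left sqrt_two_pi_lower hPQ
      refine le_of_mul_le_mul_left ?_ (by positivity : (0 : ℝ) < √(2 * π))
      linarith
    rcases le_total a (17232 / 100000) with h1 | h1
    · nlinarith [hsmall i, mul_nonneg (sub_nonneg.2 hi) (sub_nonneg.2 h1)]
    rcases le_total a (24898 / 100000) with h2 | h2
    · exact sq_seg_le (norm_nonneg _) (hx (4375 / 10000) (1124023 / 1250000) (1798437 / 2000000)
        (82249 / 100000) (10039 / 100000) (by norm_num) (by norm_num) (by norm_num) (by norm_num)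
        (by norm_num) (by norm_num) (by norm_num) (by norm_num) (by norm_num)) h1 h2
        (by norm_num) (by norm_num)
    rcases le_total a (27092 / 100000) with h3 | h3
    · exact sq_seg_le (norm_nonneg _) (hx (375 / 1000) (1158781 / 1250000) (9270249 / 10000000)
        (70499 / 100000) (12961 / 100000) (by norm_num) (by norm_num) (by norm_num) (by norm_num)
        (by norm_num) (by norm_num) (by norm_num) (by norm_num) (by norm_num)) h2 h3
        (by norm_num) (by norm_num)
    rcases le_total a (27893 / 100000) with h4 | h4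
    · exact sq_seg_le (norm_nonneg _) (hx (3625 / 10000) (9319837 / 10000000) (4659919 / 5000000)
        (68149 / 100000) (13597 / 100000) (by norm_num) (by norm_num) (by norm_num) (by norm_num)
        (by norm_num) (by norm_num) (by norm_num) (by norm_num) (by norm_num)) h3 h4
        (by norm_num) (by norm_num)
    rcases le_total a (30579 / 100000) with h5 | h5
    · exact sq_seg_le (norm_nonneg _) (hx (35 / 100) (1170937 / 1250000) (9367497 / 10000000)
        (658 / 1000) (1425 / 10000) (by norm_num) (by norm_num) (by norm_num) (by norm_num)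
        (by norm_num) (by norm_num) (by norm_num) (by norm_num) (by norm_num)) h4 h5
        (by norm_num) (by norm_num)
    rcases le_total a (38113 / 100000) with h6 | h6
    · exact sq_seg_le (norm_nonneg _) (hx (325 / 1000) (472857 / 500000) (9457141 / 10000000)
        (611 / 1000) (1561 / 10000) (by norm_num) (by norm_num) (by norm_num) (by norm_num)
        (by norm_num) (by norm_num) (by norm_num) (by norm_num) (by norm_num)) h5 h6
        (by norm_num) (by norm_num)
    · exact sq_seg_le (norm_nonneg _) (hx (2125 / 10000) (977161 / 1000000) (9771611 / 10000000)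
        (3995 / 10000) (22612 / 100000) (by norm_num) (by norm_num) (by norm_num) (by norm_num)
        (by norm_num) (by norm_num) (by norm_num) (by norm_num) (by norm_num)) h6 ha1
        (by norm_num) (by norm_num)
  · rw [hk]
    have := c_lower
    push_cast
    linarith

end Vale.Agent.P226
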