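import Vale.Agent.P226.MinCell

/-! Line certificates: affine majorants of the squared cap profiles on `[e, 1]`, and the small cell
they force, for six, seven and eight cells.

The lines of the profiles of cones in `ℝ⁵` and `ℝ⁷` enter as hypotheses, in the form of
`Cap.line_five` and `Cap.line_seven`. -/

open Real Finset

namespace Vale.Agent.P226

/-- The constant term of `Cap.line_five`. -/
noncomputable def coneFive (t : ℝ) : ℝ :=
  (1 - t ^ 2) ^ 2 - 4 * t * (2 / 3 - t + t ^ 3 / 3)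

/-- The constant term of `Cap.line_seven`. -/
noncomputable def coneSeven (t : ℝ) : ℝ :=
  (1 - t ^ 2) ^ 3 - 6 * t * (8 / 15 - t + 2 / 3 * t ^ 3 - t ^ 5 / 5)

/-- A squared line stays below an affine bound on an interval. -/
lemma sq_root_line_le {s a P Q lo hi r M : ℝ} (hs : 0 ≤ s) (hL : √s ≤ P * a + Q)
    (hlo : lo ≤ a) (hhi : a ≤ hi)
    (h1 : (P * lo + Q) ^ 2 ≤ r * lo + M) (h2 : (P * hi + Q) ^ 2 ≤ r * hi + M) :
    s ≤ r * a + M := by
  have h3 := pow_le_pow_left₀ (sqrt_nonneg s) hL 2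
  rw [sq_sqrt hs] at h3
  refine h3.trans ?_
  rcases eq_or_lt_of_le (hlo.trans hhi) with he | hlt
  · obtain rfl : a = lo := le_antisymm (he ▸ hhi) hlo
    exact h1
  · have e1 := mul_le_mul_of_nonneg_left h1 (sub_nonneg.2 hhi)
    have e2 := mul_le_mul_of_nonneg_left h2 (sub_nonneg.2 hlo)
    have e3 : 0 ≤ (hi - lo) * (P ^ 2 * ((a - lo) * (hi - a))) := by
      have := sub_nonneg.2 hlo; have := sub_nonneg.2 hhi; have := sub_nonneg.2 hlt.le
      positivity
    exact le_of_mul_le_mul_left (by nlinarith) (sub_pos.2 hlt)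

/-- `2 a²` stays below an affine bound on an interval. -/
lemma two_sq_le {s a lo hi r M : ℝ} (h : s ≤ 2 * a ^ 2) (hlo : lo ≤ a) (hhi : a ≤ hi)
    (h1 : 2 * lo ^ 2 ≤ r * lo + M) (h2 : 2 * hi ^ 2 ≤ r * hi + M) : s ≤ r * a + M := by
  rcases eq_or_lt_of_le (hlo.trans hhi) with he | hlt
  · obtain rfl : a = lo := le_antisymm (he ▸ hhi) hlo
    exact h.trans h1
  · have e1 := mul_le_mul_of_nonneg_left h1 (sub_nonneg.2 hhi)
    have e2 := mul_le_mul_of_nonneg_left h2 (sub_nonneg.2 hlo)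
    have e3 : 0 ≤ (hi - lo) * ((a - lo) * (hi - a)) := by
      have := sub_nonneg.2 hlo; have := sub_nonneg.2 hhi; have := sub_nonneg.2 hlt.le
      positivity
    exact h.trans (le_of_mul_le_mul_left (by nlinarith) (sub_pos.2 hlt))

/-- Dividing a line by a lower bound of `√(2π)`. -/
lemma root_le_of_line {s a p B : ℝ} (h : √(2 * π) * √s ≤ p * a + B) :
    √s ≤ p / (2506628 / 1000000) * a + B / (2506628 / 1000000) := by
  rw [div_mul_eq_mul_div, ← add_div, le_div_iff₀ (by norm_num)]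
  nlinarith [mul_le_mul_of_nonneg_right sqrt_two_pi_lower (sqrt_nonneg s)]

/-- Six cells: the majorant. -/
lemma le_affine_six {s a : ℝ} (hs0 : 0 ≤ s) (he : 36 / 1000 ≤ a) (ha1 : a ≤ 1)
    (h2 : s ≤ 2 * a ^ 2)
    (hs : ∀ t, 0 < t → t < 1 → √(2 * π) * √s ≤ 16 / 3 * t * a + coneFive t) :
    s ≤ 4344 / 10000 * a + -1304 / 100000 := by
  have hl : ∀ t, 0 < t → t < 1 →
      √s ≤ 16 / 3 * t / (2506628 / 1000000) * a + coneFive t / (2506628 / 1000000) :=
    fun t h0 h1 => root_le_of_line (hs t h0 h1)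
  rcases le_total a (180 / 1000) with h | h
  · exact two_sq_le h2 he h (by norm_num) (by norm_num)
  rcases le_total a (245 / 1000) with h' | h'
  · refine sq_root_line_le hs0 (hl (375 / 1000) (by norm_num) (by norm_num)) h h' ?_ ?_ <;>
      norm_num [coneFive]
  clear h
  rcases le_total a (27755 / 100000) with h | h
  · refine sq_root_line_le hs0 (hl (325 / 1000) (by norm_num) (by norm_num)) h' h ?_ ?_ <;>
      norm_num [coneFive]
  clear h'
  rcases le_total a (350 / 1000) with h' | h'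
  · refine sq_root_line_le hs0 (hl (2875 / 10000) (by norm_num) (by norm_num)) h h' ?_ ?_ <;>
      norm_num [coneFive]
  · refine sq_root_line_le hs0 (hl (1625 / 10000) (by norm_num) (by norm_num)) h' ha1 ?_ ?_ <;>
      norm_num [coneFive]

/-- Seven cells: the majorant. -/
lemma le_affine_seven {s a : ℝ} (hs0 : 0 ≤ s) (he : 31 / 1000 ≤ a) (ha1 : a ≤ 1)
    (h2 : s ≤ 2 * a ^ 2)
    (hs : ∀ t, 0 < t → t < 1 → √(2 * π) * √s ≤ 32 / 5 * t * a + coneSeven t) :
    s ≤ 4384 / 10000 * a + -1166 / 100000 := by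
  have hl : ∀ t, 0 < t → t < 1 →
      √s ≤ 32 / 5 * t / (2506628 / 1000000) * a + coneSeven t / (2506628 / 1000000) :=
    fun t h0 h1 => root_le_of_line (hs t h0 h1)
  rcases le_total a (180 / 1000) with h | h
  · exact two_sq_le h2 he h (by norm_num) (by norm_num)
  rcases le_total a (24516 / 100000) with h' | h'
  · refine sq_root_line_le hs0 (hl (325 / 1000) (by norm_num) (by norm_num)) h h' ?_ ?_ <;>
      norm_num [coneSeven]
  clear h
  rcases le_total a (330 / 1000) with h | h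
  · refine sq_root_line_le hs0 (hl (25 / 100) (by norm_num) (by norm_num)) h' h ?_ ?_ <;>
      norm_num [coneSeven]
  · refine sq_root_line_le hs0 (hl (1625 / 10000) (by norm_num) (by norm_num)) h ha1 ?_ ?_ <;>
      norm_num [coneSeven]

/-- Eight cells: the majorant. -/
lemma le_affine_eight {s a : ℝ} (hs0 : 0 ≤ s) (he : 25 / 1000 ≤ a) (ha1 : a ≤ 1)
    (h2 : s ≤ 2 * a ^ 2)
    (hs : ∀ t, 0 < t → t < 1 → √(2 * π) * √s ≤ 32 / 5 * t * a + coneSeven t) :
    s ≤ 4295 / 10000 * a + -948 / 100000 := by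
  have hl : ∀ t, 0 < t → t < 1 →
      √s ≤ 32 / 5 * t / (2506628 / 1000000) * a + coneSeven t / (2506628 / 1000000) :=
    fun t h0 h1 => root_le_of_line (hs t h0 h1)
  rcases le_total a (180 / 1000) with h | h
  · exact two_sq_le h2 he h (by norm_num) (by norm_num)
  rcases le_total a (26003 / 100000) with h' | h'
  · refine sq_root_line_le hs0 (hl (3 / 10) (by norm_num) (by norm_num)) h h' ?_ ?_ <;>
      norm_num [coneSeven]
  clear h
  rcases le_total a (340 / 1000) with h | h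
  · refine sq_root_line_le hs0 (hl (2375 / 10000) (by norm_num) (by norm_num)) h' h ?_ ?_ <;>
      norm_num [coneSeven]
  · refine sq_root_line_le hs0 (hl (1625 / 10000) (by norm_num) (by norm_num)) h ha1 ?_ ?_ <;>
      norm_num [coneSeven]

variable {κ : Type*} [Fintype κ] {s a : κ → ℝ}

/-- Six cells above the propeller value: one has measure below `36/1000`. -/
theorem exists_small_six (hk : Fintype.card κ = 6) (hs0 : ∀ l, 0 ≤ s l) (ha0 : ∀ l, 0 ≤ a l)
    (ha1 : ∑ l, a l ≤ 1) (h2 : ∀ l, s l ≤ 2 * a l ^ 2)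
    (hs : ∀ l t, 0 < t → t < 1 → √(2 * π) * √(s l) ≤ 16 / 3 * t * a l + coneFive t)
    (hS : 9 / (8 * π) < ∑ l, s l) : ∃ l, a l < 36 / 1000 := by
  have : Nonempty κ := Fintype.card_pos_iff.1 (by omega)
  refine exists_lt_of_affine (r := 4344 / 10000) (M := -1304 / 100000) (by norm_num) ha1
    (fun l hl => le_affine_six (hs0 l) hl
      ((single_le_sum (fun j _ => ha0 j) (mem_univ l)).trans ha1) (h2 l) (hs l)) ?_ hS
  rw [hk]
  linarith [c_lower]

/-- Seven cells above the propeller value: one has measure below `31/1000`. -/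
theorem exists_small_seven (hk : Fintype.card κ = 7) (hs0 : ∀ l, 0 ≤ s l) (ha0 : ∀ l, 0 ≤ a l)
    (ha1 : ∑ l, a l ≤ 1) (h2 : ∀ l, s l ≤ 2 * a l ^ 2)
    (hs : ∀ l t, 0 < t → t < 1 → √(2 * π) * √(s l) ≤ 32 / 5 * t * a l + coneSeven t)
    (hS : 9 / (8 * π) < ∑ l, s l) : ∃ l, a l < 31 / 1000 := by
  have : Nonempty κ := Fintype.card_pos_iff.1 (by omega)
  refine exists_lt_of_affine (r := 4384 / 10000) (M := -1166 / 100000) (by norm_num) ha1
    (fun l hl => le_affine_seven (hs0 l) hl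
      ((single_le_sum (fun j _ => ha0 j) (mem_univ l)).trans ha1) (h2 l) (hs l)) ?_ hS
  rw [hk]
  linarith [c_lower]

/-- Eight cells above the propeller value: one has measure below `25/1000`. -/
theorem exists_small_eight (hk : Fintype.card κ = 8) (hs0 : ∀ l, 0 ≤ s l) (ha0 : ∀ l, 0 ≤ a l)
    (ha1 : ∑ l, a l ≤ 1) (h2 : ∀ l, s l ≤ 2 * a l ^ 2)
    (hs : ∀ l t, 0 < t → t < 1 → √(2 * π) * √(s l) ≤ 32 / 5 * t * a l + coneSeven t)
    (hS : 9 / (8 * π) < ∑ l, s l) : ∃ l, a l < 25 / 1000 := by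
  have : Nonempty κ := Fintype.card_pos_iff.1 (by omega)
  refine exists_lt_of_affine (r := 4295 / 10000) (M := -948 / 100000) (by norm_num) ha1
    (fun l hl => le_affine_eight (hs0 l) hl
      ((single_le_sum (fun j _ => ha0 j) (mem_univ l)).trans ha1) (h2 l) (hs l)) ?_ hS
  rw [hk]
  linarith [c_lower]

end Vale.Agent.P226
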