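import Vale.Agent.P226.Assembly
import Vale.Agent.P226.Lines
import Vale.Agent.P226.LineFive
import Vale.Agent.P226.Cap

/-! The Gaussian propeller inequality for every number of cells in every dimension. -/

open MeasureTheory Set Filter Real ProbabilityTheory
open scoped Topology RealInnerProductSpace NNReal

namespace Vale.Agent.P226

/-- The propeller inequality. -/
theorem propeller (d k : ℕ) (A : Fin k → Set (EuclideanSpace ℝ (Fin d)))
    (hA : ∀ i, MeasurableSet (A i))
    (hd : Pairwise fun i j => AEDisjoint (gam d) (A i) (A j)) :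
    functional A ≤ 9 / (8 * π) := by
  refine propeller_of_no_bad ?_ d k A hA hd
  intro d κ _ _ z hk _ hsum hneg hmom ha h2 hfail hS
  have : Nontrivial κ := Fintype.one_lt_card_iff_nontrivial.1 (by omega)
  have hne : ∀ l, z l ≠ 0 := fun l hl => by
    obtain ⟨m, hm⟩ := exists_ne l
    have := hneg l m hm.symm
    rw [hl, inner_zero_left] at this
    exact lt_irrefl _ this
  rcases lt_or_ge (Fintype.card κ) 5 with h | h5
  · exact four_false z (by omega) hsum hneg hmom ha h2
      (fun l => Cap.sq_three z hsum (hmom l) (hne l) (by omega)) hfail hS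
  rcases lt_or_ge (Fintype.card κ) 9 with h | h9
  swap
  · exact no_bad_nine z h9 hsum hneg hmom ha h2 hfail hS
  have hroot : ∀ l, √(‖z l‖ ^ 2) = ‖z l‖ := fun l => Real.sqrt_sq (norm_nonneg _)
  have key : ∀ e : ℝ, e ≤ areaCut (Fintype.card κ) → (∃ l, cellMass z l < e) → False :=
    fun e he ⟨i, hi⟩ => no_bad_of_le_cut z h5 hsum hneg hmom ha h2 hfail hS (hi.le.trans he)
  have hs0 : ∀ l, 0 ≤ ‖z l‖ ^ 2 := fun l => sq_nonneg _
  have h2' : ∀ l, ‖z l‖ ^ 2 ≤ 2 * cellMass z l ^ 2 := fun l => (h2 l).le
  rcases (show Fintype.card κ = 5 ∨ Fintype.card κ = 6 ∨ Fintype.card κ = 7 ∨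
      Fintype.card κ = 8 by omega) with hc | hc | hc | hc
  · refine key _ ?_ (exists_small_five z hc hsum hmom ha h2 hS)
    rw [hc]; norm_num [areaCut]
  · refine key _ ?_ (exists_small_six hc hs0 (cellMass_nonneg z) ha.le h2' (fun l t ht ht1 => ?_) hS)
    · rw [hc]; norm_num [areaCut]
    · have := Cap.line_five z hsum (hmom l) (hne l) hc.le ht ht1
      simp only [hroot, cellMass, coneFive]
      linarith
  · refine key _ ?_ (exists_small_seven hc hs0 (cellMass_nonneg z) ha.le h2' (fun l t ht ht1 => ?_) hS)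
    · rw [hc]; norm_num [areaCut]
    · have := Cap.line_seven z hsum (hmom l) (hne l) (by omega) ht ht1
      simp only [hroot, cellMass, coneSeven]
      linarith
  · refine key _ ?_ (exists_small_eight hc hs0 (cellMass_nonneg z) ha.le h2' (fun l t ht ht1 => ?_) hS)
    · rw [hc]; norm_num [areaCut]
    · have := Cap.line_seven z hsum (hmom l) (hne l) hc.le ht ht1
      simp only [hroot, cellMass, coneSeven]
      linarith

end Vale.Agent.P226
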