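import Mathlib

/-! One-dimensional Gaussian facts for the universal propeller bound. -/

open MeasureTheory Set Filter Real ProbabilityTheory
open scoped Topology NNReal

namespace Vale.Agent.P226

noncomputable def phi (t : ℝ) : ℝ := gaussianPDFReal 0 1 t

noncomputable def cphi (t : ℝ) : ℝ := 1 / 2 - ∫ x in (0 : ℝ)..t, phi x

lemma phi_eq (t : ℝ) : phi t = (√(2 * π))⁻¹ * exp (-(t ^ 2) / 2) := by
  simp [phi, gaussianPDFReal]

lemma phi_pos (t : ℝ) : 0 < phi t := gaussianPDFReal_pos _ _ _ one_ne_zero

lemma phi_neg (t : ℝ) : phi (-t) = phi t := by simp [phi_eq]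

lemma phi_sq (t : ℝ) : phi t ^ 2 = exp (-(t ^ 2)) / (2 * π) := by
  rw [phi_eq, mul_pow, inv_pow, sq_sqrt (by positivity), sq (exp _), ← exp_add,
    inv_mul_eq_div, show -(t ^ 2) / 2 + -(t ^ 2) / 2 = -(t ^ 2) by ring]

lemma hasDerivAt_phi (t : ℝ) : HasDerivAt phi (-t * phi t) t := by
  have h : HasDerivAt (fun t : ℝ => -(t ^ 2) / 2) (-t) t := by
    have := ((hasDerivAt_pow 2 t).neg).div_const 2
    refine this.congr_deriv ?_
    push_cast
    ring
  have h2 := (h.exp).const_mul (√(2 * π))⁻¹
  have e : phi = fun t => (√(2 * π))⁻¹ * exp (-(t ^ 2) / 2) := funext phi_eq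
  rw [e]
  refine h2.congr_deriv ?_
  ring

lemma continuous_phi : Continuous phi :=
  continuous_iff_continuousAt.2 fun t => (hasDerivAt_phi t).continuousAt

lemma integrable_phi : Integrable phi := integrable_gaussianPDFReal 0 1

lemma tendsto_phi_atTop : Tendsto phi atTop (𝓝 0) := by
  have h1 : Tendsto (fun t : ℝ => -(t ^ 2) / 2) atTop atBot := by
    apply Tendsto.atBot_div_const (by norm_num)
    exact tendsto_neg_atTop_atBot.comp (tendsto_pow_atTop two_ne_zero)
  have := (tendsto_exp_atBot.comp h1).const_mul (√(2 * π))⁻¹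
  rw [mul_zero] at this
  exact this.congr fun t => (phi_eq t).symm

lemma integral_phi_Ioi_zero : ∫ x in Ioi (0 : ℝ), phi x = 1 / 2 := by
  have h : phi = fun x => (√(2 * π))⁻¹ * exp (-(1 / 2 : ℝ) * x ^ 2) := by
    funext x; rw [phi_eq]; ring_nf
  rw [h, integral_const_mul, integral_gaussian_Ioi]
  rw [show π / (1 / 2) = 2 * π by ring]
  have : √(2 * π) ≠ 0 := by positivity
  field_simp

lemma integral_phi_Ioi (t : ℝ) : ∫ x in Ioi t, phi x = cphi t := by
  have h := intervalIntegral.integral_interval_add_Ioi (a := (0 : ℝ)) (b := t)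
    integrable_phi.integrableOn integrable_phi.integrableOn
  rw [integral_phi_Ioi_zero] at h
  simp only [cphi]
  linarith

lemma hasDerivAt_cphi (t : ℝ) : HasDerivAt cphi (-phi t) t :=
  ((continuous_phi.integral_hasStrictDerivAt 0 t).hasDerivAt).const_sub _

lemma continuous_cphi : Continuous cphi :=
  continuous_iff_continuousAt.2 fun t => (hasDerivAt_cphi t).continuousAt

lemma cphi_zero : cphi 0 = 1 / 2 := by simp [cphi]

lemma cphi_antitone : Antitone cphi :=
  antitone_of_hasDerivAt_nonpos hasDerivAt_cphi fun t => neg_nonpos.2 (phi_pos t).le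

lemma tendsto_cphi_atTop : Tendsto cphi atTop (𝓝 0) := by
  have h := intervalIntegral_tendsto_integral_Ioi (μ := volume) (0 : ℝ)
    integrable_phi.integrableOn tendsto_id
  rw [integral_phi_Ioi_zero] at h
  have := h.const_sub (1 / 2 : ℝ)
  rwa [sub_self] at this

lemma cphi_pos (t : ℝ) : 0 < cphi t := by
  rw [← integral_phi_Ioi, setIntegral_pos_iff_support_of_nonneg_ae]
  · have : Function.support phi = univ := by
      ext x; simp [(phi_pos x).ne']
    simp [this]
  · exact Eventually.of_forall fun x => (phi_pos x).le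
  · exact integrable_phi.integrableOn

/-- A quantile exists for masses in (0, 1/2]. -/
lemma exists_quantile {a : ℝ} (ha : 0 < a) (ha' : a ≤ 1 / 2) : ∃ t, 0 ≤ t ∧ cphi t = a := by
  obtain ⟨T, hT, hT0⟩ : ∃ T, cphi T < a ∧ (0 : ℝ) ≤ T :=
    ((tendsto_cphi_atTop.eventually (eventually_lt_nhds ha)).and (eventually_ge_atTop 0)).exists
  obtain ⟨t, ht, he⟩ := intermediate_value_Icc' hT0 continuous_cphi.continuousOn
    (show a ∈ Icc (cphi T) (cphi 0) from ⟨hT.le, by rw [cphi_zero]; exact ha'⟩)
  exact ⟨t, ht.1, he⟩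

lemma integral_mul_phi_Ioi (t : ℝ) : ∫ x in Ioi t, x * phi x = phi t := by
  have hint : IntegrableOn (fun x => x * phi x) (Ioi t) := by
    have h := (integrable_mul_exp_neg_mul_sq (b := 1 / 2) (by norm_num)).const_mul (√(2 * π))⁻¹
    refine (h.congr (Eventually.of_forall fun x => ?_)).integrableOn
    simp only [phi_eq]
    ring_nf
  have := integral_Ioi_of_hasDerivAt_of_tendsto' (f := fun x => -phi x)
    (f' := fun x => x * phi x) (m := -0) (a := t)
    (fun x _ => ((hasDerivAt_phi x).neg).congr_deriv (by ring)) hint tendsto_phi_atTop.neg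
  simpa using this

/-- The expected excess over a level. -/
lemma integral_excess (t : ℝ) :
    ∫ x, max (x - t) 0 ∂(gaussianReal 0 1) = phi t - t * cphi t := by
  rw [integral_gaussianReal_eq_integral_smul one_ne_zero]
  have e : (fun x => gaussianPDFReal 0 1 x • max (x - t) 0)
      = (Ioi t).indicator (fun x => x * phi x - t * phi x) := by
    funext x
    by_cases hx : t < x
    · rw [indicator_of_mem (show x ∈ Ioi t from hx), max_eq_left (by linarith), smul_eq_mul]
      simp only [phi]; ring
    · rw [indicator_of_notMem (by simpa using hx), max_eq_right (by linarith), smul_zero]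
  rw [e, integral_indicator measurableSet_Ioi, integral_sub, integral_const_mul,
    integral_mul_phi_Ioi, integral_phi_Ioi]
  · have h := (integrable_mul_exp_neg_mul_sq (b := 1 / 2) (by norm_num)).const_mul (√(2 * π))⁻¹
    refine (h.congr (Eventually.of_forall fun x => ?_)).integrableOn
    simp only [phi_eq]
    ring_nf
  · exact (integrable_phi.const_mul t).integrableOn

/-- Bounding the tail inequality `phi t ^ 2 ≤ K * cphi t` beyond a point at least 1. -/
lemma gap_of_one_le {K s t : ℝ} (hs : 1 ≤ s) (hst : s ≤ t)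
    (h : phi s ^ 2 ≤ K * cphi s) : phi t ^ 2 ≤ K * cphi t := by
  set H : ℝ → ℝ := fun x => K * cphi x - phi x ^ 2 with hH
  have hd : ∀ x, HasDerivAt H (phi x * (2 * x * phi x - K)) x := by
    intro x
    have := ((hasDerivAt_cphi x).const_mul K).sub ((hasDerivAt_phi x).pow 2)
    refine this.congr_deriv ?_
    push_cast
    ring
  have hcont : Continuous H := continuous_iff_continuousAt.2 fun x => (hd x).continuousAt
  have hm : AntitoneOn (fun x => x * phi x) (Ici (1 : ℝ)) := by
    apply antitoneOn_of_hasDerivWithinAt_nonpos (f' := fun x => (1 - x ^ 2) * phi x) (convex_Ici 1)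
    · exact (continuous_id.mul continuous_phi).continuousOn
    · intro x _
      apply HasDerivAt.hasDerivWithinAt
      refine ((hasDerivAt_id x).mul (hasDerivAt_phi x)).congr_deriv ?_
      simp only [id]
      ring
    · intro x hx
      rw [interior_Ici, mem_Ioi] at hx
      have : 1 - x ^ 2 ≤ 0 := by nlinarith
      exact mul_nonpos_of_nonpos_of_nonneg this (phi_pos x).le
  suffices 0 ≤ H t by simp only [hH] at this; linarith
  by_cases hc : K ≤ 2 * (t * phi t)
  · have : MonotoneOn H (Icc s t) := by
      apply monotoneOn_of_hasDerivWithinAt_nonneg (convex_Icc s t) hcont.continuousOn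
        (fun x _ => (hd x).hasDerivWithinAt)
      intro x hx
      rw [interior_Icc] at hx
      have h3 : t * phi t ≤ x * phi x := hm (mem_Ici.2 (by linarith [hx.1]))
        (mem_Ici.2 (by linarith)) hx.2.le
      exact mul_nonneg (phi_pos x).le (by linarith)
    have h0 : 0 ≤ H s := by simp only [hH]; linarith
    exact h0.trans (this ⟨le_rfl, hst⟩ ⟨hst, le_rfl⟩ hst)
  · have : AntitoneOn H (Ici t) := by
      apply antitoneOn_of_hasDerivWithinAt_nonpos (convex_Ici t) hcont.continuousOn
        (fun x _ => (hd x).hasDerivWithinAt)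
      intro x hx
      rw [interior_Ici, mem_Ioi] at hx
      have h3 : x * phi x ≤ t * phi t := hm (mem_Ici.2 (by linarith))
        (mem_Ici.2 (by linarith)) hx.le
      exact mul_nonpos_of_nonneg_of_nonpos (phi_pos x).le (by linarith [not_le.1 hc])
    have hlim : Tendsto H atTop (𝓝 0) := by
      simpa using (tendsto_cphi_atTop.const_mul K).sub (tendsto_phi_atTop.pow 2)
    exact le_of_tendsto hlim ((eventually_ge_atTop t).mono fun x hx =>
      this self_mem_Ici hx hx)

end Vale.Agent.P226
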