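import Vale.Agent.P226.Transfer

/-! At most three cells: the propeller bound. -/

open MeasureTheory Set Filter Real ProbabilityTheory
open scoped Topology RealInnerProductSpace NNReal

namespace Vale.Agent.P226

variable {d : ℕ}

lemma gam_neg (d : ℕ) : (gam d).map (fun x => -x) = gam d := by
  refine Measure.ext_of_charFun (funext fun t => ?_)
  rw [charFun_apply, charFun_apply, integral_map (by fun_prop) (by fun_prop)]
  have h : ∀ x : EuclideanSpace ℝ (Fin d), ⟪-x, t⟫ = ⟪x, -t⟫ := fun x => by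
    rw [inner_neg_left, inner_neg_right]
  simp only [h, ← charFun_apply, charFun_stdGaussian, norm_neg]

lemma integral_abs_inner (u : EuclideanSpace ℝ (Fin d)) :
    ∫ x, |⟪u, x⟫| ∂gam d = 2 * (√(2 * π))⁻¹ * ‖u‖ := by
  rcases eq_or_ne u 0 with rfl | hu
  · simp
  set e := ‖u‖⁻¹ • u with he
  have he1 : ‖e‖ = 1 := by
    rw [he, norm_smul, norm_inv, norm_norm, inv_mul_cancel₀ (norm_ne_zero_iff.2 hu)]
  have hue : u = ‖u‖ • e := by
    rw [he, smul_smul, mul_inv_cancel₀ (norm_ne_zero_iff.2 hu), one_smul]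
  have hpos : ∫ x, max ⟪e, x⟫ 0 ∂gam d = (√(2 * π))⁻¹ := by
    have h := integral_excess 0
    rw [← map_inner_unit he1, integral_map (by fun_prop) (by fun_prop)] at h
    simpa [phi_eq] using h
  have hneg : ∫ x, max (-⟪e, x⟫) 0 ∂gam d = (√(2 * π))⁻¹ := by
    rw [← hpos]
    conv_rhs => rw [← gam_neg d, integral_map (by fun_prop) (by fun_prop)]
    simp
  have habs : ∀ x : EuclideanSpace ℝ (Fin d),
      |⟪u, x⟫| = ‖u‖ * (max ⟪e, x⟫ 0 + max (-⟪e, x⟫) 0) := fun x => by
    rw [← max_zero_add_max_neg_zero_eq_abs_self ⟪u, x⟫]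
    conv_lhs => rw [hue, real_inner_smul_left]
    rw [← mul_neg, ← mul_zero ‖u‖, ← mul_max_of_nonneg _ _ (norm_nonneg u),
      ← mul_max_of_nonneg _ _ (norm_nonneg u), mul_zero, mul_add]
  simp only [habs]
  have hne : Integrable (fun x => -⟪e, x⟫) (gam d) := (integrable_inner e).neg
  rw [integral_const_mul, integral_add (integrable_inner e).pos_part hne.pos_part, hpos, hneg]
  ring

lemma max3_add (a b c : ℝ) :
    max (max a b) c + max (max (-a) (-b)) (-c) = (|a - b| + |b - c| + |c - a|) / 2 := by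
  rcases le_total a b with h1 | h1 <;> rcases le_total b c with h2 | h2 <;>
    rcases le_total a c with h3 | h3 <;>
    simp [max_eq_left, max_eq_right, abs_of_nonneg, abs_of_nonpos, h1, h2, h3] <;> linarith

/-- The expected maximum of three linear forms with zero sum. -/
lemma integral_maxForm_three (z : Fin 3 → EuclideanSpace ℝ (Fin d)) :
    (∫ x, maxForm z x ∂gam d) =
      (√(2 * π))⁻¹ * (‖z 0 - z 1‖ + ‖z 1 - z 2‖ + ‖z 2 - z 0‖) / 2 := by
  have hm : ∀ x, maxForm z x = max (max ⟪z 0, x⟫ ⟪z 1, x⟫) ⟪z 2, x⟫ := fun x => by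
    refine le_antisymm ?_ (max_le (max_le (le_maxForm z 0 x) (le_maxForm z 1 x)) (le_maxForm z 2 x))
    obtain ⟨i, hi⟩ := exists_maxForm z x
    rw [hi]
    fin_cases i
    · exact le_max_of_le_left (le_max_left _ _)
    · exact le_max_of_le_left (le_max_right _ _)
    · exact le_max_right _ _
  have hneg : ∫ x, maxForm z (-x) ∂gam d = ∫ x, maxForm z x ∂gam d := by
    conv_rhs => rw [← gam_neg d, integral_map (by fun_prop)
      (continuous_maxForm z).aestronglyMeasurable]
  have hin : Integrable (fun x => maxForm z (-x)) (gam d) := by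
    refine Integrable.comp_measurable (g := maxForm z) ?_ measurable_neg
    rw [gam_neg]
    exact integrable_maxForm z
  have hI : ∀ i j : Fin 3, Integrable (fun x => |⟪z i - z j, x⟫|) (gam d) :=
    fun i j => (integrable_inner _).abs
  have hpt : ∀ x, maxForm z x + maxForm z (-x) =
      (|⟪z 0 - z 1, x⟫| + |⟪z 1 - z 2, x⟫| + |⟪z 2 - z 0, x⟫|) / 2 := fun x => by
    rw [hm, hm, inner_neg_right, inner_neg_right, inner_neg_right, max3_add, inner_sub_left,
      inner_sub_left, inner_sub_left]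
  have h := integral_congr_ae (μ := gam d) (Eventually.of_forall hpt)
  rw [integral_add (integrable_maxForm z) hin, hneg, integral_div,
    integral_add (f := fun x => |⟪z 0 - z 1, x⟫| + |⟪z 1 - z 2, x⟫|) ((hI 0 1).add (hI 1 2))
      (hI 2 0), integral_add (hI 0 1) (hI 1 2), integral_abs_inner, integral_abs_inner,
    integral_abs_inner] at h
  linarith

/-- The propeller bound for three cells. -/
theorem functional_le_three {A : Fin 3 → Set (EuclideanSpace ℝ (Fin d))} (hA : IsPart A) :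
    functional A ≤ 9 / (8 * π) := by
  set z := fun i => mom (A i) with hz
  set F := functional A with hF
  have hE : F ≤ ∫ x, maxForm z x ∂gam d :=
    le_of_eq_of_le (Finset.sum_congr rfl fun l _ => (real_inner_self_eq_norm_sq _).symm)
      (inner_sum_le_maxForm _ hA)
  have hsum : ‖z 0 - z 1‖ ^ 2 + ‖z 1 - z 2‖ ^ 2 + ‖z 2 - z 0‖ ^ 2 = 3 * F := by
    have h0 : z 2 = -(z 0 + z 1) := by
      have := hA.sum_mom
      rw [Fin.sum_univ_three] at this
      exact eq_neg_of_add_eq_zero_right this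
    have hF3 : F = ‖z 0‖ ^ 2 + ‖z 1‖ ^ 2 + ‖z 2‖ ^ 2 := by
      rw [hF, functional, Fin.sum_univ_three]
    rw [hF3, h0]
    simp only [← real_inner_self_eq_norm_sq, inner_add_left, inner_add_right, inner_sub_left,
      inner_sub_right, inner_neg_left, inner_neg_right]
    linarith [real_inner_comm (z 0) (z 1)]
  rw [integral_maxForm_three z] at hE
  set D := ‖z 0 - z 1‖ + ‖z 1 - z 2‖ + ‖z 2 - z 0‖ with hD
  have hD2 : D ^ 2 ≤ 9 * F := by
    nlinarith [sq_nonneg (‖z 0 - z 1‖ - ‖z 1 - z 2‖), sq_nonneg (‖z 1 - z 2‖ - ‖z 2 - z 0‖),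
      sq_nonneg (‖z 2 - z 0‖ - ‖z 0 - z 1‖)]
  have hF0 : 0 ≤ F := functional_nonneg A
  have hs : 0 < 2 * π := by positivity
  have hsq : ((√(2 * π))⁻¹ * D / 2) ^ 2 = D ^ 2 / (8 * π) := by
    rw [div_pow, mul_pow, inv_pow, sq_sqrt hs.le]
    ring
  have h2 : F ^ 2 ≤ D ^ 2 / (8 * π) := hsq ▸ pow_le_pow_left₀ hF0 hE 2
  rw [le_div_iff₀ (by positivity)] at h2 ⊢
  rcases eq_or_lt_of_le hF0 with h | h
  · rw [← h]; norm_num
  · nlinarith

/-- The propeller bound for at most three cells. -/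
theorem functional_le_of_card_le_three {ι : Type*} [Fintype ι] [Nonempty ι]
    {A : ι → Set (EuclideanSpace ℝ (Fin d))} (hA : IsPart A) (hc : Fintype.card ι ≤ 3) :
    functional A ≤ 9 / (8 * π) := by
  classical
  let e : ι ↪ Fin 3 := (Fintype.equivFin ι).toEmbedding.trans (Fin.castLEEmb hc)
  set A' : Fin 3 → Set (EuclideanSpace ℝ (Fin d)) := Function.extend e A fun _ => ∅ with hA'
  have hon : ∀ i, A' (e i) = A i := fun i => e.injective.extend_apply A _ i
  have hoff : ∀ j, j ∉ Finset.univ.map e → A' j = ∅ := fun j hj =>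
    Function.extend_apply' A _ j fun ⟨i, hi⟩ => hj (Finset.mem_map.2 ⟨i, Finset.mem_univ i, hi⟩)
  have hcases : ∀ j, (∃ i, e i = j) ∨ A' j = ∅ := fun j => by
    by_cases h : j ∈ Finset.univ.map e
    · obtain ⟨i, -, hi⟩ := Finset.mem_map.1 h; exact Or.inl ⟨i, hi⟩
    · exact Or.inr (hoff j h)
  have hP : IsPart A' := by
    refine ⟨fun j => ?_, fun j l hjl => ?_, ?_⟩
    · rcases hcases j with ⟨i, rfl⟩ | h
      · rw [hon]; exact hA.meas i
      · rw [h]; exact MeasurableSet.empty
    · rcases hcases j with ⟨i, rfl⟩ | h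
      · rcases hcases l with ⟨m, rfl⟩ | h'
        · rw [hon, hon]; exact hA.disj fun c => hjl (c ▸ rfl)
        · rw [h']; exact disjoint_empty _
      · rw [h]; exact empty_disjoint _
    · refine eq_univ_of_forall fun x => ?_
      obtain ⟨i, hi⟩ := mem_iUnion.1 (hA.cover.symm ▸ mem_univ x : x ∈ ⋃ i, A i)
      exact mem_iUnion.2 ⟨e i, (hon i).symm ▸ hi⟩
  refine le_of_eq_of_le ?_ (functional_le_three hP)
  rw [functional, functional]
  rw [← Finset.sum_subset (Finset.subset_univ (Finset.univ.map e))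
    fun j _ hj => by simp [hoff j hj, mom], Finset.sum_map]
  exact Finset.sum_congr rfl fun i _ => by rw [hon]

end Vale.Agent.P226
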