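import Vale.Agent.P226.Sharp
import Vale.Agent.P226.Three

/-! Existence of maximisers, their fixed point property, and the induction on the number of
cells. -/

open MeasureTheory Set Filter Real ProbabilityTheory
open scoped Topology RealInnerProductSpace NNReal

namespace Vale.Agent.P226

variable {d : ℕ} {ι : Type*} [Fintype ι]

lemma integral_maxForm_smul [Nonempty ι] (v : ι → EuclideanSpace ℝ (Fin d)) {c : ℝ} (hc : 0 ≤ c) :
    ∫ x, maxForm (fun i => c • v i) x ∂gam d = c * ∫ x, maxForm v x ∂gam d := by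
  rw [← integral_const_mul]
  refine integral_congr_ae (Eventually.of_forall fun x => ?_)
  obtain ⟨i, hi⟩ := exists_maxForm v x
  obtain ⟨j, hj⟩ := exists_maxForm (fun i => c • v i) x
  dsimp only
  refine le_antisymm ?_ ?_
  · rw [hj, real_inner_smul_left]
    exact mul_le_mul_of_nonneg_left (le_maxForm v j x) hc
  · rw [hi, ← real_inner_smul_left]
    exact le_maxForm (fun i => c • v i) i x

lemma continuous_integral_maxForm [Nonempty ι] :
    Continuous fun v : ι → EuclideanSpace ℝ (Fin d) => ∫ x, maxForm v x ∂gam d := by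
  refine (LipschitzWith.of_le_add_mul (Fintype.card ι : ℝ≥0) fun v w => ?_).continuous
  have hb : ∀ x, maxForm v x ≤ maxForm w x + ∑ i, |⟪v i - w i, x⟫| := fun x => by
    obtain ⟨i, hi⟩ := exists_maxForm v x
    have h1 := le_maxForm w i x
    have h2 : |⟪v i - w i, x⟫| ≤ ∑ i, |⟪v i - w i, x⟫| :=
      Finset.single_le_sum (f := fun i => |⟪v i - w i, x⟫|) (fun j _ => abs_nonneg _)
        (Finset.mem_univ i)
    have h3 := le_abs_self ⟪v i - w i, x⟫
    rw [inner_sub_left] at h3
    rw [inner_sub_left] at h2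
    linarith
  have hI : Integrable (fun x => ∑ i, |⟪v i - w i, x⟫|) (gam d) :=
    integrable_finsetSum _ fun i _ => (integrable_inner _).abs
  have h := integral_mono (integrable_maxForm v) ((integrable_maxForm w).add hI) hb
  simp only [Pi.add_apply] at h
  rw [integral_add (integrable_maxForm w) hI,
    integral_finsetSum _ fun i _ => (integrable_inner _).abs] at h
  refine h.trans (add_le_add le_rfl ?_)
  simp only [integral_abs_inner, NNReal.coe_natCast]
  refine (Finset.sum_le_sum fun i _ => show _ ≤ dist v w from ?_).trans (le_of_eq (by simp))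
  refine le_trans ?_ ((dist_eq_norm (v i) (w i)).symm.trans_le (dist_le_pi_dist v w i))
  refine mul_le_of_le_one_left (norm_nonneg _) ?_
  rw [← div_eq_mul_inv, div_le_one (by positivity)]
  exact Real.le_sqrt_of_sq_le (by nlinarith [Real.pi_gt_three])

/-- The functional has a maximiser among partitions with a given index type. -/
lemma exists_maximiser [Nonempty ι] :
    ∃ B : ι → Set (EuclideanSpace ℝ (Fin d)), IsPart B ∧
      ∀ A : ι → Set (EuclideanSpace ℝ (Fin d)), IsPart A → functional A ≤ functional B := by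
  set K : Set (ι → EuclideanSpace ℝ (Fin d)) := {v | ∑ i, ‖v i‖ ^ 2 ≤ 1}
  have hK : IsCompact K := by
    refine (isCompact_closedBall 0 1).of_isClosed_subset
      (isClosed_le (by fun_prop) continuous_const) fun v hv => ?_
    rw [mem_closedBall_zero_iff, pi_norm_le_iff_of_nonneg zero_le_one]
    intro i
    refine (sq_le_one_iff₀ (norm_nonneg _)).1 (le_trans ?_ hv)
    exact Finset.single_le_sum (f := fun i => ‖v i‖ ^ 2) (fun j _ => sq_nonneg _)
      (Finset.mem_univ i)
  have h0 : (0 : ι → EuclideanSpace ℝ (Fin d)) ∈ K := by simp [K]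
  obtain ⟨v, hv, hmax⟩ := hK.exists_isMaxOn ⟨0, h0⟩ continuous_integral_maxForm.continuousOn
  set M := ∫ x, maxForm v x ∂gam d with hM
  obtain ⟨B, hB, hBE⟩ := exists_cells v
  refine ⟨B, hB, fun A hA => ?_⟩
  have hBM : M ^ 2 ≤ functional B :=
    hBE.trans (mul_le_of_le_one_left (functional_nonneg B) hv)
  rcases eq_or_lt_of_le (functional_nonneg A) with h | h
  · exact h ▸ functional_nonneg B
  set F := functional A with hF
  have hsF : 0 < √F := Real.sqrt_pos.2 h
  have hE : F ≤ ∫ x, maxForm (fun i => mom (A i)) x ∂gam d :=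
    le_of_eq_of_le (Finset.sum_congr rfl fun l _ => (real_inner_self_eq_norm_sq _).symm)
      (inner_sum_le_maxForm _ hA)
  have hmem : (fun i => (√F)⁻¹ • mom (A i)) ∈ K := by
    simp only [K, Set.mem_ofPred_eq, norm_smul, mul_pow, ← Finset.mul_sum, Real.norm_eq_abs, sq_abs,
      inv_pow, sq_sqrt h.le]
    exact le_of_eq (inv_mul_cancel₀ h.ne')
  have h1 : ∫ x, maxForm (fun i => (√F)⁻¹ • mom (A i)) x ∂gam d ≤ M := hmax hmem
  rw [integral_maxForm_smul _ (inv_nonneg.2 hsF.le), inv_mul_le_iff₀ hsF] at h1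
  have h2 : √F * √F ≤ √F * M := by rw [Real.mul_self_sqrt h.le]; exact hE.trans h1
  calc F = √F ^ 2 := (sq_sqrt h.le).symm
    _ ≤ M ^ 2 := pow_le_pow_left₀ hsF.le (le_of_mul_le_mul_left h2 hsF) 2
    _ ≤ _ := hBM

lemma gam_inner_eq_zero {u : EuclideanSpace ℝ (Fin d)} (hu : u ≠ 0) :
    gam d {x | ⟪u, x⟫ = 0} = 0 := by
  have hv : (‖u‖ ^ 2).toNNReal ≠ 0 := by
    rw [ne_eq, Real.toNNReal_eq_zero, not_le]; positivity
  have := nullSingletonClass_gaussianReal (μ := 0) hv
  have h : (gam d).map (fun x => ⟪u, x⟫) {0} = 0 := by rw [gam_map_inner]; exact measure_singleton 0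
  rwa [Measure.map_apply (by fun_prop) (measurableSet_singleton _)] at h

/-- The cells of a maximiser are the cells of its own moment vectors. -/
lemma maximiser_cells [DecidableEq ι] [Nonempty ι] {B : ι → Set (EuclideanSpace ℝ (Fin d))}
    (hB : IsPart B)
    (hmax : ∀ A : ι → Set (EuclideanSpace ℝ (Fin d)), IsPart A → functional A ≤ functional B)
    (hinj : Function.Injective fun i => mom (B i)) (i : ι) :
    B i =ᵐ[gam d] below (fun l => mom (B l)) i (Finset.univ.erase i) := by
  set z := fun l => mom (B l) with hz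
  set F := functional B with hF
  have hE : F ≤ ∫ x, maxForm z x ∂gam d :=
    le_of_eq_of_le (Finset.sum_congr rfl fun l _ => (real_inner_self_eq_norm_sq _).symm)
      (inner_sum_le_maxForm _ hB)
  have hF0 : 0 ≤ F := functional_nonneg B
  have hEF : ∫ x, maxForm z x ∂gam d ≤ F := by
    obtain ⟨B', hB', hBE⟩ := exists_cells z
    have := hBE.trans (mul_le_mul_of_nonneg_left (hmax B' hB')
      (Finset.sum_nonneg fun l _ => sq_nonneg _))
    change _ ≤ F * F at this
    nlinarith
  set f : ι → EuclideanSpace ℝ (Fin d) → ℝ := fun l x => maxForm z x - ⟪z l, x⟫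
  have hf0 : ∀ l x, 0 ≤ f l x := fun l x => sub_nonneg.2 (le_maxForm z l x)
  have hfi : ∀ l, Integrable (f l) (gam d) := fun l =>
    (integrable_maxForm z).sub (integrable_inner _)
  have hsum : ∑ l, ∫ x in B l, f l x ∂gam d = 0 := by
    have h1 : ∀ l, ∫ x in B l, f l x ∂gam d =
        (∫ x in B l, maxForm z x ∂gam d) - ‖z l‖ ^ 2 := fun l => by
      rw [integral_sub (integrable_maxForm z).integrableOn (integrable_inner _).integrableOn,
        setIntegral_inner_eq, real_inner_self_eq_norm_sq]
    rw [Finset.sum_congr rfl fun l _ => h1 l, Finset.sum_sub_distrib,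
      ← integral_iUnion_fintype hB.meas hB.disj fun l => (integrable_maxForm z).integrableOn,
      hB.cover, setIntegral_univ]
    exact sub_eq_zero.2 (le_antisymm hEF hE)
  have hzero := (Finset.sum_eq_zero_iff_of_nonneg
    (fun l _ => setIntegral_nonneg (hB.meas l) fun x _ => hf0 l x)).1 hsum
  have hae : ∀ l, ∀ᵐ x ∂gam d, x ∈ B l → f l x = 0 := fun l => by
    have := (integral_eq_zero_iff_of_nonneg (hf0 l) (hfi l).integrableOn).1
      (hzero l (Finset.mem_univ l))
    exact (ae_restrict_iff' (hB.meas l)).1 this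
  have hne : ∀ l, ∀ᵐ x ∂gam d, l ≠ i → ⟪z i - z l, x⟫ ≠ 0 := fun l => by
    rcases eq_or_ne l i with h | h
    · exact Eventually.of_forall fun x h' => absurd h h'
    · refine (measure_eq_zero_iff_ae_notMem.1 (gam_inner_eq_zero
        (sub_ne_zero.2 fun e => h (hinj e.symm)))).mono fun x hx _ => hx
  filter_upwards [ae_all_iff.2 hae, ae_all_iff.2 hne] with x h1 h2
  refine propext ⟨fun hx l _ => ?_, fun hx => ?_⟩
  · have h3 := h1 i hx
    have h4 := le_maxForm z l x
    simp only [f] at h3
    change ⟪z l, x⟫ ≤ ⟪z i, x⟫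
    linarith
  · obtain ⟨j, hj⟩ := mem_iUnion.1 (hB.cover.symm ▸ mem_univ x : x ∈ ⋃ l, B l)
    rcases eq_or_ne j i with rfl | h
    · exact hj
    exfalso
    have h3 := h1 j hj
    have h4 := le_maxForm z i x
    have h5 : ⟪z j, x⟫ ≤ ⟪z i, x⟫ := hx j (Finset.mem_erase.2 ⟨h, Finset.mem_univ j⟩)
    simp only [f] at h3
    exact h2 j h (by rw [inner_sub_left]; linarith)

omit [Fintype ι] in
/-- A balanced family of `n + 1` vectors is isometric to one in `ℝ^n`. -/
lemma exists_gram_copy_balanced {κ : Type*} [Fintype κ] {n : ℕ} (hn : Fintype.card κ = n + 1)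
    (v : κ → EuclideanSpace ℝ (Fin d)) (hsum : ∑ l, v l = 0) :
    ∃ w : κ → EuclideanSpace ℝ (Fin n), ∀ i j, ⟪w i, w j⟫ = ⟪v i, v j⟫ := by
  classical
  obtain ⟨i⟩ : Nonempty κ := Fintype.card_pos_iff.1 (by omega)
  set U := Submodule.span ℝ (Set.range v) with hU
  have hle : U ≤ Submodule.span ℝ (Set.range fun l : {l // l ≠ i} => v l.1) := by
    refine Submodule.span_le.2 ?_
    rintro _ ⟨l, rfl⟩
    rcases eq_or_ne l i with rfl | h
    · rw [SetLike.mem_coe]
      have : v l = -∑ m : {m // m ≠ l}, v m.1 := by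
        rw [Fintype.sum_eq_add_sum_subtype_ne _ l] at hsum
        exact eq_neg_of_add_eq_zero_left hsum
      rw [this]
      exact neg_mem (sum_mem fun m _ => Submodule.subset_span ⟨m, rfl⟩)
    · exact Submodule.subset_span ⟨⟨l, h⟩, rfl⟩
  have hr : Module.finrank ℝ U ≤ n := by
    refine (Submodule.finrank_mono hle).trans ((finrank_range_le_card _).trans (le_of_eq ?_))
    rw [Fintype.card_subtype_compl, Fintype.card_subtype_eq, hn, Nat.add_sub_cancel]
  let b := stdOrthonormalBasis ℝ U
  let f : Fin (Module.finrank ℝ U) → Fin n := Fin.castLE hr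
  have hon : Orthonormal ℝ (fun m => EuclideanSpace.basisFun (Fin n) ℝ (f m)) :=
    (EuclideanSpace.basisFun (Fin n) ℝ).orthonormal.comp f (Fin.castLE_injective hr)
  refine ⟨fun i => ∑ m, ⟪(b m : EuclideanSpace ℝ (Fin d)), v i⟫ •
    EuclideanSpace.basisFun (Fin n) ℝ (f m), fun i j => ?_⟩
  rw [hon.inner_sum]
  have hv : ∀ i, v i ∈ U := fun i => Submodule.subset_span ⟨i, rfl⟩
  have := b.sum_inner_mul_inner ⟨v i, hv i⟩ ⟨v j, hv j⟩
  simp only [Submodule.coe_inner] at this
  rw [← this]
  refine Finset.sum_congr rfl fun m _ => ?_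
  simp [real_inner_comm (v i)]

omit [Fintype ι] in
/-- The conjecture follows from the absence of balanced obtuse fixed points with at least four
cells, in dimension one less than the number of cells, above the propeller value, in which every
cell has `‖z i‖² < 2 a i²` and no deletion is cheap. -/
theorem propeller_of_no_bad
    (H : ∀ (d : ℕ) (κ : Type) [Fintype κ] [DecidableEq κ] (z : κ → EuclideanSpace ℝ (Fin d)),
      4 ≤ Fintype.card κ → d + 1 = Fintype.card κ → ∑ l, z l = 0 → (∀ j l, j ≠ l → ⟪z j, z l⟫ < 0) →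
      (∀ l, mom (below z l (Finset.univ.erase l)) = z l) →
      (∑ l, (gam d).real (below z l (Finset.univ.erase l)) = 1) →
      (∀ l, ‖z l‖ ^ 2 < 2 * (gam d).real (below z l (Finset.univ.erase l)) ^ 2) →
      (∀ i, ∀ [Nonempty κ] [Nonempty {l // l ≠ i}],
        Fintype.card κ * ‖z i‖ ^ 2 / (2 * (Fintype.card κ - 1)) <
          ∫ x, maxForm z x ∂gam d - ∫ x, maxForm (fun l : {l // l ≠ i} => z l.1) x ∂gam d) →
      9 / (8 * π) < ∑ l, ‖z l‖ ^ 2 → False)
    (d k : ℕ) (A : Fin k → Set (EuclideanSpace ℝ (Fin d))) (hA : ∀ i, MeasurableSet (A i))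
    (hd : Pairwise fun i j => AEDisjoint (gam d) (A i) (A j)) :
    functional A ≤ 9 / (8 * π) := by
  classical
  obtain ⟨A', hA', hle⟩ := exists_isPart_extend A hA hd
  suffices main : ∀ m : ℕ, ∀ (d : ℕ) (κ : Type) [Fintype κ] [Nonempty κ]
      (A : κ → Set (EuclideanSpace ℝ (Fin d))), Fintype.card κ ≤ m → IsPart A →
      functional A ≤ 9 / (8 * π) from hle.trans (main _ _ _ A' le_rfl hA')
  intro m
  induction m with
  | zero => intro d κ _ _ A hc _; exact absurd (Nat.le_zero.1 hc) Fintype.card_ne_zero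
  | succ m ih =>
    intro d κ _ _ A hc hA
    obtain ⟨n, hn⟩ : ∃ n, Fintype.card κ = n + 1 :=
      ⟨Fintype.card κ - 1, (Nat.succ_pred_eq_of_pos Fintype.card_pos).symm⟩
    obtain ⟨w, hw⟩ := exists_gram_copy_balanced hn (fun l => mom (A l)) hA.sum_mom
    obtain ⟨B, hB, hmax⟩ := exists_maximiser (d := n) (ι := κ)
    refine le_trans (b := functional B) ?_ ?_
    · obtain ⟨C, hC, hCE⟩ := exists_cells w
      rw [integral_maxForm_congr _ w hw] at hCE
      have hS : ∑ l, ‖w l‖ ^ 2 = functional A :=
        Finset.sum_congr rfl fun l _ => by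
          rw [← real_inner_self_eq_norm_sq, ← real_inner_self_eq_norm_sq, hw]
      rw [hS] at hCE
      rcases eq_or_lt_of_le (functional_nonneg A) with h | h
      · exact h ▸ functional_nonneg B
      have hE : functional A ≤ ∫ x, maxForm (fun l => mom (A l)) x ∂gam d :=
        le_of_eq_of_le (Finset.sum_congr rfl fun l _ => (real_inner_self_eq_norm_sq _).symm)
          (inner_sum_le_maxForm _ hA)
      have h1 := (pow_le_pow_left₀ h.le hE 2).trans hCE
      rw [sq] at h1
      exact (le_of_mul_le_mul_left h1 h).trans (hmax C hC)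
    by_cases hcard : Fintype.card κ ≤ 3
    · exact functional_le_of_card_le_three hB hcard
    rw [not_le] at hcard
    by_contra hF
    rw [not_le] at hF
    have hdrop : ∀ (i : κ) (C : {l // l ≠ i} → Set (EuclideanSpace ℝ (Fin n))), IsPart C →
        functional B ≤ functional C → False := fun i C hC hle => by
      obtain ⟨l, hl⟩ := Fintype.exists_ne_of_one_lt_card (by omega) i
      have : Nonempty {l // l ≠ i} := ⟨⟨l, hl⟩⟩
      have := ih n {l // l ≠ i} C (by
        rw [Fintype.card_subtype_compl, Fintype.card_subtype_eq]; omega) hC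
      linarith
    set z := fun l => mom (B l) with hz
    have hneg : ∀ j l, j ≠ l → ⟪z j, z l⟫ < 0 := fun j l hjl => by
      by_contra h
      obtain ⟨C, hC, hle⟩ := hB.merge hjl (not_lt.1 h)
      exact hdrop _ C hC hle
    have hinj : Function.Injective z := fun j l h => by
      by_contra hjl
      have := hneg j l hjl
      rw [h] at this
      exact absurd this (not_lt.2 real_inner_self_nonneg)
    have hcell := maximiser_cells hB hmax hinj
    have hE : ∑ l, ‖z l‖ ^ 2 ≤ ∫ x, maxForm z x ∂gam n :=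
      le_of_eq_of_le (Finset.sum_congr rfl fun l _ => (real_inner_self_eq_norm_sq _).symm)
        (inner_sum_le_maxForm _ hB)
    refine H n κ z hcard hn.symm hB.sum_mom hneg (fun l => (mom_congr (hcell l)).symm) ?_
      (fun i => ?_) (fun i => ?_) hF
    · refine le_antisymm (le_of_eq ?_) (le_of_eq ?_) <;>
        rw [← hB.sum_measure] <;>
        exact Finset.sum_congr rfl fun l _ => by rw [measureReal_congr (hcell l)]
    · by_contra h
      obtain ⟨l, hl⟩ := Fintype.exists_ne_of_one_lt_card (by omega) i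
      have : Nonempty {l // l ≠ i} := ⟨⟨l, hl⟩⟩
      obtain ⟨C, hC, hle⟩ := exists_fewer_of_two_mul_sq_le i hB.sum_mom hneg
        (mom_congr (hcell i)).symm hE (not_lt.1 h)
      exact hdrop i C hC hle
    · intros
      by_contra h
      obtain ⟨C, hC, hle⟩ := exists_fewer_of_deletion i hB.sum_mom hE (not_lt.1 h)
      exact hdrop i C hC hle

end Vale.Agent.P226
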