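import Vale.Agent.P226.Assembly
import Vale.Agent.P226.Lines
import Vale.Agent.P226.LineFive
import Vale.Agent.P226.Cap

/-! Five to eight cells: the line certificates give a cell within the area cut, so there is no bad
configuration. -/

open MeasureTheory Set Filter Real ProbabilityTheory
open scoped Topology RealInnerProductSpace NNReal

namespace Vale.Agent.P226
variable {d : ℕ} {κ : Type*} [Fintype κ] [DecidableEq κ]

/-- No bad configuration with five to eight cells. -/
theorem no_bad_mid (z : κ → EuclideanSpace ℝ (Fin d)) (hk : 5 ≤ Fintype.card κ)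
    (hk8 : Fintype.card κ ≤ 8)
    (hsum : ∑ l, z l = 0) (hneg : ∀ j l, j ≠ l → ⟪z j, z l⟫ < 0)
    (hmom : ∀ l, mom (below z l (Finset.univ.erase l)) = z l)
    (ha1 : ∑ l, cellMass z l = 1) (h2 : ∀ l, ‖z l‖ ^ 2 < 2 * cellMass z l ^ 2)
    (hfail : ∀ i, ∀ [Nonempty κ] [Nonempty {l // l ≠ i}],
      Fintype.card κ * ‖z i‖ ^ 2 / (2 * (Fintype.card κ - 1)) <
        ∫ x, maxForm z x ∂gam d - ∫ x, maxForm (fun l : {l // l ≠ i} => z l.1) x ∂gam d)
    (hS : 9 / (8 * π) < ∑ l, ‖z l‖ ^ 2) : False := by
  have : Nontrivial κ := Fintype.one_lt_card_iff_nontrivial.1 (by omega)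
  have hne : ∀ l, z l ≠ 0 := fun l h => by
    obtain ⟨j, hj⟩ := exists_ne l
    have := hneg j l hj
    rw [h, inner_zero_right] at this
    exact lt_irrefl _ this
  have hs : ∀ l, √(‖z l‖ ^ 2) = ‖z l‖ := fun l => sqrt_sq (norm_nonneg _)
  obtain ⟨i, hi⟩ : ∃ i, cellMass z i < areaCut (Fintype.card κ) := by
    interval_cases h : Fintype.card κ
    · exact (exists_small_five z h hsum hmom ha1 h2 hS).imp fun i hi => hi.trans_le
        (by norm_num [areaCut])
    · exact (exists_small_six h (fun l => sq_nonneg ‖z l‖) (cellMass_nonneg z) ha1.le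
        (fun l => (h2 l).le) (fun l t h0 h1 => by
          rw [hs, coneFive, ← add_sub_assoc]
          exact Cap.line_five z hsum (hmom l) (hne l) h.le h0 h1) hS).imp fun i hi => hi.trans_le
        (by norm_num [areaCut])
    · exact (exists_small_seven h (fun l => sq_nonneg ‖z l‖) (cellMass_nonneg z) ha1.le
        (fun l => (h2 l).le) (fun l t h0 h1 => by
          rw [hs, coneSeven, ← add_sub_assoc]
          exact Cap.line_seven z hsum (hmom l) (hne l) (by omega) h0 h1) hS).imp fun i hi =>
        hi.trans_le (by norm_num [areaCut])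
    · exact (exists_small_eight h (fun l => sq_nonneg ‖z l‖) (cellMass_nonneg z) ha1.le
        (fun l => (h2 l).le) (fun l t h0 h1 => by
          rw [hs, coneSeven, ← add_sub_assoc]
          exact Cap.line_seven z hsum (hmom l) (hne l) h.le h0 h1) hS).imp fun i hi =>
        hi.trans_le (by norm_num [areaCut])
  exact no_bad_of_le_cut z hk hsum hneg hmom ha1 h2 hfail hS hi.le

end Vale.Agent.P226
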