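import Vale.Agent.P226.Gauss

/-! Numerical profile bounds: phi^2 <= (81/200) * cphi, and <= (9/(8 pi)) * cphi past 213/200. -/

open MeasureTheory Set Filter Real
open scoped Topology

namespace Vale.Agent.P226

noncomputable def expUp (y : ℝ) : ℝ :=
  1 - y + y ^ 2 / 2 - y ^ 3 / 6 + y ^ 4 / 24 - y ^ 5 / 120 + y ^ 6 * (7 / 4320)

noncomputable def expLow (y : ℝ) : ℝ :=
  1 - y + y ^ 2 / 2 - y ^ 3 / 6 + y ^ 4 / 24 - y ^ 5 / 120 - y ^ 6 * (7 / 4320)

lemma exp_neg_bounds {y : ℝ} (h0 : 0 ≤ y) (h1 : y ≤ 1) :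
    expLow y ≤ exp (-y) ∧ exp (-y) ≤ expUp y := by
  have h := Real.exp_bound (x := -y) (by rw [abs_neg, abs_of_nonneg h0]; exact h1)
    (n := 6) (by norm_num)
  rw [abs_neg, abs_of_nonneg h0, abs_le] at h
  simp only [Finset.sum_range_succ, Finset.sum_range_zero] at h
  norm_num [Nat.factorial] at h
  constructor
  · simp only [expLow]; linarith [h.1]
  · simp only [expUp]; linarith [h.2]

lemma sqrt_two_pi_lower : (2506628 / 1000000 : ℝ) ≤ √(2 * π) :=
  Real.le_sqrt_of_sq_le (by nlinarith [Real.pi_gt_d6])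

lemma sqrt_two_pi_upper : √(2 * π) ≤ (250663 / 100000 : ℝ) := by
  rw [Real.sqrt_le_iff]
  exact ⟨by norm_num, by nlinarith [Real.pi_lt_d6]⟩

/-- Antiderivative of `expUp (x^2/2)`. -/
noncomputable def primUp (x : ℝ) : ℝ :=
  x - x ^ 3 / 6 + x ^ 5 / 40 - x ^ 7 / 336 + x ^ 9 / 3456 - x ^ 11 / 42240
    + x ^ 13 * (7 / 3594240)

lemma hasDerivAt_primUp (x : ℝ) : HasDerivAt primUp (expUp (x ^ 2 / 2)) x := by
  have e := (((((((hasDerivAt_id x).sub ((hasDerivAt_pow 3 x).div_const 6)).add
    ((hasDerivAt_pow 5 x).div_const 40)).sub ((hasDerivAt_pow 7 x).div_const 336)).add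
    ((hasDerivAt_pow 9 x).div_const 3456)).sub ((hasDerivAt_pow 11 x).div_const 42240)).add
    ((hasDerivAt_pow 13 x).mul_const (7 / 3594240 : ℝ)))
  refine e.congr_deriv ?_
  simp only [expUp]
  push_cast
  ring

lemma cphi_lower {t : ℝ} (h0 : 0 ≤ t) (h1 : t ≤ 7 / 5) :
    1 / 2 - primUp t / (2506628 / 1000000) ≤ cphi t := by
  have hc : Continuous fun x : ℝ => expUp (x ^ 2 / 2) / (2506628 / 1000000 : ℝ) := by
    unfold expUp; fun_prop
  have hle : ∫ x in (0 : ℝ)..t, phi x ≤ ∫ x in (0 : ℝ)..t, expUp (x ^ 2 / 2) / (2506628 / 1000000) := by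
    apply intervalIntegral.integral_mono_on h0 (continuous_phi.intervalIntegrable _ _)
      (hc.intervalIntegrable _ _)
    intro x hx
    have hy : x ^ 2 / 2 ≤ 1 := by nlinarith [hx.1, hx.2]
    have hb := (exp_neg_bounds (by positivity) hy).2
    rw [phi_eq, inv_mul_eq_div, show -(x ^ 2) / 2 = -(x ^ 2 / 2) by ring]
    exact div_le_div₀ ((exp_pos _).le.trans hb) hb (by norm_num) sqrt_two_pi_lower
  have heq : ∫ x in (0 : ℝ)..t, expUp (x ^ 2 / 2) / (2506628 / 1000000)
      = primUp t / (2506628 / 1000000) - primUp 0 / (2506628 / 1000000) :=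
    intervalIntegral.integral_eq_sub_of_hasDerivAt
      (fun x _ => (hasDerivAt_primUp x).div_const _) (hc.intervalIntegrable _ _)
  rw [heq] at hle
  have : primUp 0 = 0 := by simp [primUp]
  rw [this, zero_div, sub_zero] at hle
  simp only [cphi]
  linarith

lemma phi_sq_le_nine_eighths {t : ℝ} (h : 213 / 200 ≤ t) :
    phi t ^ 2 ≤ 9 / (8 * π) * cphi t := by
  refine gap_of_one_le (s := 213 / 200) (by norm_num) h ?_
  have hl := cphi_lower (t := 213 / 200) (by norm_num) (by norm_num)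
  have he : exp (-((213 / 200 : ℝ) ^ 2)) ≤ 9 / 4 * cphi (213 / 200) := by
    have hb := (exp_neg_bounds (y := (213 / 200 : ℝ) ^ 2 / 2) (by positivity) (by norm_num)).2
    have h2 : exp (-((213 / 200 : ℝ) ^ 2)) = exp (-((213 / 200 : ℝ) ^ 2 / 2)) ^ 2 := by
      rw [sq (exp _), ← exp_add]; ring_nf
    rw [h2]
    refine (pow_le_pow_left₀ (exp_pos _).le hb 2).trans ?_
    norm_num [expUp, primUp] at hl ⊢
    linarith
  rw [phi_sq]
  calc exp (-((213 / 200 : ℝ) ^ 2)) / (2 * π) ≤ (9 / 4 * cphi (213 / 200)) / (2 * π) := by gcongr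
    _ = 9 / (8 * π) * cphi (213 / 200) := by field_simp; ring

lemma one_seventh_lt_cphi : 1 / 7 < cphi (213 / 200) := by
  have hl := cphi_lower (t := 213 / 200) (by norm_num) (by norm_num)
  norm_num [primUp] at hl ⊢
  linarith

lemma phi_sq_le_universal {t : ℝ} (ht : 0 ≤ t) : phi t ^ 2 ≤ 81 / 200 * cphi t := by
  set H : ℝ → ℝ := fun x => 81 / 200 * cphi x - phi x ^ 2 with hH
  have hd : ∀ x, HasDerivAt H (phi x * (2 * (x * phi x) - 81 / 200)) x := by
    intro x
    refine (((hasDerivAt_cphi x).const_mul (81 / 200 : ℝ)).sub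
      ((hasDerivAt_phi x).pow 2)).congr_deriv ?_
    push_cast
    ring
  have hcont : Continuous H := continuous_iff_continuousAt.2 fun x => (hd x).continuousAt
  have hm : MonotoneOn (fun x => x * phi x) (Icc (0 : ℝ) 1) := by
    apply monotoneOn_of_hasDerivWithinAt_nonneg (f' := fun x => (1 - x ^ 2) * phi x) (convex_Icc 0 1)
    · exact (continuous_id.mul continuous_phi).continuousOn
    · intro x _
      apply HasDerivAt.hasDerivWithinAt
      refine ((hasDerivAt_id x).mul (hasDerivAt_phi x)).congr_deriv ?_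
      simp only [id]
      ring
    · intro x hx
      rw [interior_Icc] at hx
      exact mul_nonneg (by nlinarith [hx.1, hx.2]) (phi_pos x).le
  -- values at the two auxiliary points 153/250 and 613/1000
  have hs := sqrt_two_pi_lower
  have hs' := sqrt_two_pi_upper
  have hr : 2 * ((153 / 250) * phi (153 / 250)) ≤ 81 / 200 ∧
      2 * ((153 / 250) * phi (153 / 250)) ≥ 81 / 200 - 2 / 10000 ∧
      phi (153 / 250) ≤ 2 / 5 ∧ (1 : ℝ) / 50000 ≤ H (153 / 250) := by
    have hb := exp_neg_bounds (y := (153 / 250 : ℝ) ^ 2 / 2) (by positivity) (by norm_num)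
    have hl := cphi_lower (t := 153 / 250) (by norm_num) (by norm_num)
    have up : phi (153 / 250) ≤ expUp ((153 / 250 : ℝ) ^ 2 / 2) / (2506628 / 1000000) := by
      rw [phi_eq, inv_mul_eq_div, show -((153 / 250 : ℝ) ^ 2) / 2 = -((153 / 250) ^ 2 / 2) by ring]
      exact div_le_div₀ ((exp_pos _).le.trans hb.2) hb.2 (by norm_num) hs
    have low : expLow ((153 / 250 : ℝ) ^ 2 / 2) / (250663 / 100000) ≤ phi (153 / 250) := by
      rw [phi_eq, inv_mul_eq_div, show -((153 / 250 : ℝ) ^ 2) / 2 = -((153 / 250) ^ 2 / 2) by ring]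
      exact div_le_div₀ (exp_pos _).le hb.1 (by positivity) hs'
    have up2 := pow_le_pow_left₀ (phi_pos (153 / 250)).le up 2
    simp only [hH]
    norm_num [expUp, expLow, primUp] at hl up low up2 ⊢
    refine ⟨?_, ?_, ?_, ?_⟩ <;> linarith
  have hsb : 81 / 200 ≤ 2 * ((613 / 1000) * phi (613 / 1000)) := by
    have hb := exp_neg_bounds (y := (613 / 1000 : ℝ) ^ 2 / 2) (by positivity) (by norm_num)
    have low : expLow ((613 / 1000 : ℝ) ^ 2 / 2) / (250663 / 100000) ≤ phi (613 / 1000) := by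
      rw [phi_eq, inv_mul_eq_div,
        show -((613 / 1000 : ℝ) ^ 2) / 2 = -((613 / 1000) ^ 2 / 2) by ring]
      exact div_le_div₀ (exp_pos _).le hb.1 (by positivity) hs'
    norm_num [expLow] at low ⊢
    linarith
  obtain ⟨hr1, hr2, hr3, hr4⟩ := hr
  -- decreasing up to 153/250
  have hA : AntitoneOn H (Icc 0 (153 / 250)) := by
    apply antitoneOn_of_hasDerivWithinAt_nonpos (convex_Icc _ _) hcont.continuousOn
      (fun x _ => (hd x).hasDerivWithinAt)
    intro x hx
    rw [interior_Icc] at hx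
    have h3 : x * phi x ≤ 153 / 250 * phi (153 / 250) :=
      hm ⟨hx.1.le, by linarith [hx.2]⟩ ⟨by norm_num, by norm_num⟩ hx.2.le
    exact mul_nonpos_of_nonneg_of_nonpos (phi_pos x).le (by linarith)
  -- nearly constant on the short middle interval
  have hB : ∀ x ∈ Icc (153 / 250 : ℝ) (613 / 1000), 0 ≤ H x := by
    intro x hx
    have hM : MonotoneOn (fun y => H y + 2 / 10000 * y) (Icc (153 / 250 : ℝ) (613 / 1000)) := by
      apply monotoneOn_of_hasDerivWithinAt_nonneg
        (f' := fun y => phi y * (2 * (y * phi y) - 81 / 200) + 2 / 10000) (convex_Icc _ _)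
        (hcont.add (continuous_const.mul continuous_id)).continuousOn
      · intro y _
        apply HasDerivAt.hasDerivWithinAt
        exact ((hd y).add ((hasDerivAt_id y).const_mul (2 / 10000 : ℝ))).congr_deriv (by simp)
      · intro y hy
        rw [interior_Icc] at hy
        have h3 : 153 / 250 * phi (153 / 250) ≤ y * phi y :=
          hm ⟨by norm_num, by norm_num⟩ ⟨by linarith [hy.1], by linarith [hy.2]⟩ hy.1.le
        have hp : phi y ≤ 1 := by
          rw [phi_eq, inv_mul_eq_div, div_le_one (by positivity)]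
          exact le_trans (exp_le_one_iff.2 (by nlinarith)) (by linarith)
        nlinarith [mul_le_mul_of_nonneg_left
          (show -(2 / 10000 : ℝ) ≤ 2 * (y * phi y) - 81 / 200 by linarith) (phi_pos y).le,
          phi_pos y]
    have := hM ⟨le_rfl, by norm_num⟩ hx hx.1
    simp only at this
    linarith [hx.2]
  have hC : MonotoneOn H (Icc (613 / 1000) 1) := by
    apply monotoneOn_of_hasDerivWithinAt_nonneg (convex_Icc _ _) hcont.continuousOn
      (fun x _ => (hd x).hasDerivWithinAt)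
    intro x hx
    rw [interior_Icc] at hx
    have h3 : 613 / 1000 * phi (613 / 1000) ≤ x * phi x :=
      hm ⟨by norm_num, by norm_num⟩ ⟨by linarith [hx.1], hx.2.le⟩ hx.1.le
    exact mul_nonneg (phi_pos x).le (by linarith)
  rcases le_or_gt t (153 / 250) with h1 | h1
  · have : H (153 / 250) ≤ H t := hA ⟨ht, h1⟩ ⟨by norm_num, le_rfl⟩ h1
    simp only [hH] at this hr4
    linarith
  rcases le_or_gt t (613 / 1000) with h2 | h2
  · have := hB t ⟨h1.le, h2⟩
    simp only [hH] at this
    linarith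
  have h613 := hB (613 / 1000) ⟨by norm_num, le_rfl⟩
  rcases le_or_gt t 1 with h3 | h3
  · have := h613.trans (hC ⟨le_rfl, by norm_num⟩ ⟨h2.le, h3⟩ h2.le)
    simp only [hH] at this
    linarith
  · refine gap_of_one_le le_rfl h3.le ?_
    have := h613.trans (hC ⟨le_rfl, by norm_num⟩ ⟨by norm_num, le_rfl⟩ (by norm_num))
    simp only [hH] at this
    linarith

end Vale.Agent.P226
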