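import Vale.Agent.P226.Cheap

/-! Reduction of the propeller problem to boundedly many cells. -/

open MeasureTheory Set Filter Real ProbabilityTheory
open scoped Topology RealInnerProductSpace NNReal

namespace Vale.Agent.P226

variable {d : ℕ}

/-- Every configuration above the conjectured value is dominated by boundedly many cells. -/
theorem exists_cell_bound :
    ∃ K : ℕ, ∀ (d k : ℕ) (A : Fin k → Set (EuclideanSpace ℝ (Fin d))),
      (∀ i, MeasurableSet (A i)) →
      (Pairwise fun i j => AEDisjoint (gam d) (A i) (A j)) →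
      ∃ B : Fin K → Set (EuclideanSpace ℝ (Fin K)), IsPart B ∧
        functional A ≤ max (9 / (8 * π)) (functional B) := by
  classical
  obtain ⟨K, hK2, hK⟩ := exists_cheap_deletion
  refine ⟨K, fun d k A hA hd => ?_⟩
  obtain ⟨A', hA', hle⟩ := exists_isPart_extend A hA hd
  suffices H : ∀ m : ℕ, ∀ (ι : Type) [Fintype ι] [Nonempty ι]
      (A : ι → Set (EuclideanSpace ℝ (Fin d))), Fintype.card ι ≤ m → IsPart A →
      ∃ B : Fin K → Set (EuclideanSpace ℝ (Fin K)), IsPart B ∧
        functional A ≤ max (9 / (8 * π)) (functional B) by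
    obtain ⟨B, hB, hB'⟩ := H _ _ A' le_rfl hA'
    exact ⟨B, hB, hle.trans hB'⟩
  intro m
  induction m with
  | zero => intro ι _ _ A hc _; exact absurd (Nat.le_zero.1 hc) Fintype.card_ne_zero
  | succ m ih =>
    intro ι _ _ A hc hA
    have hE : functional A ≤ ∫ x, maxForm (fun l => mom (A l)) x ∂gam d :=
      le_of_eq_of_le (Finset.sum_congr rfl fun l _ => (real_inner_self_eq_norm_sq _).symm)
        (inner_sum_le_maxForm _ hA)
    by_cases hcard : Fintype.card ι ≤ K
    · obtain ⟨B, hB, hBE⟩ := exists_cells_fin (fun l => mom (A l)) hcard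
      refine ⟨B, hB, le_max_of_le_right ?_⟩
      rcases eq_or_lt_of_le (functional_nonneg A) with h | h
      · rw [← h]; exact functional_nonneg B
      · refine le_of_mul_le_mul_left (le_trans ?_ hBE) h
        change functional A * functional A ≤ _
        rw [← sq]; exact pow_le_pow_left₀ h.le hE 2
    obtain ⟨j0⟩ := (inferInstance : Nonempty ι)
    by_cases hF : functional A ≤ 9 / (8 * π)
    · have hKne : Nonempty (Fin K) := ⟨⟨0, by omega⟩⟩
      obtain ⟨B, hB, -⟩ := exists_cells (fun _ : Fin K => (0 : EuclideanSpace ℝ (Fin K)))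
      exact ⟨B, hB, le_max_of_le_left hF⟩
    rw [not_le] at hF
    have hKm : K < Fintype.card ι := not_le.1 hcard
    by_cases hmerge : ∃ i j, i ≠ j ∧ 0 ≤ ⟪mom (A i), mom (A j)⟫
    · obtain ⟨i, j, hij, h⟩ := hmerge
      obtain ⟨B, hB, hBle⟩ := hA.merge hij h
      have : Nonempty {l // l ≠ j} := ⟨⟨i, hij⟩⟩
      obtain ⟨B', hB', hB''⟩ := ih {l // l ≠ j} B (by
        rw [Fintype.card_subtype_compl, Fintype.card_subtype_eq]; omega) hB
      exact ⟨B', hB', hBle.trans hB''⟩
    push Not at hmerge
    have : Nontrivial ι := Fintype.one_lt_card_iff_nontrivial.1 (by omega)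
    have hne : ∀ l, mom (A l) ≠ 0 := by
      intro l hl
      obtain ⟨l', hl'⟩ := exists_ne l
      have := hmerge l l' hl'.symm
      rw [hl, inner_zero_left] at this
      exact lt_irrefl _ this
    set z := fun l => mom (A l) with hz
    have h13 : (1 : ℝ) / 3 ≤ 9 / (8 * π) := by
      rw [div_le_div_iff₀ (by norm_num) (by positivity)]; nlinarith [Real.pi_lt_d2]
    obtain ⟨i, hi⟩ := hK d ι z (fun l => (gam d).real (A l)) hKm hA.sum_mom
      (fun j l h => (hmerge j l h).le) hne (fun l => measureReal_nonneg) (le_of_eq hA.sum_measure)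
      (fun l => norm_moment_sq_le (A l)) (fun l => norm_mom_sq_le_small (A l))
      (h13.trans hF.le)
    obtain ⟨l0, hl0⟩ := exists_ne i
    have : Nonempty {l // l ≠ i} := ⟨⟨l0, hl0⟩⟩
    set v := fun l : {l // l ≠ i} => z l.1
    have hpt : ∀ x, maxForm z x ≤ maxForm v x +
        2 * (below z i (Finset.univ.erase i)).indicator (fun x => max ⟪z i, x⟫ 0) x := by
      intro x
      obtain ⟨l, hl⟩ := exists_maxForm z x
      have hnn : 0 ≤ (below z i (Finset.univ.erase i)).indicator (fun x => max ⟪z i, x⟫ 0) x :=
        indicator_nonneg (fun y _ => le_max_right _ _) x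
      by_cases hli : l = i
      · subst hli
        have hle : ∀ m, ⟪z m, x⟫ ≤ ⟪z l, x⟫ := fun m => hl ▸ le_maxForm z m x
        have hmem : x ∈ below z l (Finset.univ.erase l) := fun m _ => hle m
        rw [indicator_of_mem hmem, hl]
        have hzero : ∑ m, ⟪z m, x⟫ = 0 := by rw [← sum_inner, hA.sum_mom, inner_zero_left]
        have hi0 : 0 ≤ ⟪z l, x⟫ := by
          by_contra hneg'
          rw [not_le] at hneg'
          have : ∑ m, ⟪z m, x⟫ < 0 :=
            Finset.sum_neg (fun m _ => (hle m).trans_lt hneg') Finset.univ_nonempty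
          linarith
        rw [max_eq_left hi0]
        suffices -⟪z l, x⟫ ≤ maxForm v x by linarith
        by_contra hcon
        rw [not_le] at hcon
        have hcount : ∑ m ∈ Finset.univ.erase l, ⟪z m, x⟫ < -⟪z l, x⟫ := by
          have hne' : (Finset.univ.erase l).Nonempty := ⟨l0, Finset.mem_erase.2 ⟨hl0, Finset.mem_univ _⟩⟩
          calc ∑ m ∈ Finset.univ.erase l, ⟪z m, x⟫
              < ∑ _m ∈ Finset.univ.erase l, -⟪z l, x⟫ := Finset.sum_lt_sum_of_nonempty hne'
                fun m hm => (le_maxForm v ⟨m, Finset.ne_of_mem_erase hm⟩ x).trans_lt hcon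
            _ ≤ -⟪z l, x⟫ := by
              rw [Finset.sum_const, nsmul_eq_mul]
              have : (1 : ℝ) ≤ ((Finset.univ.erase l).card : ℝ) := by
                exact_mod_cast hne'.card_pos
              nlinarith
        rw [← Finset.add_sum_erase _ _ (Finset.mem_univ l)] at hzero
        linarith
      · rw [hl]
        have := le_maxForm v ⟨l, hli⟩ x
        simp only [v] at this
        linarith
    have hIi : Integrable ((below z i (Finset.univ.erase i)).indicator
        (fun x => max ⟪z i, x⟫ 0)) (gam d) :=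
      (integrable_inner (z i)).pos_part.indicator (measurableSet_below _ _ _)
    have hstep : functional A - ‖z i‖ ^ 2 / 3 ≤ ∫ x, maxForm v x ∂gam d := by
      have := integral_mono (integrable_maxForm z) ((integrable_maxForm v).add (hIi.const_mul 2)) hpt
      simp only [Pi.add_apply] at this
      rw [integral_add (integrable_maxForm v) (hIi.const_mul 2), integral_const_mul] at this
      linarith
    obtain ⟨B, hB, hBE⟩ := exists_cells v
    have hS : ∑ l, ‖v l‖ ^ 2 = functional A - ‖z i‖ ^ 2 := by
      simp only [functional, v, hz]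
      rw [← Finset.add_sum_erase Finset.univ (fun l => ‖mom (A l)‖ ^ 2) (Finset.mem_univ i),
        Finset.sum_subtype (Finset.univ.erase i) (p := fun l => l ≠ i) (fun l => by simp)]
      ring
    have hgrow : functional A ≤ functional B := by
      rw [hS] at hBE
      set s := ‖z i‖ ^ 2
      set F := functional A
      have hs0 : 0 ≤ s := sq_nonneg _
      have hsF : s ≤ F := Finset.single_le_sum (f := fun l => ‖mom (A l)‖ ^ 2)
        (fun l _ => sq_nonneg _) (Finset.mem_univ i)
      have h1 : (F - s / 3) ^ 2 ≤ (F - s) * functional B :=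
        (pow_le_pow_left₀ (by linarith) hstep 2).trans hBE
      have h2 : F * (F - s) ≤ (F - s / 3) ^ 2 := by nlinarith
      rcases eq_or_lt_of_le hsF with h | h
      · rw [h, sub_self, zero_mul] at h1
        have : 0 < F := lt_trans (by positivity) hF
        nlinarith
      · exact le_of_mul_le_mul_left ((mul_comm _ _).trans_le (h2.trans h1)) (sub_pos.2 h)
    obtain ⟨B', hB', hB''⟩ := ih {l // l ≠ i} B (by
      rw [Fintype.card_subtype_compl, Fintype.card_subtype_eq]; omega) hB
    exact ⟨B', hB', hgrow.trans hB''⟩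

end Vale.Agent.P226
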