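import Vale.Agent.P226.Weight

/-! The longest vector keeps half of its length off the span of the short vectors. -/

open MeasureTheory Set Filter Real ProbabilityTheory
open scoped Topology RealInnerProductSpace NNReal

namespace Vale.Agent.P226

variable {d : ℕ}

/-- The component of `z b` orthogonal to the span of a light family of vectors is long. -/
lemma residual_sq_ge {ι : Type*} [Fintype ι] [DecidableEq ι] {z : ι → EuclideanSpace ℝ (Fin d)}
    {i b : ι} {J : Finset ι} (hib : i ≠ b) (hiJ : i ∉ J) (hbJ : b ∉ J)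
    (hsum : ∑ l, z l = 0) (hneg : ∀ j l, j ≠ l → ⟪z j, z l⟫ ≤ 0)
    (hsmall : ‖z i‖ ^ 2 + ∑ l ∈ J, ‖z l‖ ^ 2 ≤ ‖z b‖ ^ 2 / 4) :
    ‖z b‖ ^ 2 / 2 ≤ ‖z b - (Submodule.span ℝ
      (Set.range fun l : {l // l ∈ insert i J} => z l.1)).starProjection (z b)‖ ^ 2 := by
  let r : {l // l ∈ insert i J} → EuclideanSpace ℝ (Fin d) := fun l => z l.1
  set U := Submodule.span ℝ (Set.range r)
  obtain ⟨c, hc⟩ := (Submodule.mem_span_range_iff_exists_fun ℝ).1
    (U.starProjection_apply_mem (z b))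
  set u := z b - U.starProjection (z b) with hu
  set C := (Finset.univ \ insert i (insert b J)) with hC
  let x : ι → ℝ := fun l => if h : l ∈ insert i J then -c ⟨l, h⟩ else if l = b then 1 else 0
  have hbI : b ∉ insert i J := by simp [hib.symm, hbJ]
  have hxu : ∑ l, x l • z l = u := by
    have hsub : ∑ l, x l • z l = ∑ l ∈ insert b (insert i J), x l • z l := by
      refine (Finset.sum_subset (Finset.subset_univ _) fun l _ hl => ?_).symm
      simp only [Finset.mem_insert, not_or] at hl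
      simp [x, hl.1, hl.2.1, hl.2.2]
    rw [hsub, Finset.sum_insert hbI, ← Finset.sum_coe_sort (insert i J), hu, ← hc]
    simp only [x, hbI, ↓reduceDIte, ↓reduceIte, one_smul, Finset.coe_mem, Subtype.coe_eta,
      neg_smul, Finset.sum_neg_distrib, ← sub_eq_add_neg, r]
  have hxC : ∀ l ∈ C, x l = 0 ∧ l ≠ b := by
    intro l hl
    simp only [hC, Finset.mem_sdiff, Finset.mem_insert, not_or] at hl
    simp [x, hl.2.1, hl.2.2.1, hl.2.2.2]
  have hD : ∀ j l, 0 ≤ -⟪z j, z l⟫ * (x j - x l) ^ 2 := by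
    intro j l
    rcases eq_or_ne j l with rfl | h
    · simp
    · exact mul_nonneg (neg_nonneg.2 (hneg j l h)) (sq_nonneg _)
  have hxb : x b = 1 := by simp [x, hib.symm, hbJ]
  have hlow : 2 * ∑ l ∈ C, -⟪z b, z l⟫ ≤ ∑ j, ∑ l, -⟪z j, z l⟫ * (x j - x l) ^ 2 := by
    rw [← Finset.add_sum_erase _ _ (Finset.mem_univ b), two_mul]
    refine add_le_add ?_ ?_
    · refine le_trans (le_of_eq ?_)
        (Finset.sum_le_sum_of_subset_of_nonneg (Finset.subset_univ C) fun l _ _ => hD b l)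
      refine Finset.sum_congr rfl fun l hl => ?_
      rw [hxb, (hxC l hl).1]; ring
    · calc ∑ l ∈ C, -⟪z b, z l⟫ ≤ ∑ j ∈ C, ∑ l, -⟪z j, z l⟫ * (x j - x l) ^ 2 := by
            refine Finset.sum_le_sum fun j hj => le_trans (le_of_eq ?_)
              (Finset.single_le_sum (fun l _ => hD j l) (Finset.mem_univ b))
            rw [hxb, (hxC j hj).1, real_inner_comm (z b)]; ring
        _ ≤ _ := Finset.sum_le_sum_of_subset_of_nonneg
            (fun l hl => Finset.mem_erase.2 ⟨(hxC l hl).2, Finset.mem_univ l⟩)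
            fun j _ _ => Finset.sum_nonneg fun l _ => hD j l
  have hid := norm_sq_sum_eq hsum x
  rw [hxu] at hid
  set T := ∑ l ∈ insert i J, z l with hT
  have hTn : ‖T‖ ^ 2 ≤ ‖z b‖ ^ 2 / 4 := by
    refine (norm_sq_sum_le_of_obtuse hneg _).trans ?_
    rw [Finset.sum_insert hiJ]
    exact hsmall
  have hCsum : ∑ l ∈ C, -⟪z b, z l⟫ = ‖z b‖ ^ 2 + ⟪z b, T⟫ := by
    have htot : ∑ l, ⟪z b, z l⟫ = 0 := by rw [← inner_sum, hsum, inner_zero_right]
    rw [← Finset.sum_sdiff (Finset.subset_univ (insert i (insert b J))), ← hC,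
      Finset.insert_comm, Finset.sum_insert hbI, real_inner_self_eq_norm_sq] at htot
    rw [Finset.sum_neg_distrib, hT, inner_sum]
    linarith
  have hTb : -(‖z b‖ ^ 2 / 2) ≤ ⟪z b, T⟫ := by
    have h1 := abs_real_inner_le_norm (z b) T
    have h2 : ‖T‖ ≤ ‖z b‖ / 2 := (sq_le_sq₀ (norm_nonneg _) (by positivity)).1 (by linarith)
    nlinarith [neg_abs_le ⟪z b, T⟫, norm_nonneg (z b)]
  linarith

end Vale.Agent.P226
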