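import Vale.Agent.P226.Deletion
import Vale.Agent.P047.PrekopaLeindler
import Vale.Agent.P347.Gauss

/-! Sharp deletion bound: deleting a cell of measure `a` costs at most `a² k / (k - 1)`. -/

open MeasureTheory Set Filter Real ProbabilityTheory
open scoped Topology RealInnerProductSpace ENNReal

namespace Vale.Agent.P226

variable {d : ℕ} {κ : Type*}

/-- The cone `{⟪r l, x⟫ ≥ 0}`, shifted to the level `t`. -/
def shiftCell (r : κ → EuclideanSpace ℝ (Fin d)) (t : ℝ) : Set (EuclideanSpace ℝ (Fin d)) :=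
  {x | ∀ l, t ≤ ⟪r l, x⟫}

lemma measurableSet_shiftCell [Fintype κ] (r : κ → EuclideanSpace ℝ (Fin d)) (t : ℝ) :
    MeasurableSet (shiftCell r t) := by
  rw [shiftCell, Set.ofPred_forall]
  exact MeasurableSet.iInter fun l => measurableSet_le measurable_const (by fun_prop)

/-- Prékopa–Leindler on Euclidean space. -/
lemma pl_euclid {f g h : EuclideanSpace ℝ (Fin d) → ℝ≥0∞} (hf : Measurable f) (hg : Measurable g)
    (hh : Measurable h) (H : ∀ x y, f x * g y ≤ h ((2 : ℝ)⁻¹ • (x + y)) ^ 2) :
    (∫⁻ x, f x) * (∫⁻ x, g x) ≤ (∫⁻ x, h x) ^ 2 := by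
  have e := PiLp.volume_preserving_toLp (Fin d)
  have hm : Measurable (WithLp.toLp 2 : (Fin d → ℝ) → EuclideanSpace ℝ (Fin d)) := e.measurable
  have hint : ∀ u : EuclideanSpace ℝ (Fin d) → ℝ≥0∞, Measurable u →
      ∫⁻ x, u x = ∫⁻ x : Fin d → ℝ, u (WithLp.toLp 2 x) := fun u hu => (e.lintegral_comp hu).symm
  rw [hint f hf, hint g hg, hint h hh]
  refine P047.pl_midpoint (hf.comp hm) (hg.comp hm) (hh.comp hm) fun x y => ?_
  simpa using H (WithLp.toLp 2 x) (WithLp.toLp 2 y)

/-- The measure of the shifted cone is log-concave in the level. -/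
lemma shiftCell_logconcave [Fintype κ] (r : κ → EuclideanSpace ℝ (Fin d)) (s t : ℝ) :
    (gam d).real (shiftCell r s) * (gam d).real (shiftCell r t) ≤
      (gam d).real (shiftCell r ((s + t) / 2)) ^ 2 := by
  set Z := (∫ y : EuclideanSpace ℝ (Fin d), exp (-P347.gPot y))⁻¹ with hZ
  have hZ0 : 0 ≤ Z := inv_nonneg.2 (integral_nonneg fun y => (exp_pos _).le)
  set w : EuclideanSpace ℝ (Fin d) → ℝ≥0∞ := fun x => ENNReal.ofReal
    (Z * exp (-P347.gPot x)) with hw
  have hwm : Measurable w := by unfold w P347.gPot; fun_prop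
  have hmeas : ∀ q, gam d (shiftCell r q) = ∫⁻ x, (shiftCell r q).indicator w x := fun q => by
    rw [gam, P347.stdGaussian_eq_withDensity,
      withDensity_apply _ (measurableSet_shiftCell r q),
      lintegral_indicator (measurableSet_shiftCell r q)]
  have key := pl_euclid (hwm.indicator (measurableSet_shiftCell r s))
    (hwm.indicator (measurableSet_shiftCell r t))
    (hwm.indicator (measurableSet_shiftCell r ((s + t) / 2))) (fun x y => by
      by_cases hx : x ∈ shiftCell r s
      swap; · simp [indicator_of_notMem hx]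
      by_cases hy : y ∈ shiftCell r t
      swap; · simp [indicator_of_notMem hy]
      have hmid : (2 : ℝ)⁻¹ • (x + y) ∈ shiftCell r ((s + t) / 2) := fun l => by
        rw [inner_smul_right, inner_add_right]
        linarith [hx l, hy l]
      rw [indicator_of_mem hx, indicator_of_mem hy, indicator_of_mem hmid]
      simp only [w]
      rw [← ENNReal.ofReal_mul (mul_nonneg hZ0 (exp_pos _).le),
        ← ENNReal.ofReal_pow (mul_nonneg hZ0 (exp_pos _).le)]
      refine ENNReal.ofReal_le_ofReal ?_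
      refine le_of_eq_of_le (mul_mul_mul_comm _ _ _ _) (le_of_le_of_eq ?_
        ((sq _).trans (mul_mul_mul_comm _ _ _ _)).symm)
      refine mul_le_mul_of_nonneg_left ?_ (mul_nonneg hZ0 hZ0)
      rw [← exp_add, ← exp_add, exp_le_exp, P347.gPot, P347.gPot, P347.gPot, norm_smul,
        Real.norm_eq_abs, abs_of_pos (by norm_num : (0 : ℝ) < 2⁻¹)]
      nlinarith [parallelogram_law_with_norm ℝ x y, sq_nonneg ‖x - y‖])
  rw [← hmeas, ← hmeas, ← hmeas] at key
  simp only [measureReal_def]
  rw [← ENNReal.toReal_mul, ← ENNReal.toReal_pow]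
  exact ENNReal.toReal_mono (ENNReal.pow_ne_top (measure_ne_top _ _)) key

/-- Translating the cone along a dual direction. -/
lemma shiftCell_eq [Fintype κ] {r : κ → EuclideanSpace ℝ (Fin d)}
    {u : EuclideanSpace ℝ (Fin d)} (hu : ∀ l, ⟪r l, u⟫ = 1) (h : ℝ) :
    (gam d).real (shiftCell r h) =
      ∫ x in shiftCell r 0, exp (-h * ⟪u, x⟫ - h ^ 2 * ‖u‖ ^ 2 / 2) ∂gam d := by
  rw [← integral_indicator_one (measurableSet_shiftCell r h),
    ← integral_indicator (measurableSet_shiftCell r 0), gam, P347.integral_stdGaussian,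
    P347.integral_stdGaussian]
  congr 1
  rw [← integral_add_right_eq_self (fun x => exp (-P347.gPot x) •
    (shiftCell r h).indicator (1 : EuclideanSpace ℝ (Fin d) → ℝ) x) (h • u)]
  refine integral_congr_ae (Eventually.of_forall fun x => ?_)
  have hiff : x + h • u ∈ shiftCell r h ↔ x ∈ shiftCell r 0 := forall_congr' fun l => by
    rw [inner_add_right, inner_smul_right, hu, mul_one, le_add_iff_nonneg_left]
  by_cases hx : x ∈ shiftCell r 0
  · dsimp only
    rw [indicator_of_mem hx, indicator_of_mem (hiff.2 hx)]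
    simp only [Pi.one_apply, smul_eq_mul, mul_one, P347.gPot]
    rw [← exp_add]
    congr 1
    rw [norm_add_sq_real, inner_smul_right, norm_smul, mul_pow, Real.norm_eq_abs, sq_abs,
      real_inner_comm u x]
    ring
  · dsimp only
    rw [indicator_of_notMem hx, indicator_of_notMem (fun c => hx (hiff.1 c)), smul_zero, smul_zero]

/-- Exponential decay of the measure of the shifted cone. -/
lemma shiftCell_decay [Fintype κ] {r : κ → EuclideanSpace ℝ (Fin d)}
    {u : EuclideanSpace ℝ (Fin d)} (hu : ∀ l, ⟪r l, u⟫ = 1)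
    (ha : 0 < (gam d).real (shiftCell r 0)) (t : ℝ) :
    (gam d).real (shiftCell r t) ≤ (gam d).real (shiftCell r 0) *
      exp (-(t * ⟪u, mom (shiftCell r 0)⟫) / (gam d).real (shiftCell r 0)) := by
  set P : ℝ → ℝ := fun s => (gam d).real (shiftCell r s)
  set a := P 0
  set lam := ⟪u, mom (shiftCell r 0)⟫ with hlam
  set c := ‖u‖ ^ 2 / 2
  change P t ≤ a * exp (-(t * lam) / a)
  have hexp : ∀ s : ℝ, Integrable (fun x => exp (s * ⟪u, x⟫)) (gam d) ∧
      ∫ x, exp (s * ⟪u, x⟫) ∂gam d = exp (s ^ 2 * c) := fun s => by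
    constructor
    · have := integrable_exp_mul_gaussianReal (μ := 0) (v := (‖u‖ ^ 2).toNNReal) s
      rwa [← gam_map_inner u, integrable_map_measure (by fun_prop) (by fun_prop)] at this
    · have := mgf_gaussianReal (gam_map_inner u) s
      rw [mgf, Real.coe_toNNReal _ (sq_nonneg _)] at this
      rw [this]
      congr 1
      simp only [c]
      ring
  have hub : ∀ h : ℝ, P h ≤ a - h * lam + (exp (h ^ 2 * c) - 1) := fun h => by
    set C := shiftCell r 0 with hC
    have hCm : MeasurableSet C := measurableSet_shiftCell r 0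
    obtain ⟨hi, hI⟩ := hexp (-h)
    rw [show (-h) ^ 2 * c = h ^ 2 * c by ring] at hI
    have hlin : Integrable (fun x => 1 + -h * ⟪u, x⟫) (gam d) :=
      (integrable_const (1 : ℝ)).add ((integrable_inner u).const_mul _)
    have hge : ∀ x : EuclideanSpace ℝ (Fin d), 1 + -h * ⟪u, x⟫ ≤ exp (-h * ⟪u, x⟫) := fun x => by
      linarith [Real.add_one_le_exp (-h * ⟪u, x⟫)]
    have h1 : P h ≤ ∫ x in C, exp (-h * ⟪u, x⟫) ∂gam d := by
      change (gam d).real (shiftCell r h) ≤ _
      rw [shiftCell_eq hu h]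
      refine integral_mono_of_nonneg (Eventually.of_forall fun x => (exp_pos _).le)
        hi.integrableOn (Eventually.of_forall fun x => exp_le_exp.2 ?_)
      have : 0 ≤ h ^ 2 * ‖u‖ ^ 2 / 2 := by positivity
      linarith
    have h2 : ∫ x in C, (exp (-h * ⟪u, x⟫) - (1 + -h * ⟪u, x⟫)) ∂gam d ≤
        ∫ x, (exp (-h * ⟪u, x⟫) - (1 + -h * ⟪u, x⟫)) ∂gam d :=
      setIntegral_le_integral (hi.sub hlin)
        (Eventually.of_forall fun x => sub_nonneg.2 (hge x))
    rw [integral_sub hi.integrableOn hlin.integrableOn, integral_sub hi hlin, hI,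
      integral_add (integrable_const _).integrableOn ((integrable_inner u).const_mul _).integrableOn,
      integral_add (integrable_const _) ((integrable_inner u).const_mul _), integral_const_mul,
      integral_const_mul, setIntegral_inner_eq, setIntegral_const,
      integral_const] at h2
    have h0 : ∫ x, ⟪u, x⟫ ∂gam d = 0 := by
      rw [integral_inner integrable_id_std u, integral_id_stdGaussian, inner_zero_right]
    rw [h0, ← hlam] at h2
    simp only [smul_eq_mul, mul_one, mul_zero, probReal_univ, add_zero] at h2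
    change _ - (a + -h * lam) ≤ _ at h2
    linarith
  have hdy : ∀ m : ℕ, P t / a ≤ (P (t / 2 ^ m) / a) ^ (2 ^ m) := fun m => by
    induction m with
    | zero => simp
    | succ m ih =>
      refine ih.trans ?_
      rw [show (2 : ℕ) ^ (m + 1) = 2 * 2 ^ m by ring, pow_mul]
      refine pow_le_pow_left₀ (div_nonneg measureReal_nonneg ha.le) ?_ _
      have := shiftCell_logconcave r (t / 2 ^ m) 0
      rw [add_zero, div_div, ← pow_succ] at this
      rw [div_pow, div_le_div_iff₀ ha (pow_pos ha 2), sq a, ← mul_assoc]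
      exact mul_le_mul_of_nonneg_right this ha.le
  have hb : ∀ m : ℕ, P t / a ≤ exp (-(t * lam) / a +
      t ^ 2 / 2 ^ m * c * exp ((t / 2 ^ m) ^ 2 * c) / a) := fun m => by
    refine (hdy m).trans ?_
    set h := t / 2 ^ m with hh
    have hx : P h / a ≤ exp ((-(h * lam) + h ^ 2 * c * exp (h ^ 2 * c)) / a) := by
      refine le_trans ?_ (Real.add_one_le_exp _)
      rw [div_add_one ha.ne']
      refine (div_le_div_iff_of_pos_right ha).2 ((hub h).trans ?_)
      have := mul_le_mul_of_nonneg_right (Real.add_one_le_exp (-(h ^ 2 * c)))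
        (exp_pos (h ^ 2 * c)).le
      rw [← exp_add, neg_add_cancel, exp_zero] at this
      linarith
    refine (pow_le_pow_left₀ (div_nonneg measureReal_nonneg ha.le) hx _).trans (le_of_eq ?_)
    rw [← Real.exp_nat_mul]
    congr 1
    push_cast
    rw [hh]
    field_simp
  have hlim : Tendsto (fun m : ℕ => exp (-(t * lam) / a +
      t ^ 2 / 2 ^ m * c * exp ((t / 2 ^ m) ^ 2 * c) / a)) atTop (𝓝 (exp (-(t * lam) / a))) := by
    have h2 : Tendsto (fun m : ℕ => ((2 : ℝ) ^ m)⁻¹) atTop (𝓝 0) :=
      tendsto_inv_atTop_zero.comp (tendsto_pow_atTop_atTop_of_one_lt one_lt_two)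
    have hc : Continuous fun s : ℝ => exp (-(t * lam) / a +
        t ^ 2 * s * c * exp ((t * s) ^ 2 * c) / a) := by fun_prop
    have := (hc.tendsto 0).comp h2
    simpa [Function.comp_def, div_eq_mul_inv] using this
  have := ge_of_tendsto' hlim hb
  rw [div_le_iff₀ ha] at this
  linarith

/-- The expected excess of a cone is at most `a² / λ`. -/
lemma integral_excess_le [Fintype κ] [Nonempty κ] {r : κ → EuclideanSpace ℝ (Fin d)}
    {u : EuclideanSpace ℝ (Fin d)} (hu : ∀ l, ⟪r l, u⟫ = 1)
    (ha : 0 < (gam d).real (shiftCell r 0)) (hlam : 0 < ⟪u, mom (shiftCell r 0)⟫)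
    {f : EuclideanSpace ℝ (Fin d) → ℝ} (hf : Integrable f (gam d)) (hf0 : ∀ x, 0 ≤ f x)
    (hfr : ∀ x t, 0 < t → t ≤ f x → x ∈ shiftCell r t) :
    ∫ x, f x ∂gam d ≤ (gam d).real (shiftCell r 0) ^ 2 / ⟪u, mom (shiftCell r 0)⟫ := by
  set a := (gam d).real (shiftCell r 0)
  set lam := ⟪u, mom (shiftCell r 0)⟫
  have hneg : -(lam / a) < 0 := neg_lt_zero.2 (div_pos hlam ha)
  rw [hf.integral_eq_integral_meas_le (Eventually.of_forall hf0)]
  calc ∫ t in Ioi 0, (gam d).real {x | t ≤ f x}
      ≤ ∫ t in Ioi 0, a * exp (-(lam / a) * t) := by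
        refine integral_mono_of_nonneg (Eventually.of_forall fun t => measureReal_nonneg)
          ((integrableOn_exp_mul_Ioi hneg 0).const_mul a) ?_
        refine (ae_restrict_iff' measurableSet_Ioi).2 (Eventually.of_forall fun t ht => ?_)
        refine le_trans (measureReal_mono fun x hx => hfr x t ht hx)
          ((shiftCell_decay hu ha t).trans (le_of_eq ?_))
        congr 2
        ring
    _ = a ^ 2 / lam := by
        rw [integral_const_mul, integral_exp_mul_Ioi hneg, mul_zero, exp_zero]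
        field_simp

section

variable {ι : Type*} [Fintype ι] [DecidableEq ι] {z : ι → EuclideanSpace ℝ (Fin d)}

/-- A strictly obtuse balanced configuration has a direction along which every difference
`z i - z l` grows at unit rate. -/
lemma exists_dual (hsum : ∑ l, z l = 0) (hneg : ∀ j l, j ≠ l → ⟪z j, z l⟫ < 0) (i : ι) :
    ∃ u, ∀ l : {l // l ≠ i}, ⟪z i - z l.1, u⟫ = 1 := by
  set v : {l // l ≠ i} → EuclideanSpace ℝ (Fin d) := fun l => z i - z l.1 with hv
  have hli : LinearIndependent ℝ v := by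
    rw [Fintype.linearIndependent_iff]
    intro c hc
    set x : ι → ℝ := fun l => if h : l = i then ∑ m, c m else -c ⟨l, h⟩ with hx
    have hxl : ∀ l : {l // l ≠ i}, x l.1 = -c l := fun l => dif_neg l.2
    have hxi : x i = ∑ m, c m := dif_pos rfl
    have hxz : ∑ l, x l • z l = 0 := by
      rw [Fintype.sum_eq_add_sum_subtype_ne _ i, hxi, ← hc, Finset.sum_smul,
        ← Finset.sum_add_distrib]
      refine Finset.sum_congr rfl fun l _ => ?_
      simp only [hxl, hv, smul_sub, neg_smul]
      abel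
    have hsum0 : ∑ l, x l = 0 := by
      simp [Fintype.sum_eq_add_sum_subtype_ne _ i, hxi, hxl]
    have h0 := norm_sq_sum_eq hsum x
    rw [hxz, norm_zero, zero_pow two_ne_zero, eq_comm, mul_eq_zero,
      or_iff_right (by norm_num)] at h0
    have hnn : ∀ j l, 0 ≤ -⟪z j, z l⟫ * (x j - x l) ^ 2 := fun j l => by
      rcases eq_or_ne j l with rfl | h
      · simp
      · exact mul_nonneg (neg_nonneg.2 (hneg j l h).le) (sq_nonneg _)
    have hconst : ∀ l, x l = x i := fun l => by
      rcases eq_or_ne l i with rfl | h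
      · rfl
      have h1 := (Finset.sum_eq_zero_iff_of_nonneg
        (fun j _ => Finset.sum_nonneg fun m _ => hnn j m)).1 h0 l (Finset.mem_univ _)
      have h2 := (Finset.sum_eq_zero_iff_of_nonneg fun m _ => hnn l m).1 h1 i (Finset.mem_univ _)
      rw [mul_eq_zero, or_iff_right (neg_ne_zero.2 (hneg l i h).ne),
        pow_eq_zero_iff two_ne_zero, sub_eq_zero] at h2
      exact h2
    intro l
    rw [Finset.sum_congr rfl fun m _ => hconst m, Finset.sum_const, nsmul_eq_mul,
      mul_eq_zero, or_iff_right (by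
        simp [Finset.card_univ, Fintype.card_eq_zero_iff]; exact ⟨i⟩)] at hsum0
    have := hconst l.1
    rw [hxl, hsum0] at this
    linarith
  set L : ({l // l ≠ i} → ℝ) →ₗ[ℝ] ({l // l ≠ i} → ℝ) :=
    (LinearMap.pi fun l => (innerSL ℝ (v l) : EuclideanSpace ℝ (Fin d) →ₗ[ℝ] ℝ)) ∘ₗ
      Fintype.linearCombination ℝ v
  have hL : ∀ c l, L c l = ⟪v l, ∑ m, c m • v m⟫ := fun c l => by
    simp [L, Fintype.linearCombination_apply, inner_sum, inner_smul_right]
  have hinj : Function.Injective L := by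
    rw [← LinearMap.ker_eq_bot, LinearMap.ker_eq_bot']
    intro c hc
    have h0 : ⟪∑ m, c m • v m, ∑ m, c m • v m⟫ = 0 := by
      rw [sum_inner]
      refine Finset.sum_eq_zero fun l _ => ?_
      rw [real_inner_smul_left, ← hL, hc]
      simp
    exact funext (Fintype.linearIndependent_iff.1 hli c (inner_self_eq_zero.1 h0))
  obtain ⟨c, hc⟩ := LinearMap.surjective_of_injective hinj fun _ => (1 : ℝ)
  exact ⟨∑ m, c m • v m, fun l => by rw [← hv] at *; exact (hL c l).symm.trans (congrFun hc l)⟩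

/-- Deleting a cell of measure `a` at a balanced obtuse fixed point costs at most
`a² k / (k - 1)`. -/
theorem deletion_sharp (i : ι) [Nonempty {l // l ≠ i}] [Nonempty ι] (hsum : ∑ l, z l = 0)
    (hneg : ∀ j l, j ≠ l → ⟪z j, z l⟫ < 0)
    (hmom : mom (below z i (Finset.univ.erase i)) = z i) :
    ∫ x, maxForm z x ∂gam d - ∫ x, maxForm (fun l : {l // l ≠ i} => z l.1) x ∂gam d ≤
      (gam d).real (below z i (Finset.univ.erase i)) ^ 2 *
        (Fintype.card ι / (Fintype.card ι - 1)) := by
  set r : {l // l ≠ i} → EuclideanSpace ℝ (Fin d) := fun l => z i - z l.1 with hr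
  obtain ⟨u, hu⟩ := exists_dual hsum hneg i
  have hC : shiftCell r 0 = below z i (Finset.univ.erase i) := by
    ext x
    simp [shiftCell, below, hr, inner_sub_left, sub_nonneg]
  have hk : 1 < (Fintype.card ι : ℝ) := by
    obtain ⟨⟨l, hl⟩⟩ := (inferInstance : Nonempty {l // l ≠ i})
    exact_mod_cast Fintype.one_lt_card_iff.2 ⟨l, i, hl⟩
  have hz0 : z i ≠ 0 := fun h => by
    obtain ⟨⟨l, hl⟩⟩ := (inferInstance : Nonempty {l // l ≠ i})
    have := hneg i l hl.symm
    rw [h, inner_zero_left] at this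
    exact lt_irrefl _ this
  have ha : 0 < (gam d).real (shiftCell r 0) := by
    refine measureReal_nonneg.lt_of_ne' fun h => hz0 ?_
    rw [← hmom, ← hC, mom, Measure.restrict_eq_zero.2, integral_zero_measure]
    rwa [measureReal_eq_zero_iff] at h
  have hlam : ⟪u, mom (shiftCell r 0)⟫ = (Fintype.card ι - 1) / Fintype.card ι := by
    rw [hC, hmom, eq_div_iff (by positivity)]
    have h1 : (Fintype.card ι : ℝ) • z i = ∑ l : {l // l ≠ i}, r l := by
      have h2 : ∑ l, (z i - z l) = (Fintype.card ι : ℝ) • z i := by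
        rw [Finset.sum_sub_distrib, hsum, sub_zero, Finset.sum_const, Finset.card_univ,
          ← Nat.cast_smul_eq_nsmul ℝ]
      rw [← h2, Fintype.sum_eq_add_sum_subtype_ne _ i, sub_self, zero_add]
    rw [mul_comm, ← inner_smul_right, h1, inner_sum]
    rw [Finset.sum_congr rfl fun l _ => (real_inner_comm (r l) u).trans (hu l), Finset.sum_const,
      nsmul_eq_mul, mul_one, Finset.card_univ]
    rw [Fintype.card_subtype_compl, Fintype.card_subtype_eq, Nat.cast_sub]
    · simp
    · exact Fintype.card_pos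
  set v := fun l : {l // l ≠ i} => z l.1
  rw [← integral_sub (integrable_maxForm z) (integrable_maxForm v)]
  have hle : ∀ x, maxForm v x ≤ maxForm z x := fun x => by
    obtain ⟨l, hl⟩ := exists_maxForm v x
    exact hl ▸ le_maxForm z l.1 x
  refine (integral_excess_le hu ha (by rw [hlam]; exact div_pos (by linarith) (by linarith))
    ((integrable_maxForm z).sub (integrable_maxForm v)) (fun x => sub_nonneg.2 (hle x))
    fun x t ht htx l => ?_).trans (le_of_eq ?_)
  · obtain ⟨m, hm⟩ := exists_maxForm z x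
    rcases eq_or_ne m i with rfl | hmi
    · have := le_maxForm v l x
      simp only [Pi.sub_apply] at htx
      simp only [v, inner_sub_left] at this ⊢
      linarith
    · have := le_maxForm v ⟨m, hmi⟩ x
      simp only [Pi.sub_apply] at htx
      simp only [v] at this
      linarith
  · rw [hlam, ← hC, div_div_eq_mul_div, mul_div_assoc]

/-- A cheap deletion yields a configuration with one fewer cell that is at least as good. -/
theorem exists_fewer_of_deletion (i : ι) [Nonempty {l // l ≠ i}] [Nonempty ι] (hsum : ∑ l, z l = 0)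
    (hE : ∑ l, ‖z l‖ ^ 2 ≤ ∫ x, maxForm z x ∂gam d)
    (hD : ∫ x, maxForm z x ∂gam d - ∫ x, maxForm (fun l : {l // l ≠ i} => z l.1) x ∂gam d ≤
      Fintype.card ι * ‖z i‖ ^ 2 / (2 * (Fintype.card ι - 1))) :
    ∃ B : {l // l ≠ i} → Set (EuclideanSpace ℝ (Fin d)), IsPart B ∧
      ∑ l, ‖z l‖ ^ 2 ≤ functional B := by
  set S := ∑ l, ‖z l‖ ^ 2 with hS
  set v := fun l : {l // l ≠ i} => z l.1 with hv
  set k := (Fintype.card ι : ℝ) with hk
  set n := (Fintype.card {l // l ≠ i} : ℝ) with hn
  have hn0 : 0 < n := Nat.cast_pos.2 Fintype.card_pos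
  have hkn : k - 1 = n := by
    rw [hk, hn, Fintype.card_subtype_compl, Fintype.card_subtype_eq,
      Nat.cast_sub Fintype.card_pos, Nat.cast_one]
  rw [hkn] at hD
  set v' := fun l : {l // l ≠ i} => v l + n⁻¹ • z i with hv'
  have hvsum : ∑ l, v l = -z i := by
    have := hsum
    rw [Fintype.sum_eq_add_sum_subtype_ne _ i] at this
    exact eq_neg_of_add_eq_zero_right this
  have hvS : ∑ l, ‖v l‖ ^ 2 = S - ‖z i‖ ^ 2 := by
    rw [hS, Fintype.sum_eq_add_sum_subtype_ne _ i]
    simp [hv]
  set x := k * ‖z i‖ ^ 2 / n with hx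
  have hv'S : ∑ l, ‖v' l‖ ^ 2 = S - x := by
    simp only [hv', norm_add_sq_real, Finset.sum_add_distrib, hvS]
    rw [← Finset.mul_sum, ← sum_inner, hvsum, Finset.sum_const, nsmul_eq_mul, Finset.card_univ,
      ← hn, inner_neg_left, inner_smul_right, real_inner_self_eq_norm_sq, norm_smul, mul_pow,
      Real.norm_eq_abs, sq_abs, hx, show k = n + 1 by linarith]
    field_simp
    ring
  obtain ⟨B, hB, hBE⟩ := exists_cells v'
  refine ⟨B, hB, ?_⟩
  have hmax : ∀ y, maxForm v' y = maxForm v y + ⟪n⁻¹ • z i, y⟫ := fun y => by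
    obtain ⟨l, hl⟩ := exists_maxForm v y
    obtain ⟨m, hm⟩ := exists_maxForm v' y
    have h1 := le_maxForm v' l y
    have h2 := le_maxForm v m y
    simp only [hv', inner_add_left] at h1 hm
    linarith
  rw [funext hmax, integral_add (integrable_maxForm v) (integrable_inner _),
    integral_inner integrable_id_std, integral_id_stdGaussian, inner_zero_right, add_zero,
    hv'S] at hBE
  have hxS : x ≤ S := by
    have := hv'S ▸ Finset.sum_nonneg fun l _ => sq_nonneg ‖v' l‖
    linarith
  have hx0 : 0 ≤ x := by rw [hx]; positivity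
  have hEv : S - x / 2 ≤ ∫ y, maxForm v y ∂gam d := by
    have : k * ‖z i‖ ^ 2 / (2 * n) = x / 2 := by rw [hx]; ring
    linarith
  have h1 := (pow_le_pow_left₀ (by linarith) hEv 2).trans hBE
  rcases eq_or_lt_of_le hxS with h | h
  · rw [h, sub_self, zero_mul] at h1
    nlinarith [functional_nonneg B]
  · exact le_of_mul_le_mul_left (by nlinarith) (sub_pos.2 h)

/-- If some cell has `‖z i‖² ≥ 2 a i²`, one cell fewer does at least as well. -/
theorem exists_fewer_of_two_mul_sq_le (i : ι) [Nonempty {l // l ≠ i}] [Nonempty ι]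
    (hsum : ∑ l, z l = 0) (hneg : ∀ j l, j ≠ l → ⟪z j, z l⟫ < 0)
    (hmom : mom (below z i (Finset.univ.erase i)) = z i)
    (hE : ∑ l, ‖z l‖ ^ 2 ≤ ∫ x, maxForm z x ∂gam d)
    (h2 : 2 * (gam d).real (below z i (Finset.univ.erase i)) ^ 2 ≤ ‖z i‖ ^ 2) :
    ∃ B : {l // l ≠ i} → Set (EuclideanSpace ℝ (Fin d)), IsPart B ∧
      ∑ l, ‖z l‖ ^ 2 ≤ functional B := by
  refine exists_fewer_of_deletion i hsum hE ((deletion_sharp i hsum hneg hmom).trans ?_)
  have hk : 1 < (Fintype.card ι : ℝ) := by
    obtain ⟨⟨l, hl⟩⟩ := (inferInstance : Nonempty {l // l ≠ i})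
    exact_mod_cast Fintype.one_lt_card_iff.2 ⟨l, i, hl⟩
  calc _ ≤ ‖z i‖ ^ 2 / 2 * (Fintype.card ι / (Fintype.card ι - 1)) :=
        mul_le_mul_of_nonneg_right (by linarith) (div_nonneg (by linarith) (by linarith))
    _ = _ := by rw [div_mul_div_comm, mul_comm (‖z i‖ ^ 2)]

end

end Vale.Agent.P226
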