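import Vale.Agent.P226.Residual

/-! The cell of the shortest vector of a large obtuse configuration is negligible. -/

open MeasureTheory Set Filter Real ProbabilityTheory
open scoped Topology RealInnerProductSpace NNReal

namespace Vale.Agent.P226

variable {d : ℕ}

/-- The cell of the shortest vector carries little, if many vectors are nearly orthogonal to it. -/
lemma shortest_cell_le {ι : Type*} [Fintype ι] [DecidableEq ι] {z : ι → EuclideanSpace ℝ (Fin d)}
    {i b : ι} {J C : Finset ι} (hC : C = Finset.univ \ insert i (insert b J)) (hib : i ≠ b)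
    (hiJ : i ∉ J) (hbJ : b ∉ J) (hsum : ∑ l, z l = 0)
    (hneg : ∀ j l, j ≠ l → ⟪z j, z l⟫ ≤ 0) (hne : z i ≠ 0) (hi : ∀ l, ‖z i‖ ≤ ‖z l‖)
    (hJlam : ∀ l ∈ J, -⟪z i, z l⟫ ≤ ‖z i‖ ^ 2 / 16)
    (hres : 1 / 720000 ≤ ‖z b - (Submodule.span ℝ
      (Set.range fun l : {l // l ∈ insert i J} => z l.1)).starProjection (z b)‖ ^ 2)
    (hCcard : 2 + (C.card : ℝ) ≤ 10 ^ 16) (hgood : GoodSize J.card) (hn1 : 1 ≤ J.card) :
    ∫ x, (below z i (Finset.univ.erase i)).indicator (fun x => max ⟪z i, x⟫ 0) x ∂gam d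
      ≤ ‖z i‖ ^ 2 / 6 := by
  set σ := ‖z i‖ with hσ
  have hσ0 : 0 < σ := norm_pos_iff.2 hne
  have hJi : ∀ l ∈ J, l ≠ i := fun l hl c => hiJ (c ▸ hl)
  set n := J.card with hn
  obtain ⟨hg1, hg2, hg3⟩ := hgood
  have hn0 : (0 : ℝ) < n := by exact_mod_cast hn1
  set Js := J.filter (fun l => ‖z l‖ ≤ 4 * σ) with hJs
  set Jb := J.filter (fun l => ¬‖z l‖ ≤ 4 * σ) with hJbig
  -- the residual of the longest vector
  let r : {l // l ∈ insert i J} → EuclideanSpace ℝ (Fin d) := fun l => z l.1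
  set U := Submodule.span ℝ (Set.range r)
  obtain ⟨c, hc⟩ := (Submodule.mem_span_range_iff_exists_fun ℝ).1
    (U.starProjection_apply_mem (z b))
  set u := z b - U.starProjection (z b) with hu
  have horth : ∀ l, ⟪u, r l⟫ = 0 := fun l =>
    U.starProjection_inner_eq_zero (z b) (r l) (Submodule.subset_span ⟨l, rfl⟩)
  have huκ : 1 / 720000 ≤ ‖u‖ ^ 2 := hres
  have hu0 : u ≠ 0 := fun c => by rw [c, norm_zero] at huκ; norm_num at huκ
  -- functions of the coordinates in the span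
  let ip : {l // l ∈ insert i J} := ⟨i, Finset.mem_insert_self i J⟩
  set Nc : ℝ := (C.card : ℝ) + Jb.card with hNc
  set tv := ∑ l ∈ Js, z l with htv
  let Wf : ({l // l ∈ insert i J} → ℝ) → ℝ := fun y => ∑ l, c l * y l
  let Tf : ({l // l ∈ insert i J} → ℝ) → ℝ :=
    fun y => ∑ l ∈ Finset.univ.filter (fun l => l.1 ∈ Js), y l
  let lo : ({l // l ∈ insert i J} → ℝ) → ℝ := fun y => -(1 + Nc) * y ip - Tf y - Wf y
  let hif : ({l // l ∈ insert i J} → ℝ) → ℝ := fun y => y ip - Wf y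
  let w : ({l // l ∈ insert i J} → ℝ) → ℝ :=
    ({y | ∀ l, y l ≤ y ip} : Set ({l // l ∈ insert i J} → ℝ)).indicator fun y => max (y ip) 0
  have hAm : MeasurableSet ({y | ∀ l, y l ≤ y ip} : Set ({l // l ∈ insert i J} → ℝ)) := by
    rw [Set.ofPred_forall]
    exact MeasurableSet.iInter fun l => measurableSet_le (by fun_prop) (by fun_prop)
  have hwm : Measurable w := Measurable.indicator (by fun_prop) hAm
  have hW : ∀ x, Wf (fun l => ⟪r l, x⟫) = ⟪U.starProjection (z b), x⟫ := by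
    intro x; rw [← hc]; simp [Wf, sum_inner, real_inner_smul_left]
  have hT : ∀ x, Tf (fun l => ⟪r l, x⟫) = ⟪tv, x⟫ := by
    intro x
    rw [htv, sum_inner]
    refine Finset.sum_bij (fun l _ => l.1) (fun l hl => (Finset.mem_filter.1 hl).2)
      (fun l _ m _ h => Subtype.ext h) (fun l hl => ?_) (fun l _ => rfl)
    exact ⟨⟨l, Finset.mem_insert_of_mem (Finset.mem_filter.1 hl).1⟩,
      Finset.mem_filter.2 ⟨Finset.mem_univ _, hl⟩, rfl⟩
  have hwx : ∀ x, w (fun l => ⟪r l, x⟫) =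
      (below z i J).indicator (fun x => max ⟪z i, x⟫ 0) x := by
    intro x
    have hiff : (fun l => ⟪r l, x⟫) ∈ ({y | ∀ l, y l ≤ y ip} : Set ({l // l ∈ insert i J} → ℝ))
        ↔ x ∈ below z i J := by
      simp [below, r, ip]
    simp only [w]
    by_cases hx : x ∈ below z i J
    · rw [indicator_of_mem hx, indicator_of_mem (hiff.2 hx)]
    · rw [indicator_of_notMem hx, indicator_of_notMem (fun c => hx (hiff.1 c))]
  set e := σ⁻¹ • z i with he
  have he1 : ‖e‖ = 1 := by rw [he, norm_smul, norm_inv, norm_norm, inv_mul_cancel₀ hσ0.ne']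
  have hGe : ∀ x, ⟪z i, x⟫ = σ * ⟪e, x⟫ := by
    intro x
    rw [he, real_inner_smul_left, ← mul_assoc, mul_inv_cancel₀ hσ0.ne', one_mul]
  set V : ℝ := 16 * σ ^ 2 * n with hV
  set L : ℝ := σ * (n : ℝ) ^ (13 / 20 : ℝ) with hL
  have hV0 : 0 < V := by positivity
  have hL0 : 0 < L := by positivity
  have htvV : ‖tv‖ ^ 2 ≤ V := by
    refine (norm_sq_sum_le_of_obtuse hneg _).trans ?_
    calc ∑ l ∈ Js, ‖z l‖ ^ 2 ≤ ∑ _l ∈ Js, 16 * σ ^ 2 := by
          refine Finset.sum_le_sum fun l hl => ?_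
          have := pow_le_pow_left₀ (norm_nonneg _) (Finset.mem_filter.1 hl).2 2
          linarith
      _ = (Js.card : ℝ) * (16 * σ ^ 2) := by simp
      _ ≤ (n : ℝ) * (16 * σ ^ 2) := by
          gcongr
          exact Finset.card_filter_le _ _
      _ = V := by rw [hV]; ring
  have hmb := measurableSet_below z i J
  obtain ⟨hiT, hTle⟩ := integral_weight_abs_le (L := L) hσ0 he1 hV0 htvV hL0 hmb
  have hwgt : Integrable (fun x => max ⟪e, x⟫ 0 * (1 + max ⟪e, x⟫ 0)) (gam d) := by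
    have h := integrable_weight
    rw [← map_inner_unit he1, integrable_map_measure (by fun_prop) (by fun_prop)] at h
    exact h
  set Wt := (below z i J).indicator (fun x => max ⟪e, x⟫ 0 * (1 + max ⟪e, x⟫ 0)) with hWt
  have hWti : Integrable Wt (gam d) := hwgt.indicator hmb
  have hNc0 : 0 ≤ Nc := by positivity
  -- the pointwise interval bound
  have hlen : ∀ x, (w fun l => ⟪r l, x⟫) *
      max (hif (fun l => ⟪r l, x⟫) - lo fun l => ⟪r l, x⟫) 0 ≤
      (2 + Nc) * σ ^ 2 * Wt x +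
        (below z i J).indicator (fun x => max (σ * ⟪e, x⟫) 0 * |⟪tv, x⟫|) x := by
    intro x
    have hd : hif (fun l => ⟪r l, x⟫) - lo (fun l => ⟪r l, x⟫)
        = (2 + Nc) * ⟪z i, x⟫ + ⟪tv, x⟫ := by
      change (⟪z i, x⟫ - Wf fun l => ⟪r l, x⟫) - (-(1 + Nc) * ⟪z i, x⟫
        - (Tf fun l => ⟪r l, x⟫) - Wf fun l => ⟪r l, x⟫) = _
      rw [hT]; ring
    rw [hwx, hd, hWt]
    by_cases hx : x ∈ below z i J
    · rw [indicator_of_mem hx, indicator_of_mem hx, indicator_of_mem hx, hGe]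
      exact weight_len_le hσ0.le hNc0 _ _
    · rw [indicator_of_notMem hx, indicator_of_notMem hx, indicator_of_notMem hx]
      simp
  have hwi : Integrable (fun x => w fun l => ⟪r l, x⟫) (gam d) := by
    simp only [hwx]
    exact (integrable_inner (z i)).pos_part.indicator hmb
  have hrhs : Integrable (fun x => (2 + Nc) * σ ^ 2 * Wt x +
      (below z i J).indicator (fun x => max (σ * ⟪e, x⟫) 0 * |⟪tv, x⟫|) x) (gam d) :=
    (hWti.const_mul _).add hiT
  have hwnn : ∀ y, 0 ≤ w y := fun y => indicator_nonneg (fun q _ => le_max_right _ _) y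
  have hWm : Measurable Wf := Finset.measurable_sum _ fun l _ => (measurable_pi_apply l).const_mul _
  have hTm : Measurable Tf := Finset.measurable_sum _ fun l _ => measurable_pi_apply l
  have hlom : Measurable lo := (((measurable_pi_apply ip).const_mul _).sub hTm).sub hWm
  have hhim : Measurable hif := (measurable_pi_apply ip).sub hWm
  have hq : Measurable fun x : EuclideanSpace ℝ (Fin d) => fun l => ⟪r l, x⟫ := by fun_prop
  have hbd : Integrable (fun x => (w fun l => ⟪r l, x⟫) *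
      max (hif (fun l => ⟪r l, x⟫) - lo fun l => ⟪r l, x⟫) 0) (gam d) := by
    refine hrhs.mono' ?_ (Eventually.of_forall fun x => ?_)
    · exact Measurable.aestronglyMeasurable
        ((hwm.comp hq).mul (((hhim.comp hq).sub (hlom.comp hq)).max measurable_const))
    · rw [Real.norm_eq_abs, abs_of_nonneg (mul_nonneg (hwnn _) (le_max_right _ _))]
      exact hlen x
  have hmain := integral_interval_le hu0 r horth hwm (lo := lo) (hi := hif) hlom hhim hwnn hwi hbd
  have hevent : ∫ x, (below z i (Finset.univ.erase i)).indicator (fun x => max ⟪z i, x⟫ 0) x ∂gam d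
      ≤ ∫ x, ({x | lo (fun l => ⟪r l, x⟫) ≤ ⟪u, x⟫ ∧ ⟪u, x⟫ ≤ hif fun l => ⟪r l, x⟫} :
        Set (EuclideanSpace ℝ (Fin d))).indicator (fun x => w fun l => ⟪r l, x⟫) x ∂gam d := by
    refine integral_mono ((integrable_inner (z i)).pos_part.indicator (measurableSet_below _ _ _))
      (hwi.indicator ?_) fun x => ?_
    · have hu' : Measurable fun x : EuclideanSpace ℝ (Fin d) => ⟪u, x⟫ := by fun_prop
      exact (measurableSet_le (hlom.comp hq) hu').inter (measurableSet_le hu' (hhim.comp hq))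
    by_cases hx : x ∈ below z i (Finset.univ.erase i)
    · have hle : ∀ l, ⟪z l, x⟫ ≤ ⟪z i, x⟫ := fun l => by
        by_cases h : l = i
        · rw [h]
        · exact hx l (by simp [h])
      have hxJ : x ∈ below z i J := fun l _ => hle l
      have hbx : ⟪u, x⟫ = ⟪z b, x⟫ - ⟪U.starProjection (z b), x⟫ := by rw [hu, inner_sub_left]
      have hxI : x ∈ ({x | lo (fun l => ⟪r l, x⟫) ≤ ⟪u, x⟫ ∧ ⟪u, x⟫ ≤ hif fun l => ⟪r l, x⟫} :
          Set (EuclideanSpace ℝ (Fin d))) := by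
        change -(1 + Nc) * ⟪z i, x⟫ - (Tf fun l => ⟪r l, x⟫) - (Wf fun l => ⟪r l, x⟫) ≤ ⟪u, x⟫ ∧
          ⟪u, x⟫ ≤ ⟪z i, x⟫ - Wf fun l => ⟪r l, x⟫
        rw [hT, hW, hbx]
        refine ⟨?_, by linarith [hle b]⟩
        have hzero : ∑ l, ⟪z l, x⟫ = 0 := by rw [← sum_inner, hsum, inner_zero_left]
        rw [← Finset.sum_sdiff (Finset.subset_univ (insert i (insert b J))), ← hC,
          Finset.sum_insert (by simp [hib, hiJ]), Finset.sum_insert hbJ] at hzero
        have hJsplit : ∑ l ∈ J, ⟪z l, x⟫ = ⟪tv, x⟫ + ∑ l ∈ Jb, ⟪z l, x⟫ := by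
          rw [htv, sum_inner, hJs, hJbig, Finset.sum_filter_add_sum_filter_not]
        have hC' : ∑ l ∈ C, ⟪z l, x⟫ ≤ C.card * ⟪z i, x⟫ := by
          refine (Finset.sum_le_sum fun l _ => hle l).trans ?_; simp
        have hB' : ∑ l ∈ Jb, ⟪z l, x⟫ ≤ Jb.card * ⟪z i, x⟫ := by
          refine (Finset.sum_le_sum fun l _ => hle l).trans ?_; simp
        rw [hNc]
        linarith
      rw [indicator_of_mem hx, indicator_of_mem hxI, hwx, indicator_of_mem hxJ]
    · rw [indicator_of_notMem hx]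
      exact indicator_nonneg (fun y _ => hwnn _) x
  refine hevent.trans (hmain.trans ?_)
  have hu1 : 1 / ‖u‖ ≤ 1000 := by
    rw [div_le_iff₀ (norm_pos_iff.2 hu0)]
    nlinarith [norm_nonneg u]
  have hint : ∫ x, (w fun l => ⟪r l, x⟫) *
      max (hif (fun l => ⟪r l, x⟫) - lo fun l => ⟪r l, x⟫) 0 ∂gam d ≤ σ ^ 2 / 6000 := by
    refine (integral_mono hbd hrhs hlen).trans ?_
    rw [integral_add (hWti.const_mul _) hiT, integral_const_mul]
    set q := ∫ x, Wt x ∂gam d with hq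
    have hq0 : 0 ≤ q := integral_nonneg fun x => indicator_nonneg (fun y _ => by positivity) x
    have hqn : q ≤ decay (11 / 10) n :=
      integral_below_le hneg (hne) hi (Finset.Subset.refl J) hJi hJlam
        (fun l _ => by linarith [hi l]) (by norm_num)
    have hqb : q ≤ decay (11 / 40) Jb.card :=
      integral_below_le hneg (hne) hi (Finset.filter_subset _ J)
        (fun l hl => hJi l (Finset.mem_filter.1 hl).1)
        (fun l hl => hJlam l (Finset.mem_filter.1 hl).1)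
        (fun l hl => by linarith [not_le.1 (Finset.mem_filter.1 hl).2]) (by norm_num)
    set P := (n : ℝ) ^ (13 / 20 : ℝ)
    have hP1 : 1 ≤ P := one_le_rpow (by exact_mod_cast hn1) (by norm_num)
    have hPq : P * q ≤ 1 / 10 ^ 24 :=
      (mul_le_mul_of_nonneg_left hqn (by positivity)).trans hg1
    have hJbq : (Jb.card : ℝ) * q ≤ 2 / 10 ^ 5 := by
      rcases le_or_gt (√(n : ℝ)) (Jb.card : ℝ) with h | h
      · have := (mul_le_mul_of_nonneg_left hqb (Nat.cast_nonneg Jb.card)).trans (hg3 _ h)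
        linarith
      · have hP : √(n : ℝ) ≤ P := by
          rw [sqrt_eq_rpow]
          exact rpow_le_rpow_of_exponent_le (by exact_mod_cast hn1) (by norm_num)
        have : (Jb.card : ℝ) * q ≤ P * q := mul_le_mul_of_nonneg_right (by linarith) hq0
        linarith
    have hCq : (2 + (C.card : ℝ)) * q ≤ 1 / 10 ^ 5 := by
      have h1 : q ≤ 1 / 10 ^ 24 := (le_mul_of_one_le_left hq0 hP1).trans hPq
      calc (2 + (C.card : ℝ)) * q ≤ 10 ^ 16 * (1 / 10 ^ 24) := by gcongr
        _ ≤ _ := by norm_num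
    have hterm : σ * V ^ 3 / L ^ 5 * (1 + 2 * eighth)
        = σ ^ 2 * (4096 * (1 + 2 * eighth) * (n : ℝ) ^ (-(1 / 4) : ℝ)) := by
      have e5 : P ^ 5 = (n : ℝ) ^ (13 / 4 : ℝ) := by
        simp only [P]
        rw [← rpow_natCast _ 5, ← rpow_mul hn0.le]; norm_num
      have e3 : (n : ℝ) ^ 3 = (n : ℝ) ^ (-(1 / 4) : ℝ) * P ^ 5 := by
        rw [e5, ← rpow_natCast (n : ℝ) 3, ← rpow_add hn0]; norm_num
      have hP5 : P ^ 5 ≠ 0 := by positivity
      rw [hV, hL, mul_pow σ P 5, mul_pow (16 * σ ^ 2) (n : ℝ) 3, e3]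
      field_simp
      ring
    calc _ ≤ (2 + Nc) * σ ^ 2 * q + (L * σ * q + σ * V ^ 3 / L ^ 5 * (1 + 2 * eighth)) :=
          add_le_add le_rfl hTle
      _ = σ ^ 2 * ((2 + (C.card : ℝ)) * q + (Jb.card : ℝ) * q + P * q
            + 4096 * (1 + 2 * eighth) * (n : ℝ) ^ (-(1 / 4) : ℝ)) := by
          rw [hterm, hNc, hL]; ring
      _ ≤ σ ^ 2 * (1 / 6000) := by
          refine mul_le_mul_of_nonneg_left ?_ (sq_nonneg σ)
          linarith
      _ = _ := by ring
  calc 1 / ‖u‖ * _ ≤ 1000 * (σ ^ 2 / 6000) :=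
        mul_le_mul hu1 hint (integral_nonneg fun x => mul_nonneg (hwnn _) (le_max_right _ _))
          (by norm_num)
    _ = σ ^ 2 / 6 := by ring

end Vale.Agent.P226
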