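import Vale.Agent.P226.Tools

/-! The two dimensional Gaussian bound for a triangle, and the excess of a shifted three-vector
maximum below a level. -/

open MeasureTheory Set Filter Real ProbabilityTheory
open scoped Topology RealInnerProductSpace NNReal

namespace Vale.Agent.P226

variable {d : ℕ}

/-- The density bound on an interval. -/
lemma gauss_interval_sharp {v : ℝ≥0} (hv : v ≠ 0) (p q : ℝ) :
    (gaussianReal 0 v).real (Icc p q) ≤ max (q - p) 0 * (√(2 * π * v))⁻¹ := by
  rw [measureReal_def, gaussianReal_apply_eq_integral 0 hv, ENNReal.toReal_ofReal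
    (setIntegral_nonneg measurableSet_Icc fun x _ => gaussianPDFReal_nonneg _ _ _)]
  calc ∫ x in Icc p q, gaussianPDFReal 0 v x ≤ ∫ x in Icc p q, (√(2 * π * v))⁻¹ := by
        refine setIntegral_mono_on (integrable_gaussianPDFReal 0 v).integrableOn
          (integrableOn_const (by simp [Real.volume_Icc]) enorm_ne_top) measurableSet_Icc fun x _ => ?_
        rw [gaussianPDFReal]
        refine mul_le_of_le_one_right (by positivity) (exp_le_one_iff.2 ?_)
        exact div_nonpos_of_nonpos_of_nonneg (by nlinarith) (by positivity)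
    _ = _ := by rw [setIntegral_const, Real.volume_real_Icc, smul_eq_mul]

lemma inner_interval_le {w : EuclideanSpace ℝ (Fin d)} (hw : w ≠ 0) (p q : ℝ) :
    (gam d).real {x | p ≤ ⟪w, x⟫ ∧ ⟪w, x⟫ ≤ q} ≤ max (q - p) 0 * (√(2 * π) * ‖w‖)⁻¹ := by
  have hv : (‖w‖ ^ 2).toNNReal ≠ 0 := by
    rw [ne_eq, Real.toNNReal_eq_zero, not_le]; positivity
  have h := gauss_interval_sharp hv p q
  rw [Real.coe_toNNReal _ (sq_nonneg _), Real.sqrt_mul (by positivity),
    Real.sqrt_sq (norm_nonneg w), ← gam_map_inner,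
    map_measureReal_apply (by fun_prop) measurableSet_Icc] at h
  exact h

/-- The area of the triangle against the largest density of the plane projection. -/
theorem gauss_triangle_le {u₁ u₂ : EuclideanSpace ℝ (Fin d)}
    (hD : 0 < ‖u₁‖ ^ 2 * ‖u₂‖ ^ 2 - ⟪u₁, u₂⟫ ^ 2) (A₁ A₂ A₃ : ℝ) :
    (gam d).real {x | ⟪u₁, x⟫ ≤ A₁ ∧ ⟪u₂, x⟫ ≤ A₂ ∧ -(⟪u₁, x⟫ + ⟪u₂, x⟫) ≤ A₃} ≤
      max (A₁ + A₂ + A₃) 0 ^ 2 /
        (4 * π * √(‖u₁‖ ^ 2 * ‖u₂‖ ^ 2 - ⟪u₁, u₂⟫ ^ 2)) := by
  set α := ‖u₁‖ with hα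
  have hα0 : 0 < α := norm_pos_iff.2 fun h => by
    rw [hα, h, norm_zero, inner_zero_left] at hD; norm_num at hD
  set f := α⁻¹ • u₁ with hf
  have hf1 : ‖f‖ = 1 := by rw [hf, norm_smul, norm_inv, norm_norm, inv_mul_cancel₀ hα0.ne']
  set β := ⟪f, u₂⟫ with hβ
  set w := u₂ - β • f with hw
  have hfw : ⟪f, w⟫ = 0 := by
    rw [hw, inner_sub_right, inner_smul_right, real_inner_self_eq_norm_sq, hf1, ← hβ]; ring
  have hu₁ : ∀ x, ⟪u₁, x⟫ = α * ⟪f, x⟫ := fun x => by
    rw [hf, real_inner_smul_left, ← mul_assoc, mul_inv_cancel₀ hα0.ne', one_mul]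
  have hu₂ : ∀ x, ⟪u₂, x⟫ = β * ⟪f, x⟫ + ⟪w, x⟫ := fun x => by
    rw [hw, inner_sub_left, real_inner_smul_left f x β]; ring
  have hdet : (α * ‖w‖) ^ 2 = α ^ 2 * ‖u₂‖ ^ 2 - ⟪u₁, u₂⟫ ^ 2 := by
    rw [hw, mul_pow, norm_sub_sq_real, inner_smul_right, real_inner_comm f u₂, ← hβ, norm_smul,
      mul_pow, hf1, Real.norm_eq_abs, sq_abs, hu₁ u₂, ← hβ]
    ring
  have hw0 : w ≠ 0 := fun h => by
    rw [h, norm_zero, mul_zero] at hdet
    rw [← hdet] at hD
    norm_num at hD
  have hwn : 0 < ‖w‖ := norm_pos_iff.2 hw0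
  have hsq : √(α ^ 2 * ‖u₂‖ ^ 2 - ⟪u₁, u₂⟫ ^ 2) = α * ‖w‖ := by
    rw [← hdet, Real.sqrt_sq (by positivity)]
  rw [hsq]
  set S : Set (ℝ × (Unit → ℝ)) := {p | α * p.1 ≤ A₁ ∧ β * p.1 + p.2 () ≤ A₂ ∧
    -(α * p.1 + (β * p.1 + p.2 ())) ≤ A₃} with hS
  have hSm : MeasurableSet S :=
    (measurableSet_le (f := fun p : ℝ × (Unit → ℝ) => α * p.1) (by fun_prop) measurable_const).inter
      ((measurableSet_le (f := fun p : ℝ × (Unit → ℝ) => β * p.1 + p.2 ()) (by fun_prop)
        measurable_const).inter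
        (measurableSet_le (f := fun p : ℝ × (Unit → ℝ) => -(α * p.1 + (β * p.1 + p.2 ())))
          (by fun_prop) measurable_const))
  have hXm : MeasurableSet {x | ⟪u₁, x⟫ ≤ A₁ ∧ ⟪u₂, x⟫ ≤ A₂ ∧ -(⟪u₁, x⟫ + ⟪u₂, x⟫) ≤ A₃} :=
    (measurableSet_le (f := fun x => ⟪u₁, x⟫) (by fun_prop) measurable_const).inter
      ((measurableSet_le (f := fun x => ⟪u₂, x⟫) (by fun_prop) measurable_const).inter
        (measurableSet_le (f := fun x => -(⟪u₁, x⟫ + ⟪u₂, x⟫)) (by fun_prop) measurable_const))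
  have hfx : (fun x => S.indicator (1 : ℝ × (Unit → ℝ) → ℝ) (⟪f, x⟫, fun _ => ⟪w, x⟫)) =
      ({x | ⟪u₁, x⟫ ≤ A₁ ∧ ⟪u₂, x⟫ ≤ A₂ ∧ -(⟪u₁, x⟫ + ⟪u₂, x⟫) ≤ A₃} :
        Set (EuclideanSpace ℝ (Fin d))).indicator 1 := by
    funext x
    simp only [indicator, hS, Set.mem_ofPred_eq, hu₁, hu₂, Pi.one_apply]
  have hint : Integrable (fun x => S.indicator (1 : ℝ × (Unit → ℝ) → ℝ)
      (⟪f, x⟫, fun _ => ⟪w, x⟫)) (gam d) := by
    rw [hfx]; exact integrable_indicator_one hXm
  have hmain := (integral_indep f (fun _ : Unit => w) (fun _ => hfw)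
    (measurable_one.indicator hSm) hint).1
  rw [hfx, integral_indicator_one hXm, hf1, one_pow, Real.toNNReal_one] at hmain
  rw [hmain, integral_gaussianReal_eq_integral_smul one_ne_zero]
  set L := -(A₂ + A₃) with hL
  set M := (2 * π * ‖w‖)⁻¹ with hM
  set g : ℝ → ℝ := (Icc (L / α) (A₁ / α)).indicator (fun s => M * (α * s - L)) with hg
  have hgi : Integrable g :=
    (Continuous.integrableOn_Icc (by fun_prop)).integrable_indicator measurableSet_Icc
  refine le_trans (integral_mono_of_nonneg (Eventually.of_forall fun s => ?_) hgi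
    (Eventually.of_forall fun s => ?_)) ?_
  · exact smul_nonneg (gaussianPDFReal_nonneg _ _ _)
      (integral_nonneg fun x => indicator_nonneg (fun _ _ => zero_le_one) _)
  · simp only [smul_eq_mul]
    by_cases hs : α * s ≤ A₁
    · have hpt : ∫ x, S.indicator (1 : ℝ × (Unit → ℝ) → ℝ) (s, fun _ => ⟪w, x⟫) ∂gam d ≤
          max (α * s - L) 0 * (√(2 * π) * ‖w‖)⁻¹ := by
        refine le_of_eq_of_le ?_ ((inner_interval_le hw0 (-A₃ - α * s - β * s) (A₂ - β * s)).trans
          (le_of_eq (by rw [hL]; ring_nf)))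
        have hm : MeasurableSet {x : EuclideanSpace ℝ (Fin d) |
            -A₃ - α * s - β * s ≤ ⟪w, x⟫ ∧ ⟪w, x⟫ ≤ A₂ - β * s} :=
          (measurableSet_le (g := fun x => ⟪w, x⟫) measurable_const (by fun_prop)).inter
            (measurableSet_le (f := fun x => ⟪w, x⟫) (by fun_prop) measurable_const)
        rw [← integral_indicator_one hm]
        refine integral_congr_ae (Eventually.of_forall fun x => ?_)
        simp only [indicator, hS, Set.mem_ofPred_eq, hs, true_and, Pi.one_apply]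
        congr 1
        simp only [eq_iff_iff]
        constructor <;> rintro ⟨h1, h2⟩ <;> constructor <;> linarith
      have hpdf : gaussianPDFReal 0 1 s ≤ (√(2 * π))⁻¹ := by
        rw [gaussianPDFReal, NNReal.coe_one, mul_one, mul_one]
        exact mul_le_of_le_one_right (by positivity) (exp_le_one_iff.2 (by nlinarith))
      refine (mul_le_mul hpdf hpt (integral_nonneg fun x => indicator_nonneg
        (fun _ _ => zero_le_one) _) (by positivity)).trans ?_
      by_cases hs' : L / α ≤ s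
      · rw [hg, indicator_of_mem (show s ∈ Icc (L / α) (A₁ / α) from
          ⟨hs', (le_div_iff₀ hα0).2 (by linarith)⟩)]
        rw [max_eq_left (by rw [div_le_iff₀ hα0] at hs'; linarith), hM]
        refine le_of_eq ?_
        have h2 : √(2 * π) * √(2 * π) = 2 * π := Real.mul_self_sqrt (by positivity)
        field_simp
        rw [sq, h2]
      · rw [hg, indicator_of_notMem (fun h => hs' h.1),
          max_eq_right (by rw [not_le, lt_div_iff₀ hα0] at hs'; linarith)]
        simp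
    · have h0 : ∀ x : EuclideanSpace ℝ (Fin d),
          S.indicator (1 : ℝ × (Unit → ℝ) → ℝ) (s, fun _ => ⟪w, x⟫) = 0 :=
        fun x => indicator_of_notMem (fun h => hs h.1) _
      simp only [h0, integral_zero, mul_zero, hg]
      by_cases hmem : s ∈ Icc (L / α) (A₁ / α)
      · rw [indicator_of_mem hmem]
        have := (div_le_iff₀ hα0).1 hmem.1
        exact mul_nonneg (by positivity) (by linarith)
      · rw [indicator_of_notMem hmem]
  · rw [hg, integral_indicator measurableSet_Icc]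
    rcases le_or_gt L A₁ with h | h
    · have h' : L / α ≤ A₁ / α := div_le_div_of_nonneg_right h hα0.le
      rw [integral_Icc_eq_integral_Ioc, ← intervalIntegral.integral_of_le h',
        intervalIntegral.integral_const_mul, intervalIntegral.integral_sub
          (Continuous.intervalIntegrable (by fun_prop) _ _) intervalIntegrable_const,
        intervalIntegral.integral_const_mul, integral_id, intervalIntegral.integral_const,
        smul_eq_mul, max_eq_left (by rw [hL] at h; linarith), hM, hL]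
      refine le_of_eq ?_
      field_simp
      ring
    · rw [Icc_eq_empty (by rw [not_le]; exact div_lt_div_of_pos_right h hα0)]
      simp only [setIntegral_empty]
      positivity

/-- The expected excess of a level over the maximum of three forms of sum zero. -/
theorem triangle_excess_le {u₁ u₂ : EuclideanSpace ℝ (Fin d)}
    (hD : 0 < ‖u₁‖ ^ 2 * ‖u₂‖ ^ 2 - ⟪u₁, u₂⟫ ^ 2) (b₁ b₂ h : ℝ) (hh : 0 ≤ h) :
    ∫ x, max (h - max (max (b₁ + ⟪u₁, x⟫) (b₂ + ⟪u₂, x⟫))
      (-(b₁ + ⟪u₁, x⟫ + (b₂ + ⟪u₂, x⟫)))) 0 ∂gam d ≤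
      3 * h ^ 3 / (4 * π * √(‖u₁‖ ^ 2 * ‖u₂‖ ^ 2 - ⟪u₁, u₂⟫ ^ 2)) := by
  set q := √(‖u₁‖ ^ 2 * ‖u₂‖ ^ 2 - ⟪u₁, u₂⟫ ^ 2) with hq
  set M : EuclideanSpace ℝ (Fin d) → ℝ := fun x => max (max (b₁ + ⟪u₁, x⟫) (b₂ + ⟪u₂, x⟫))
      (-(b₁ + ⟪u₁, x⟫ + (b₂ + ⟪u₂, x⟫))) with hM
  have hM0 : ∀ x, 0 ≤ M x := fun x => by
    simp only [hM, le_max_iff]
    by_contra hc
    rw [not_or, not_or, not_le, not_le, not_le] at hc
    linarith [hc.1.1, hc.1.2, hc.2]
  set f : EuclideanSpace ℝ (Fin d) → ℝ := fun x => max (h - M x) 0 with hf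
  change ∫ x, f x ∂gam d ≤ _
  have hfi : Integrable f (gam d) := by
    refine (integrable_const h).mono' (Continuous.aestronglyMeasurable (by fun_prop))
      (Eventually.of_forall fun x => ?_)
    rw [Real.norm_eq_abs, abs_of_nonneg (le_max_right _ _)]
    exact max_le (by linarith [hM0 x]) hh
  rw [hfi.integral_eq_integral_meas_le (Eventually.of_forall fun x => le_max_right _ _)]
  set g : ℝ → ℝ := (Ioc 0 h).indicator fun t => 9 * (h - t) ^ 2 / (4 * π * q) with hg
  have hgi : Integrable g :=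
    ((Continuous.integrableOn_Icc (by fun_prop)).mono_set Ioc_subset_Icc_self).integrable_indicator
      measurableSet_Ioc
  calc ∫ t in Ioi 0, (gam d).real {x | t ≤ f x} ≤ ∫ t in Ioi 0, g t := by
        refine integral_mono_of_nonneg (Eventually.of_forall fun t => measureReal_nonneg)
          hgi.integrableOn ?_
        refine (ae_restrict_iff' measurableSet_Ioi).2 (Eventually.of_forall fun t ht => ?_)
        have ht' : 0 < t := ht
        have h1 : (gam d).real {x | t ≤ f x} ≤ max (h - t - b₁ + (h - t - b₂) + (h - t + b₁ + b₂)) 0 ^ 2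
            / (4 * π * q) := by
          refine le_trans (measureReal_mono fun x hx => ?_) (gauss_triangle_le hD _ _ _)
          have hx' : t ≤ max (h - M x) 0 := hx
          rw [le_max_iff, or_iff_left (not_le.2 ht')] at hx'
          simp only [hM] at hx'
          refine ⟨?_, ?_, ?_⟩ <;>
            linarith [le_max_left (max (b₁ + ⟪u₁, x⟫) (b₂ + ⟪u₂, x⟫))
              (-(b₁ + ⟪u₁, x⟫ + (b₂ + ⟪u₂, x⟫))), le_max_right (max (b₁ + ⟪u₁, x⟫) (b₂ + ⟪u₂, x⟫))
              (-(b₁ + ⟪u₁, x⟫ + (b₂ + ⟪u₂, x⟫))), le_max_left (b₁ + ⟪u₁, x⟫) (b₂ + ⟪u₂, x⟫),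
              le_max_right (b₁ + ⟪u₁, x⟫) (b₂ + ⟪u₂, x⟫)]
        refine h1.trans ?_
        rw [show h - t - b₁ + (h - t - b₂) + (h - t + b₁ + b₂) = 3 * (h - t) by ring]
        by_cases hth : t ≤ h
        · rw [hg, indicator_of_mem (show t ∈ Ioc 0 h from ⟨ht', hth⟩), max_eq_left (by linarith)]
          exact le_of_eq (by ring)
        · rw [hg, indicator_of_notMem (fun c => hth c.2), max_eq_right (by linarith)]
          simp
    _ = 3 * h ^ 3 / (4 * π * q) := by
        rw [hg, setIntegral_indicator measurableSet_Ioc, inter_eq_self_of_subset_right Ioc_subset_Ioi_self,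
          ← intervalIntegral.integral_of_le hh]
        rw [intervalIntegral.integral_div, intervalIntegral.integral_const_mul,
          intervalIntegral.integral_comp_sub_left (fun t => t ^ 2) h, integral_pow]
        simp only [sub_self, sub_zero]
        ring

end Vale.Agent.P226
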