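import Vale.Agent.P226.Sharp
import Vale.Agent.P226.SmallTri
import Vale.Agent.P226.Numeric

/-! A small cell of a balanced obtuse fixed point can be deleted: if it cannot, its measure
dominates the area of the triangle of three other projected vectors. -/

open MeasureTheory Set Filter Real ProbabilityTheory
open scoped Topology RealInnerProductSpace NNReal

namespace Vale.Agent.P226

variable {d : ℕ}

lemma integrable_pow_gauss (n : ℕ) : Integrable (fun s : ℝ => s ^ n) (gaussianReal 0 1) := by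
  refine ⟨(continuous_pow n).aestronglyMeasurable, ?_⟩
  rcases Nat.eq_zero_or_pos n with rfl | hn
  · simpa using (integrable_const (μ := gaussianReal 0 1) (1 : ℝ)).2
  · have h := (memLp_id_gaussianReal' (μ := 0) (v := 1) (n : ℕ) (by simp)).integrable_norm_pow'
    exact (h.congr' (continuous_pow n).aestronglyMeasurable
      (Eventually.of_forall fun s => by simp [norm_pow])).2

lemma integral_pow_phi_Ioi (n : ℕ) :
    ∫ x in Ioi (0 : ℝ), x ^ n * phi x =
      (√(2 * π))⁻¹ * ((1 / 2 : ℝ) ^ (-((n : ℝ) + 1) / 2) * (1 / 2) * Real.Gamma (((n : ℝ) + 1) / 2)) := by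
  have h := integral_rpow_mul_exp_neg_mul_rpow (p := 2) (q := (n : ℝ)) (b := 1 / 2)
    (by norm_num) (lt_of_lt_of_le (by norm_num) (Nat.cast_nonneg n)) (by norm_num)
  rw [← h, ← integral_const_mul]
  refine setIntegral_congr_fun measurableSet_Ioi fun x hx => ?_
  simp only [Real.rpow_natCast, Real.rpow_two, phi_eq]
  rw [show -(x ^ 2) / 2 = -(1 / 2) * x ^ 2 by ring]
  ring

lemma integral_sq_phi_Ioi : ∫ x in Ioi (0 : ℝ), x ^ 2 * phi x = 1 / 2 := by
  rw [integral_pow_phi_Ioi]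
  norm_num
  rw [show (3 : ℝ) / 2 = 1 / 2 + 1 by norm_num, Real.Gamma_add_one (by norm_num),
    Real.Gamma_one_half_eq, show -((1 : ℝ) / 2 + 1) = -1 + -(1 / 2) by norm_num,
    Real.rpow_add (by norm_num), Real.rpow_neg_one, Real.rpow_neg (by norm_num),
    ← Real.sqrt_eq_rpow, Real.sqrt_div' 1 (by norm_num : (0:ℝ) ≤ 2), Real.sqrt_one]
  field_simp

lemma integral_cube_phi_Ioi : ∫ x in Ioi (0 : ℝ), x ^ 3 * phi x = 2 * (√(2 * π))⁻¹ := by
  rw [integral_pow_phi_Ioi]
  norm_num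
  ring

lemma integral_cubic_gauss_le {κ : ℝ} (hκ : 0 ≤ κ) :
    Integrable (fun s => (Ici (0:ℝ)).indicator (fun s => (1 + κ * s) ^ 3) s) (gaussianReal 0 1) ∧
    ∫ s, (Ici (0:ℝ)).indicator (fun s => (1 + κ * s) ^ 3) s ∂gaussianReal 0 1 ≤
      1 / 2 + 3 * κ * (398943 / 1000000) + 3 * κ ^ 2 / 2 + 2 * κ ^ 3 * (398943 / 1000000) := by
  have e : (fun s : ℝ => (1 + κ * s) ^ 3) =
      fun s => 1 * s ^ 0 + 3 * κ * s ^ 1 + 3 * κ ^ 2 * s ^ 2 + κ ^ 3 * s ^ 3 := by
    funext s; ring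
  have hi : Integrable (fun s : ℝ => (1 + κ * s) ^ 3) (gaussianReal 0 1) := by
    rw [e]
    exact ((((integrable_pow_gauss 0).const_mul _).add ((integrable_pow_gauss 1).const_mul _)).add
      ((integrable_pow_gauss 2).const_mul _)).add ((integrable_pow_gauss 3).const_mul _)
  refine ⟨hi.indicator measurableSet_Ici, ?_⟩
  have hp : ∀ n : ℕ, IntegrableOn (fun x => x ^ n * phi x) (Ioi (0:ℝ)) := by
    intro n
    have h := (integrableOn_rpow_mul_exp_neg_mul_sq (b := 1 / 2) (by norm_num)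
      (s := (n : ℝ)) (lt_of_lt_of_le (by norm_num) (Nat.cast_nonneg n))).const_mul (√(2 * π))⁻¹
    refine IntegrableOn.congr_fun h (fun x hx => ?_) measurableSet_Ioi
    simp only [Real.rpow_natCast, phi_eq]
    rw [show -(x ^ 2) / 2 = -(1 / 2) * x ^ 2 by ring]
    ring
  rw [integral_gaussianReal_eq_integral_smul one_ne_zero]
  have e2 : (fun s => gaussianPDFReal 0 1 s • (Ici (0:ℝ)).indicator (fun s => (1 + κ * s) ^ 3) s) =
      (Ici (0:ℝ)).indicator (fun s => 1 * (s ^ 0 * phi s) + 3 * κ * (s ^ 1 * phi s)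
        + 3 * κ ^ 2 * (s ^ 2 * phi s) + κ ^ 3 * (s ^ 3 * phi s)) := by
    funext s
    by_cases hs : s ∈ Ici (0:ℝ)
    · rw [indicator_of_mem hs, indicator_of_mem hs, smul_eq_mul]
      simp only [phi]; ring
    · rw [indicator_of_notMem hs, indicator_of_notMem hs, smul_zero]
  have h0 : ∫ x in Ioi (0:ℝ), x ^ 0 * phi x = 1 / 2 := by
    simpa using integral_phi_Ioi_zero
  have h1 : ∫ x in Ioi (0:ℝ), x ^ 1 * phi x = (√(2 * π))⁻¹ := by
    simpa [phi_eq] using integral_mul_phi_Ioi 0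
  have i0 := (hp 0).const_mul (1 : ℝ)
  have i1 := (hp 1).const_mul (3 * κ)
  have i2 := (hp 2).const_mul (3 * κ ^ 2)
  have i3 := (hp 3).const_mul (κ ^ 3)
  have i01 : Integrable (fun x => 1 * (x ^ 0 * phi x) + 3 * κ * (x ^ 1 * phi x))
      (volume.restrict (Ioi 0)) := i0.add i1
  have i012 : Integrable (fun x => 1 * (x ^ 0 * phi x) + 3 * κ * (x ^ 1 * phi x)
      + 3 * κ ^ 2 * (x ^ 2 * phi x)) (volume.restrict (Ioi 0)) := i01.add i2
  rw [e2, integral_indicator measurableSet_Ici, integral_Ici_eq_integral_Ioi,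
    integral_add i012 i3, integral_add i01 i2, integral_add i0 i1,
    integral_const_mul, integral_const_mul, integral_const_mul, integral_const_mul, h0, h1,
    integral_sq_phi_Ioi, integral_cube_phi_Ioi]
  have hinv : (√(2 * π))⁻¹ ≤ 398943 / 1000000 :=
    (inv_anti₀ (by norm_num) sqrt_two_pi_lower).trans (by norm_num)
  have := mul_le_mul_of_nonneg_left hinv (show 0 ≤ 3 * κ by positivity)
  have := mul_le_mul_of_nonneg_left hinv (show 0 ≤ 2 * κ ^ 3 by positivity)
  linarith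

/-- The closing arithmetic. -/
lemma small_cell_arith {a σ η B I : ℝ} (ha0 : 0 < a) (hσ0 : 0 < σ) (hη0 : 2 / 3 ≤ η)
    (hBa : B * a * (2 * η) ^ 2 ≤ 5372 / 10000) (hup : σ ^ 2 < 2 * a ^ 2) (hI : I < η * σ ^ 2)
    (hlow : ∀ ρ κ : ℝ, 0 ≤ ρ → 0 ≤ κ → ρ * (a + κ * σ) - B * ρ ^ 3 *
      (1 / 2 + 3 * κ * (398943 / 1000000) + 3 * κ ^ 2 / 2 + 2 * κ ^ 3 * (398943 / 1000000)) ≤ I) :
    False := by
  rcases le_or_gt σ a with hcase | hcase
  · have h := hlow (3 / 2 * η * a) 0 (by positivity) le_rfl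
    have h1 : B * (3 / 2 * η * a) ^ 3 * (1 / 2) = (27 / 64 * η) * a ^ 2 * (B * a * (2 * η) ^ 2) := by
      ring
    have h2 : (27 / 64 * η) * a ^ 2 * (B * a * (2 * η) ^ 2) ≤ (27 / 64 * η) * a ^ 2 * (5372 / 10000) :=
      mul_le_mul_of_nonneg_left hBa (by positivity)
    have h3 : η * σ ^ 2 ≤ η * a ^ 2 :=
      mul_le_mul_of_nonneg_left (pow_le_pow_left₀ hσ0.le hcase 2) (by linarith)
    have h4 : 0 ≤ η * a ^ 2 := by positivity
    linarith
  · have h := hlow (300 / 477 * η * a) (8 / 3) (by positivity) (by norm_num)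
    set T : ℝ := 1 / 2 + 3 * (8 / 3) * (398943 / 1000000) + 3 * (8 / 3) ^ 2 / 2 +
      2 * (8 / 3) ^ 3 * (398943 / 1000000) with hT
    have h1 : B * (300 / 477 * η * a) ^ 3 * T =
        ((300 / 477) ^ 3 * T / 4) * (η * a ^ 2) * (B * a * (2 * η) ^ 2) := by
      ring
    have h2 : ((300 / 477) ^ 3 * T / 4) * (η * a ^ 2) * (B * a * (2 * η) ^ 2) ≤
        ((300 / 477) ^ 3 * T / 4) * (η * a ^ 2) * (5372 / 10000) :=
      mul_le_mul_of_nonneg_left hBa (by positivity)
    have hT' : (300 / 477) ^ 3 * T / 4 * (5372 / 10000) ≤ 986 / 1000 := by rw [hT]; norm_num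
    have h3 := mul_le_mul_of_nonneg_right hT' (show (0:ℝ) ≤ η * a ^ 2 by positivity)
    -- endpoints
    set r := √(2 : ℝ) with hr
    have hr2 : r ^ 2 = 2 := Real.sq_sqrt (by norm_num)
    have hr1 : r ≤ 14143 / 10000 := (Real.sqrt_le_left (by norm_num)).2 (by norm_num)
    have hr3 : 14142 / 10000 ≤ r := Real.le_sqrt_of_sq_le (by norm_num)
    have hσr : σ ≤ r * a := by
      rw [← sq_le_sq₀ hσ0.le (by positivity), mul_pow, hr2]; exact hup.le
    have hkey : a ^ 2 * (986 / 1000) + σ ^ 2 ≤ 300 / 477 * a * (a + 8 / 3 * σ) := by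
      have hp : 0 ≤ (σ - a) * (r * a - σ) := mul_nonneg (by linarith) (by linarith)
      nlinarith [mul_nonneg (mul_nonneg ha0.le hσ0.le) (sub_nonneg.2 hr1),
        mul_nonneg (sq_nonneg a) (sub_nonneg.2 hr3), mul_le_mul_of_nonneg_left hσr ha0.le]
    have h5 := mul_le_mul_of_nonneg_left hkey (show (0:ℝ) ≤ η by linarith)
    linarith


section

variable {ι : Type*} [Fintype ι] [DecidableEq ι]

/-- Bathtub bound for the centred maximum of three forms on a set in a half space. -/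
lemma three_max_bathtub {q₁ q₂ e : EuclideanSpace ℝ (Fin d)} (he : ‖e‖ = 1)
    (hD : 0 < ‖q₁ - ⟪e, q₁⟫ • e‖ ^ 2 * ‖q₂ - ⟪e, q₂⟫ • e‖ ^ 2 -
      ⟪q₁ - ⟪e, q₁⟫ • e, q₂ - ⟪e, q₂⟫ • e⟫ ^ 2)
    {C : Set (EuclideanSpace ℝ (Fin d))} (hC : MeasurableSet C) (hCe : ∀ x ∈ C, 0 ≤ ⟪e, x⟫)
    {ρ κ : ℝ} (hρ : 0 ≤ ρ) (hκ : 0 ≤ κ) :
    ρ * ((gam d).real C + κ * ⟪e, mom C⟫) -
      3 * ρ ^ 3 * (1 / 2 + 3 * κ * (398943 / 1000000) + 3 * κ ^ 2 / 2 +
        2 * κ ^ 3 * (398943 / 1000000)) /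
        (4 * π * √(‖q₁ - ⟪e, q₁⟫ • e‖ ^ 2 * ‖q₂ - ⟪e, q₂⟫ • e‖ ^ 2 -
          ⟪q₁ - ⟪e, q₁⟫ • e, q₂ - ⟪e, q₂⟫ • e⟫ ^ 2)) ≤
      ∫ x in C, max (max ⟪q₁, x⟫ ⟪q₂, x⟫) (-(⟪q₁, x⟫ + ⟪q₂, x⟫)) ∂gam d := by
  set u₁ := q₁ - ⟪e, q₁⟫ • e with hu₁
  set u₂ := q₂ - ⟪e, q₂⟫ • e with hu₂
  set q := √(‖u₁‖ ^ 2 * ‖u₂‖ ^ 2 - ⟪u₁, u₂⟫ ^ 2) with hq
  set b₁ := ⟪e, q₁⟫
  set b₂ := ⟪e, q₂⟫
  have horth : ∀ l : Fin 2, ⟪e, ![u₁, u₂] l⟫ = 0 := by
    intro l
    fin_cases l <;>
      simp [hu₁, hu₂, b₁, b₂, inner_sub_right, inner_smul_right, he]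
  have hq₁ : ∀ x, ⟪q₁, x⟫ = b₁ * ⟪e, x⟫ + ⟪u₁, x⟫ := fun x => by
    rw [hu₁, inner_sub_left, real_inner_smul_left e x b₁]; ring
  have hq₂ : ∀ x, ⟪q₂, x⟫ = b₂ * ⟪e, x⟫ + ⟪u₂, x⟫ := fun x => by
    rw [hu₂, inner_sub_left, real_inner_smul_left e x b₂]; ring
  set W : EuclideanSpace ℝ (Fin d) → ℝ :=
    fun x => max (max ⟪q₁, x⟫ ⟪q₂, x⟫) (-(⟪q₁, x⟫ + ⟪q₂, x⟫)) with hW
  set h : EuclideanSpace ℝ (Fin d) → ℝ := fun x => ρ * (1 + κ * ⟪e, x⟫) with hh
  set f : ℝ × (Fin 2 → ℝ) → ℝ := fun p => ({p | 0 ≤ p.1} : Set (ℝ × (Fin 2 → ℝ))).indicator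
    (fun p => max (ρ * (1 + κ * p.1) - max (max (b₁ * p.1 + p.2 0) (b₂ * p.1 + p.2 1))
      (-(b₁ * p.1 + p.2 0 + (b₂ * p.1 + p.2 1)))) 0) p with hf
  set F := fun x : EuclideanSpace ℝ (Fin d) => f (⟪e, x⟫, fun l => ⟪![u₁, u₂] l, x⟫) with hF
  have hfm : Measurable f :=
    Measurable.indicator (by fun_prop) (measurableSet_le measurable_const measurable_fst)
  have hFx : ∀ x, F x = ({x | 0 ≤ ⟪e, x⟫} : Set (EuclideanSpace ℝ (Fin d))).indicator
      (fun x => max (h x - W x) 0) x := by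
    intro x
    simp [hF, hf, indicator, hh, hW, hq₁, hq₂]
  have hHi : Integrable (fun x => |ρ| * (1 + |κ| * |⟪e, x⟫|)) (gam d) :=
    ((integrable_const 1).add ((integrable_inner e).abs.const_mul _)).const_mul _
  have hW0 : ∀ x, 0 ≤ W x := fun x => by
    simp only [hW, le_max_iff]
    by_contra hc
    rw [not_or, not_or, not_le, not_le, not_le] at hc
    linarith [hc.1.1, hc.1.2, hc.2]
  have hFi : Integrable F (gam d) := by
    refine hHi.mono' (hfm.comp (by fun_prop)).aestronglyMeasurable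
      (Eventually.of_forall fun x => ?_)
    rw [hFx]
    by_cases hx : 0 ≤ ⟪e, x⟫
    · rw [indicator_of_mem (show x ∈ {x | 0 ≤ ⟪e, x⟫} from hx), Real.norm_eq_abs,
        abs_of_nonneg (le_max_right _ _), abs_of_nonneg hρ, abs_of_nonneg hκ, abs_of_nonneg hx]
      exact max_le (by simp only [hh]; linarith [hW0 x]) (by positivity)
    · rw [indicator_of_notMem (show x ∉ {x | 0 ≤ ⟪e, x⟫} from hx), norm_zero]
      positivity
  obtain ⟨hcub, hN⟩ := integral_cubic_gauss_le hκ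
  have hmain : ∫ x, F x ∂gam d ≤
      3 * ρ ^ 3 * (1 / 2 + 3 * κ * (398943 / 1000000) + 3 * κ ^ 2 / 2 +
        2 * κ ^ 3 * (398943 / 1000000)) / (4 * π * q) := by
    rw [hF, (integral_indep e ![u₁, u₂] horth hfm hFi).1, he, one_pow, Real.toNNReal_one]
    calc ∫ s, ∫ x, f (s, fun l => ⟪![u₁, u₂] l, x⟫) ∂gam d ∂gaussianReal 0 1
        ≤ ∫ s, 3 * ρ ^ 3 / (4 * π * q) * (Ici (0:ℝ)).indicator (fun s => (1 + κ * s) ^ 3) s
            ∂gaussianReal 0 1 := by
          refine integral_mono_of_nonneg (Eventually.of_forall fun s => integral_nonneg fun x => ?_)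
            (hcub.const_mul _) (Eventually.of_forall fun s => ?_)
          · simp only [hf]
            exact indicator_nonneg (fun _ _ => le_max_right _ _) _
          · dsimp only
            by_cases hs : 0 ≤ s
            · rw [indicator_of_mem (show s ∈ Ici (0:ℝ) from hs)]
              refine le_trans (le_of_eq (integral_congr_ae (Eventually.of_forall fun x => ?_)))
                ((triangle_excess_le hD (b₁ * s) (b₂ * s) (ρ * (1 + κ * s)) (by positivity)).trans
                  (le_of_eq (by ring)))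
              simp [hf, indicator, hs]
            · rw [indicator_of_notMem (show s ∉ Ici (0:ℝ) from hs), mul_zero]
              simp [hf, indicator, hs]
      _ ≤ _ := by
          rw [integral_const_mul]
          refine (mul_le_mul_of_nonneg_left hN (by positivity)).trans (le_of_eq ?_)
          ring
  have hWi : Integrable W (gam d) :=
    ((integrable_inner q₁).sup (integrable_inner q₂)).sup
      ((integrable_inner q₁).add (integrable_inner q₂)).neg
  have hhi : Integrable h (gam d) :=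
    ((integrable_const 1).add ((integrable_inner e).const_mul κ)).const_mul ρ
  have hsub : ∫ x in C, (h x - W x) ∂gam d ≤ ∫ x, F x ∂gam d := by
    refine le_trans (setIntegral_mono_on (hhi.sub hWi).integrableOn hFi.integrableOn hC
      fun x hx => ?_) (setIntegral_le_integral hFi (Eventually.of_forall fun x => ?_))
    · rw [hFx, indicator_of_mem (show x ∈ {x | 0 ≤ ⟪e, x⟫} from hCe x hx)]
      exact le_max_left _ _
    · rw [hFx]
      exact indicator_nonneg (fun _ _ => le_max_right _ _) _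
  rw [integral_sub hhi.integrableOn hWi.integrableOn] at hsub
  have hhC : ∫ x in C, h x ∂gam d = ρ * ((gam d).real C + κ * ⟪e, mom C⟫) := by
    rw [hh, integral_const_mul, integral_add (integrable_const _).integrableOn
      ((integrable_inner e).const_mul κ).integrableOn, integral_const_mul, setIntegral_inner_eq,
      setIntegral_const, smul_eq_mul, mul_one]
  rw [hhC] at hsub
  linarith

variable {z : ι → EuclideanSpace ℝ (Fin d)}

/-- The component of `v` orthogonal to `w`. -/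
noncomputable def perp (w v : EuclideanSpace ℝ (Fin d)) : EuclideanSpace ℝ (Fin d) :=
  v - (⟪w, v⟫ / ‖w‖ ^ 2) • w

/-- The squared area of the parallelogram spanned by two vectors. -/
noncomputable def gramDet (A B : EuclideanSpace ℝ (Fin d)) : ℝ :=
  ‖A‖ ^ 2 * ‖B‖ ^ 2 - ⟪A, B⟫ ^ 2

/-- If deleting cell `i` is not cheap, its measure is large against the triangle of the
projections of any three other vectors. -/
theorem small_cell (i j₁ j₂ j₃ : ι) [Nonempty {l // l ≠ i}] [Nonempty ι]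
    (h12 : j₁ ≠ j₂) (h13 : j₁ ≠ j₃) (h23 : j₂ ≠ j₃) (h1 : j₁ ≠ i) (h2 : j₂ ≠ i) (h3 : j₃ ≠ i)
    (hsum : ∑ l, z l = 0) (hneg : ∀ j l, j ≠ l → ⟪z j, z l⟫ < 0)
    (hmom : mom (below z i (Finset.univ.erase i)) = z i)
    (hfail : Fintype.card ι * ‖z i‖ ^ 2 / (2 * (Fintype.card ι - 1)) <
      ∫ x, maxForm z x ∂gam d - ∫ x, maxForm (fun l : {l // l ≠ i} => z l.1) x ∂gam d) :
    3 / 4 * √(gramDet (perp (z i) (z j₁) - perp (z i) (z j₃))
        (perp (z i) (z j₂) - perp (z i) (z j₃))) <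
      (gam d).real (below z i (Finset.univ.erase i)) *
        (5 / 3 - 1 / ((Fintype.card ι : ℝ) - 1)) ^ 2 := by
  set C := below z i (Finset.univ.erase i) with hC
  set a := (gam d).real C with ha
  set k := (Fintype.card ι : ℝ) with hk
  set s := ‖z i‖ ^ 2 with hs
  set σ := ‖z i‖ with hσ
  have hcard : 4 ≤ Fintype.card ι := by
    have hsub : ({i, j₁, j₂, j₃} : Finset ι).card ≤ Fintype.card ι := Finset.card_le_univ _
    rwa [Finset.card_insert_of_notMem (by simp [h1.symm, h2.symm, h3.symm]),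
      Finset.card_insert_of_notMem (by simp [h12, h13]),
      Finset.card_insert_of_notMem (by simp [h23]), Finset.card_singleton] at hsub
  have hk4 : (4 : ℝ) ≤ k := by rw [hk]; exact_mod_cast hcard
  have hz0 : z i ≠ 0 := fun h => by
    have := hneg i j₁ h1.symm
    rw [h, inner_zero_left] at this
    exact lt_irrefl _ this
  have hσ0 : 0 < σ := norm_pos_iff.2 hz0
  have ha0 : 0 < a := by
    refine measureReal_nonneg.lt_of_ne' fun h => hz0 ?_
    rw [← hmom, mom, Measure.restrict_eq_zero.2, integral_zero_measure]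
    rwa [measureReal_eq_zero_iff] at h
  set η := (5 / 3 - 1 / (k - 1)) / 2 with hη
  have hinv : 1 / (k - 1) ≤ 1 / 3 := one_div_le_one_div_of_le (by norm_num) (by linarith)
  have hη0 : 2 / 3 ≤ η := by rw [hη]; linarith
  -- the deleted cell is small in the second moment
  have hup : s < 2 * a ^ 2 := by
    have h := deletion_sharp i hsum hneg hmom
    rw [← hC, ← ha] at h
    have h' := hfail.trans_le h
    rw [show k * s / (2 * (k - 1)) = s / 2 * (k / (k - 1)) by rw [div_mul_div_comm]; ring] at h'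
    have := lt_of_mul_lt_mul_right h' (div_nonneg (by linarith) (by linarith))
    linarith
  -- the loss
  set e := σ⁻¹ • z i with he
  have he1 : ‖e‖ = 1 := by rw [he, norm_smul, norm_inv, norm_norm, inv_mul_cancel₀ hσ0.ne']
  set m := (1 / 3 : ℝ) • (z j₁ + z j₂ + z j₃) with hm
  set q₁ := z j₁ - m with hq₁
  set q₂ := z j₂ - m with hq₂
  set W : EuclideanSpace ℝ (Fin d) → ℝ :=
    fun x => max (max ⟪q₁, x⟫ ⟪q₂, x⟫) (-(⟪q₁, x⟫ + ⟪q₂, x⟫)) with hW
  have hCm : MeasurableSet C := measurableSet_below z i _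
  have hCtop : ∀ x ∈ C, ∀ l, ⟪z l, x⟫ ≤ ⟪z i, x⟫ := fun x hx l => by
    rcases eq_or_ne l i with rfl | h
    · exact le_rfl
    · exact hx l (Finset.mem_erase.2 ⟨h, Finset.mem_univ _⟩)
  have hCe : ∀ x ∈ C, 0 ≤ ⟪e, x⟫ := fun x hx => by
    rw [he, real_inner_smul_left]
    refine mul_nonneg (inv_nonneg.2 hσ0.le) ?_
    have h : ∑ l, ⟪z l, x⟫ ≤ ∑ _l : ι, ⟪z i, x⟫ := Finset.sum_le_sum fun l _ => hCtop x hx l
    rw [← sum_inner, hsum, inner_zero_left, Finset.sum_const, nsmul_eq_mul, Finset.card_univ,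
      ← hk] at h
    nlinarith
  set v := fun l : {l // l ≠ i} => z l.1 with hv
  have hD : ∫ x, maxForm z x ∂gam d - ∫ x, maxForm v x ∂gam d ≤
      s - (∫ x in C, W x ∂gam d) - ⟪m, z i⟫ := by
    rw [← integral_sub (integrable_maxForm z) (integrable_maxForm v),
      ← setIntegral_eq_integral_of_forall_compl_eq_zero (s := C) fun x hx => ?_]
    · have hWi : Integrable W (gam d) :=
        ((integrable_inner q₁).sup (integrable_inner q₂)).sup
          ((integrable_inner q₁).add (integrable_inner q₂)).neg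
      calc ∫ x in C, (maxForm z x - maxForm v x) ∂gam d
          ≤ ∫ x in C, (⟪z i, x⟫ - W x - ⟪m, x⟫) ∂gam d := by
            refine setIntegral_mono_on
              ((integrable_maxForm z).sub (integrable_maxForm v)).integrableOn
              (((integrable_inner (z i)).sub hWi).sub (integrable_inner m)).integrableOn hCm
              fun x hx => ?_
            obtain ⟨l, hl⟩ := exists_maxForm z x
            have hz : maxForm z x ≤ ⟪z i, x⟫ := hl ▸ hCtop x hx l
            have e1 := le_maxForm v ⟨j₁, h1⟩ x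
            have e2 := le_maxForm v ⟨j₂, h2⟩ x
            have e3 := le_maxForm v ⟨j₃, h3⟩ x
            have hq : ⟪q₁, x⟫ + ⟪q₂, x⟫ = -(⟪z j₃, x⟫ - ⟪m, x⟫) := by
              simp only [hq₁, hq₂, hm, inner_sub_left, inner_add_left, real_inner_smul_left]
              ring
            have : W x + ⟪m, x⟫ ≤ maxForm v x := by
              simp only [hW, hq, neg_neg]
              simp only [hq₁, hq₂, inner_sub_left, hv] at e1 e2 e3 ⊢
              rw [max_sub_sub_right, max_sub_sub_right, sub_add_cancel]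
              exact max_le (max_le e1 e2) e3
            linarith
        _ = s - (∫ x in C, W x ∂gam d) - ⟪m, z i⟫ := by
            have hi : Integrable (fun x => ⟪z i, x⟫ - W x) (gam d) := (integrable_inner (z i)).sub hWi
            rw [integral_sub hi.integrableOn (integrable_inner m).integrableOn, integral_sub (integrable_inner (z i)).integrableOn
              hWi.integrableOn, setIntegral_inner_eq, setIntegral_inner_eq, hmom,
              real_inner_self_eq_norm_sq]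
    · obtain ⟨l, hl⟩ := exists_maxForm z x
      rw [sub_eq_zero]
      refine le_antisymm ?_ ?_
      · rcases eq_or_ne l i with rfl | h
        · exact absurd (fun j _ => hl ▸ le_maxForm z j x) hx
        · exact hl ▸ le_maxForm v ⟨l, h⟩ x
      · obtain ⟨p, hp⟩ := exists_maxForm v x
        exact hp ▸ le_maxForm z p.1 x
  have hmz : -⟪m, z i⟫ ≤ s / 3 := by
    have hrow : ∑ l ∈ Finset.univ.erase i, -⟪z l, z i⟫ = s := by
      have h0 : ∑ l, ⟪z l, z i⟫ = 0 := by rw [← sum_inner, hsum, inner_zero_left]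
      rw [← Finset.add_sum_erase _ _ (Finset.mem_univ i), real_inner_self_eq_norm_sq] at h0
      rw [Finset.sum_neg_distrib]
      linarith
    have hle : ∑ l ∈ ({j₁, j₂, j₃} : Finset ι), -⟪z l, z i⟫ ≤ s := by
      rw [← hrow]
      refine Finset.sum_le_sum_of_subset_of_nonneg (fun l hl => ?_)
        fun l hl _ => neg_nonneg.2 (hneg l i (Finset.ne_of_mem_erase hl)).le
      simp only [Finset.mem_insert, Finset.mem_singleton] at hl
      refine Finset.mem_erase.2 ⟨?_, Finset.mem_univ _⟩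
      rcases hl with rfl | rfl | rfl <;> assumption
    rw [Finset.sum_insert (by simp [h12, h13]), Finset.sum_insert (by simp [h23]),
      Finset.sum_singleton] at hle
    simp only [hm, real_inner_smul_left, inner_add_left]
    linarith
  have hI : ∫ x in C, W x ∂gam d < η * s := by
    have hK : k * s / (2 * (k - 1)) = s / 2 + s / 2 * (1 / (k - 1)) := by
      have : k - 1 ≠ 0 := by linarith
      field_simp
      ring
    have h := hfail.trans_le hD
    rw [hK] at h
    rw [hη]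
    linarith
  -- contradiction
  by_contra hcon
  rw [not_lt] at hcon
  set G := gramDet (perp (z i) (z j₁) - perp (z i) (z j₃))
        (perp (z i) (z j₂) - perp (z i) (z j₃)) with hG
  have hN : (5 / 3 - 1 / (k - 1)) = 2 * η := by rw [hη]; ring
  rw [hN] at hcon
  have hG0 : 0 < √G := by
    by_contra h
    rw [not_lt] at h
    have : 0 < a * (2 * η) ^ 2 := by positivity
    linarith
  set u₁ := q₁ - ⟪e, q₁⟫ • e with hu₁
  set u₂ := q₂ - ⟪e, q₂⟫ • e with hu₂
  have hperp : ∀ v, v - ⟪e, v⟫ • e = perp (z i) v := fun v => by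
    rw [perp, he, real_inner_smul_left, smul_smul]
    congr 2
    rw [← hσ]
    field_simp
  have hlin : ∀ (c₁ c₂ : ℝ) (v w : EuclideanSpace ℝ (Fin d)),
      perp (z i) (c₁ • v + c₂ • w) = c₁ • perp (z i) v + c₂ • perp (z i) w := fun c₁ c₂ v w => by
    simp only [perp, inner_add_right, inner_smul_right, smul_sub, smul_smul]
    rw [add_div, add_smul, mul_div_assoc, mul_div_assoc]
    abel
  have hdiff : ∀ v w, perp (z i) (v - w) = perp (z i) v - perp (z i) w := fun v w => by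
    simp only [perp, inner_sub_right, sub_div, sub_smul]
    abel
  have hU₁ : u₁ = (2/3 : ℝ) • (perp (z i) (z j₁) - perp (z i) (z j₃)) +
      (-1/3 : ℝ) • (perp (z i) (z j₂) - perp (z i) (z j₃)) := by
    rw [hu₁, hperp, ← hdiff, ← hdiff, ← hlin, hq₁, hm]
    congr 1
    module
  have hU₂ : u₂ = (-1/3 : ℝ) • (perp (z i) (z j₁) - perp (z i) (z j₃)) +
      (2/3 : ℝ) • (perp (z i) (z j₂) - perp (z i) (z j₃)) := by
    rw [hu₂, hperp, ← hdiff, ← hdiff, ← hlin, hq₂, hm]
    congr 1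
    module
  have hdet : ‖u₁‖ ^ 2 * ‖u₂‖ ^ 2 - ⟪u₁, u₂⟫ ^ 2 = G / 9 := by
    rw [hU₁, hU₂, hG, gramDet]
    simp only [norm_add_sq_real, norm_smul, mul_pow, Real.norm_eq_abs, sq_abs, inner_add_left,
      inner_add_right, real_inner_smul_left, inner_smul_right, real_inner_self_eq_norm_sq,
      real_inner_comm (perp (z i) (z j₁) - perp (z i) (z j₃))
        (perp (z i) (z j₂) - perp (z i) (z j₃))]
    ring
  have hdpos : 0 < ‖u₁‖ ^ 2 * ‖u₂‖ ^ 2 - ⟪u₁, u₂⟫ ^ 2 := by
    rw [hdet]; exact div_pos (Real.sqrt_pos.1 hG0) (by norm_num)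
  have hq : √(‖u₁‖ ^ 2 * ‖u₂‖ ^ 2 - ⟪u₁, u₂⟫ ^ 2) = √G / 3 := by
    rw [hdet, Real.sqrt_div' G (by norm_num : (0:ℝ) ≤ 9)]
    congr 1
    rw [show (9:ℝ) = 3 ^ 2 by norm_num, Real.sqrt_sq (by norm_num : (0:ℝ) ≤ 3)]
  set B := 9 / (4 * π * √G) with hB
  have hB0 : 0 < B := by positivity
  have hBa : B * a * (2 * η) ^ 2 ≤ 5372 / 10000 := by
    have h := mul_le_mul_of_nonneg_left hcon hB0.le
    have e : B * (3 / 4 * √G) = 27 / (16 * π) := by rw [hB]; field_simp; ring
    rw [e] at h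
    have hπ : 27 / (16 * π) ≤ 5372 / 10000 := by
      rw [div_le_div_iff₀ (by positivity) (by norm_num)]
      nlinarith [Real.pi_gt_d6]
    linarith
  have hem : ⟪e, mom C⟫ = σ := by
    rw [hmom, he, real_inner_smul_left, real_inner_self_eq_norm_sq, ← hσ]
    field_simp
  have hlow : ∀ ρ κ : ℝ, 0 ≤ ρ → 0 ≤ κ → ρ * (a + κ * σ) - B * ρ ^ 3 *
      (1 / 2 + 3 * κ * (398943 / 1000000) + 3 * κ ^ 2 / 2 + 2 * κ ^ 3 * (398943 / 1000000)) ≤
      ∫ x in C, W x ∂gam d := by
    intro ρ κ hρ hκ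
    have h := three_max_bathtub (q₁ := q₁) (q₂ := q₂) he1 hdpos hCm hCe hρ hκ
    rw [← hu₁, ← hu₂, hq, hem, ← ha] at h
    refine le_trans (le_of_eq ?_) h
    rw [hB]
    field_simp
    ring
  exact small_cell_arith ha0 hσ0 hη0 hBa hup hI hlow

end

end Vale.Agent.P226
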