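import Vale.Agent.P226.Numeric

/-! Above the propeller value, at least three cells have a large squared moment. -/

open Real Finset

namespace Vale.Agent.P226

/-- Upper bound for the constant term of the tangent line at `t`. -/
lemma excess_le {t : ℝ} (h0 : 0 ≤ t) (h1 : t ≤ 7 / 5) :
    phi t - t * cphi t ≤ expUp (t ^ 2 / 2) / (2506628 / 1000000) -
      t * (1 / 2 - primUp t / (2506628 / 1000000)) := by
  have hy : t ^ 2 / 2 ≤ 1 := by nlinarith
  have hb := (exp_neg_bounds (by positivity) hy).2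
  have h2 : phi t ≤ expUp (t ^ 2 / 2) / (2506628 / 1000000) := by
    rw [phi_eq, inv_mul_eq_div, show -(t ^ 2) / 2 = -(t ^ 2 / 2) by ring]
    exact div_le_div₀ ((exp_pos _).le.trans hb) hb (by norm_num) sqrt_two_pi_lower
  have h3 := mul_le_mul_of_nonneg_left (cphi_lower h0 h1) h0
  linarith

/-- One tangent square stays below an affine bound on an interval. -/
lemma sq_line_le {s a t K lo hi r M : ℝ}
    (hs : s ≤ (max 0 (t * a + (phi t - t * cphi t))) ^ 2) (ht : 0 ≤ t) (hK : 0 ≤ K)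
    (hex : phi t - t * cphi t ≤ K) (hlo0 : 0 ≤ lo) (hlo : lo ≤ a) (hhi : a ≤ hi)
    (h1 : (t * lo + K) ^ 2 ≤ r * lo + M) (h2 : (t * hi + K) ^ 2 ≤ r * hi + M) :
    s ≤ r * a + M := by
  have hpos : 0 ≤ t * a + K := add_nonneg (mul_nonneg ht (hlo0.trans hlo)) hK
  have h3 : (max 0 (t * a + (phi t - t * cphi t))) ^ 2 ≤ (t * a + K) ^ 2 :=
    pow_le_pow_left₀ (le_max_left _ _) (max_le hpos (by linarith)) 2
  refine hs.trans (h3.trans ?_)
  rcases eq_or_lt_of_le (hlo.trans hhi) with he | hlt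
  · obtain rfl : a = lo := le_antisymm (he ▸ hhi) hlo
    exact h1
  · have e1 := mul_le_mul_of_nonneg_left h1 (sub_nonneg.2 hhi)
    have e2 := mul_le_mul_of_nonneg_left h2 (sub_nonneg.2 hlo)
    have e3 : 0 ≤ (hi - lo) * (t ^ 2 * ((a - lo) * (hi - a))) := by
      have := sub_nonneg.2 hlo; have := sub_nonneg.2 hhi; have := sub_nonneg.2 hlt.le
      positivity
    exact le_of_mul_le_mul_left (by nlinarith) (sub_pos.2 hlt)

/-- The affine majorant `139/500 * a + 1/25` of a squared moment. -/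
lemma sq_le_affine {s a : ℝ} (ha0 : 0 ≤ a) (ha1 : a ≤ 1) (h2 : s ≤ 2 * a ^ 2)
    (hs : ∀ t, s ≤ (max 0 (t * a + (phi t - t * cphi t))) ^ 2) :
    s ≤ 139 / 500 * a + 1 / 25 := by
  rcases le_total a (139 / 1000) with h | h
  · nlinarith
  rcases le_total a (3462 / 10000) with h' | h'
  · refine sq_line_le (hs (428 / 1000)) (by norm_num) ?_ (excess_le (by norm_num) (by norm_num))
      (by norm_num) h h' ?_ ?_ <;> norm_num [expUp, primUp]
  rcases le_total a (4169 / 10000) with h'' | h''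
  · refine sq_line_le (hs (364 / 1000)) (by norm_num) ?_ (excess_le (by norm_num) (by norm_num))
      (by norm_num) h' h'' ?_ ?_ <;> norm_num [expUp, primUp]
  · refine sq_line_le (hs (58 / 1000)) (by norm_num) ?_ (excess_le (by norm_num) (by norm_num))
      (by norm_num) h'' ha1 ?_ ?_ <;> norm_num [expUp, primUp]

/-- If the total exceeds the propeller value, three cells have squared moment at least `193/5000`. -/
theorem two_lt_card_large {κ : Type*} [Fintype κ] (s a : κ → ℝ) (ha0 : ∀ l, 0 ≤ a l)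
    (ha1 : ∑ l, a l ≤ 1) (h2 : ∀ l, s l ≤ 2 * a l ^ 2)
    (hs : ∀ l t, s l ≤ (max 0 (t * a l + (phi t - t * cphi t))) ^ 2)
    (hc : 9 / (8 * π) < ∑ l, s l) :
    2 < (univ.filter fun l => (193 / 5000 : ℝ) ≤ s l).card := by
  classical
  by_contra hcard
  set F := univ.filter fun l => (193 / 5000 : ℝ) ≤ s l with hF
  have hal : ∀ l, a l ≤ 1 := fun l =>
    (single_le_sum (fun j _ => ha0 j) (mem_univ l)).trans ha1
  have hb : ∀ l, s l ≤ 139 / 500 * a l + if l ∈ F then 1 / 25 else 0 := fun l => by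
    by_cases hl : l ∈ F
    · rw [if_pos hl]; exact sq_le_affine (ha0 l) (hal l) (h2 l) (hs l)
    · rw [if_neg hl, add_zero]
      have hlt : s l < 193 / 5000 := not_le.1 fun h => hl (mem_filter.2 ⟨mem_univ _, h⟩)
      rcases le_total (a l) (139 / 1000) with h | h
      · nlinarith [ha0 l, h2 l]
      · linarith
  have hsum : ∑ l, s l ≤ 139 / 500 * ∑ l, a l + 1 / 25 * (F.card : ℝ) := by
    refine (sum_le_sum fun l _ => hb l).trans (le_of_eq ?_)
    rw [sum_add_distrib, ← mul_sum, sum_ite_mem, univ_inter, sum_const, nsmul_eq_mul]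
    ring
  have hF2 : (F.card : ℝ) ≤ 2 := by exact_mod_cast not_lt.1 hcard
  have hpi : (358 / 1000 : ℝ) ≤ 9 / (8 * π) := by
    rw [le_div_iff₀ (by positivity)]; nlinarith [Real.pi_lt_d6]
  linarith

end Vale.Agent.P226
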