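import Vale.Agent.P226.Cell

/-! Tools for standard Gaussian vectors: independence, negative correlation, laws of linear maps. -/

open MeasureTheory Set Filter Real ProbabilityTheory
open scoped Topology RealInnerProductSpace NNReal

namespace Vale.Agent.P226

variable {d : ℕ}


/-- The standard Gaussian measure on `ℝ^d`. -/
noncomputable abbrev gam (d : ℕ) : Measure (EuclideanSpace ℝ (Fin d)) :=
  stdGaussian (EuclideanSpace ℝ (Fin d))

lemma gam_map_inner (u : EuclideanSpace ℝ (Fin d)) :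
    (gam d).map (fun x => ⟪u, x⟫) = gaussianReal 0 (‖u‖ ^ 2).toNNReal := by
  have h := IsGaussian.map_eq_gaussianReal (μ := gam d) (innerSL ℝ u)
  rw [integral_strongDual_stdGaussian, variance_dual_stdGaussian, innerSL_apply_norm] at h
  simpa using h

lemma integrable_inner (u : EuclideanSpace ℝ (Fin d)) :
    Integrable (fun x => ⟪u, x⟫) (gam d) :=
  (innerSL ℝ u).integrable_comp integrable_id_std

lemma cov_inner (u w : EuclideanSpace ℝ (Fin d)) :
    cov[fun x => ⟪u, x⟫, fun x => ⟪w, x⟫; gam d] = ⟪u, w⟫ := by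
  rw [← covarianceBilin_apply_eq_cov IsGaussian.memLp_two_id, covarianceBilin_stdGaussian]
  rfl

lemma indep_inner {κ : Type*} [Fintype κ] (u : EuclideanSpace ℝ (Fin d))
    (r : κ → EuclideanSpace ℝ (Fin d)) (h : ∀ l, ⟪u, r l⟫ = 0) :
    IndepFun (fun x => ⟪u, x⟫) (fun x (l : κ) => ⟪r l, x⟫) (gam d) := by
  let L : EuclideanSpace ℝ (Fin d) →L[ℝ] (Fin 1 → ℝ) × (κ → ℝ) :=
    (ContinuousLinearMap.pi fun _ => innerSL ℝ u).prod
      (ContinuousLinearMap.pi fun l => innerSL ℝ (r l))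
  have hL : HasGaussianLaw (fun x => L x) (gam d) :=
    (IsGaussian.hasGaussianLaw_id (μ := gam d)).map_fun L
  have := HasGaussianLaw.indepFun_of_covariance_eval
    (X := fun (_ : Fin 1) x => ⟪u, x⟫) (Y := fun (l : κ) x => ⟪r l, x⟫) (P := gam d)
    (by simpa [L] using hL) (fun i j => by rw [cov_inner]; exact h j)
  exact this.comp (φ := fun f : Fin 1 → ℝ => f 0) (ψ := id) (measurable_pi_apply 0) measurable_id

/-- Disintegration over an independent linear functional. -/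
lemma integral_indep {κ : Type*} [Fintype κ] (u : EuclideanSpace ℝ (Fin d))
    (r : κ → EuclideanSpace ℝ (Fin d)) (h : ∀ l, ⟪u, r l⟫ = 0)
    {f : ℝ × (κ → ℝ) → ℝ} (hf : Measurable f)
    (hi : Integrable (fun x => f (⟪u, x⟫, fun l => ⟪r l, x⟫)) (gam d)) :
    ∫ x, f (⟪u, x⟫, fun l => ⟪r l, x⟫) ∂gam d
      = ∫ s, (∫ x, f (s, fun l => ⟪r l, x⟫) ∂gam d) ∂gaussianReal 0 (‖u‖ ^ 2).toNNReal
    ∧ ∫ x, f (⟪u, x⟫, fun l => ⟪r l, x⟫) ∂gam d
      = ∫ x, (∫ s, f (s, fun l => ⟪r l, x⟫) ∂gaussianReal 0 (‖u‖ ^ 2).toNNReal) ∂gam d := by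
  have hm : Measurable fun x : EuclideanSpace ℝ (Fin d) => fun l => ⟪r l, x⟫ := by fun_prop
  have hu : Measurable fun x : EuclideanSpace ℝ (Fin d) => ⟪u, x⟫ := by fun_prop
  have hmap := (indepFun_iff_map_prod_eq_prod_map_map hu.aemeasurable hm.aemeasurable).1
    (indep_inner u r h)
  rw [gam_map_inner] at hmap
  have : IsProbabilityMeasure ((gam d).map fun x l => ⟪r l, x⟫) :=
    Measure.isProbabilityMeasure_map hm.aemeasurable
  have hif : Integrable f ((gaussianReal 0 (‖u‖ ^ 2).toNNReal).prod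
      ((gam d).map fun x l => ⟪r l, x⟫)) := by
    rw [← hmap]
    exact (integrable_map_measure hf.aestronglyMeasurable (hu.prodMk hm).aemeasurable).2 hi
  have e : ∫ x, f (⟪u, x⟫, fun l => ⟪r l, x⟫) ∂gam d
      = ∫ p, f p ∂((gaussianReal 0 (‖u‖ ^ 2).toNNReal).prod
        ((gam d).map fun x l => ⟪r l, x⟫)) := by
    rw [← hmap, integral_map (hu.prodMk hm).aemeasurable hf.aestronglyMeasurable]
  refine ⟨?_, ?_⟩
  · rw [e, integral_prod _ hif]
    refine integral_congr_ae (Eventually.of_forall fun s => ?_)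
    exact integral_map hm.aemeasurable (hf.comp measurable_prodMk_left).aestronglyMeasurable
  · rw [e, integral_prod_symm _ hif, integral_map hm.aemeasurable]
    exact (hf.stronglyMeasurable.integral_prod_left').aestronglyMeasurable

lemma integrable_indicator_one {s : Set (EuclideanSpace ℝ (Fin d))} (hs : MeasurableSet s) :
    Integrable (s.indicator (1 : EuclideanSpace ℝ (Fin d) → ℝ)) (gam d) :=
  (integrable_const (1 : ℝ)).indicator hs

lemma measurableSet_all {κ : Type*} [Fintype κ] (r : κ → EuclideanSpace ℝ (Fin d)) (a : κ → ℝ) :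
    MeasurableSet {x : EuclideanSpace ℝ (Fin d) | ∀ l, ⟪r l, x⟫ ≤ a l} := by
  rw [Set.ofPred_forall]
  exact MeasurableSet.iInter fun l => measurableSet_le (by fun_prop) measurable_const

/-- Negatively correlated centred Gaussians: one factor splits off. -/
lemma negcor_step {κ : Type*} [Fintype κ] (u : EuclideanSpace ℝ (Fin d))
    (r : κ → EuclideanSpace ℝ (Fin d)) (hr : ∀ l, ⟪u, r l⟫ ≤ 0) (b : ℝ) (a : κ → ℝ) :
    (gam d).real {x | ⟪u, x⟫ ≤ b ∧ ∀ l, ⟪r l, x⟫ ≤ a l} ≤
      (gam d).real {x | ⟪u, x⟫ ≤ b} * (gam d).real {x | ∀ l, ⟪r l, x⟫ ≤ a l} := by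
  set β : κ → ℝ := fun l => ⟪u, r l⟫ / ‖u‖ ^ 2 with hβ
  set q : κ → EuclideanSpace ℝ (Fin d) := fun l => r l - β l • u with hq
  have hβ0 : ∀ l, β l ≤ 0 := fun l => div_nonpos_of_nonpos_of_nonneg (hr l) (by positivity)
  have horth : ∀ l, ⟪u, q l⟫ = 0 := by
    intro l
    simp only [hq, hβ, inner_sub_right, inner_smul_right, real_inner_self_eq_norm_sq]
    rcases eq_or_ne u 0 with h0 | h0
    · simp [h0]
    · field_simp; ring
  have hrq : ∀ l x, ⟪r l, x⟫ = β l * ⟪u, x⟫ + ⟪q l, x⟫ := by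
    intro l x
    simp [hq, inner_sub_left, real_inner_smul_left]
  set ν := gaussianReal 0 (‖u‖ ^ 2).toNNReal
  set S : Set (ℝ × (κ → ℝ)) := {p | ∀ l, β l * p.1 + p.2 l ≤ a l} with hS
  have hSm : MeasurableSet S := by
    rw [hS, Set.ofPred_forall]
    exact MeasurableSet.iInter fun l => measurableSet_le (by fun_prop) measurable_const
  set ψ : ℝ → ℝ := fun s => (gam d).real {x | ∀ l, ⟪q l, x⟫ ≤ a l - β l * s} with hψ
  have hmono : Monotone ψ := by
    intro s t hst
    refine measureReal_mono (fun x hx l => (hx l).trans ?_)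
    nlinarith [hβ0 l]
  have hψ0 : ∀ s, 0 ≤ ψ s := fun s => measureReal_nonneg
  have hψ1 : ∀ s, ψ s ≤ 1 := fun s => by
    simp only [hψ]; exact measureReal_le_one
  have hψi : Integrable ψ ν :=
    Integrable.of_bound hmono.measurable.aestronglyMeasurable 1
      (Eventually.of_forall fun s => by rw [Real.norm_eq_abs, abs_of_nonneg (hψ0 s)]; exact hψ1 s)
  have key : ∀ T : Set ℝ, MeasurableSet T →
      (gam d).real {x | ⟪u, x⟫ ∈ T ∧ ∀ l, ⟪r l, x⟫ ≤ a l} = ∫ s, T.indicator ψ s ∂ν := by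
    intro T hT
    have hTS : MeasurableSet ((T ×ˢ (univ : Set (κ → ℝ))) ∩ S) :=
      (hT.prod MeasurableSet.univ).inter hSm
    have hmeas : MeasurableSet {x : EuclideanSpace ℝ (Fin d) |
        ⟪u, x⟫ ∈ T ∧ ∀ l, ⟪r l, x⟫ ≤ a l} :=
      (MeasurableSet.inter ((by fun_prop : Measurable fun x : EuclideanSpace ℝ (Fin d) => ⟪u, x⟫) hT)
        (measurableSet_all r a) :)
    have e : (fun x => ((T ×ˢ (univ : Set (κ → ℝ))) ∩ S).indicator (1 : ℝ × (κ → ℝ) → ℝ)
        (⟪u, x⟫, fun l => ⟪q l, x⟫)) = {x | ⟪u, x⟫ ∈ T ∧ ∀ l, ⟪r l, x⟫ ≤ a l}.indicator 1 := by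
      funext x
      have hiff : (⟪u, x⟫, fun l => ⟪q l, x⟫) ∈ (T ×ˢ (univ : Set (κ → ℝ))) ∩ S ↔
          x ∈ {x | ⟪u, x⟫ ∈ T ∧ ∀ l, ⟪r l, x⟫ ≤ a l} := by
        simp [hS, hrq]
      by_cases hx : x ∈ {x | ⟪u, x⟫ ∈ T ∧ ∀ l, ⟪r l, x⟫ ≤ a l}
      · rw [indicator_of_mem hx, indicator_of_mem (hiff.2 hx)]; rfl
      · rw [indicator_of_notMem hx, indicator_of_notMem (fun c => hx (hiff.1 c))]
    have h := (integral_indep u q horth
      (f := ((T ×ˢ (univ : Set (κ → ℝ))) ∩ S).indicator 1)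
      (measurable_one.indicator hTS) (by rw [e]; exact integrable_indicator_one hmeas)).1
    rw [show (∫ x, ((T ×ˢ (univ : Set (κ → ℝ))) ∩ S).indicator 1
        (⟪u, x⟫, fun l => ⟪q l, x⟫) ∂gam d)
        = ∫ x, {x | ⟪u, x⟫ ∈ T ∧ ∀ l, ⟪r l, x⟫ ≤ a l}.indicator 1 x ∂gam d
      from congrArg (fun g => ∫ x, g x ∂gam d) e, integral_indicator_one hmeas] at h
    rw [h]
    refine integral_congr_ae (Eventually.of_forall fun s => ?_)
    by_cases hs : s ∈ T
    · rw [indicator_of_mem hs]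
      simp only [hψ]
      rw [← integral_indicator_one (measurableSet_all q fun l => a l - β l * s)]
      refine integral_congr_ae (Eventually.of_forall fun x => ?_)
      dsimp only
      have : (∀ l, β l * s + ⟪q l, x⟫ ≤ a l) ↔ ∀ l, ⟪q l, x⟫ ≤ a l - β l * s :=
        forall_congr' fun l => by constructor <;> intro <;> linarith
      have hiff : (s, fun l => ⟪q l, x⟫) ∈ (T ×ˢ (univ : Set (κ → ℝ))) ∩ S ↔
          x ∈ {x | ∀ l, ⟪q l, x⟫ ≤ a l - β l * s} := by
        simp only [hS, mem_inter_iff, mem_prod, mem_univ, and_true, hs, true_and, Set.mem_ofPred_eq]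
        exact this
      by_cases hx : x ∈ {x | ∀ l, ⟪q l, x⟫ ≤ a l - β l * s}
      · rw [indicator_of_mem hx, indicator_of_mem (hiff.2 hx)]; rfl
      · rw [indicator_of_notMem hx, indicator_of_notMem (fun c => hx (hiff.1 c))]
    · rw [indicator_of_notMem hs]
      refine integral_eq_zero_of_ae (Eventually.of_forall fun x => ?_)
      exact indicator_of_notMem (fun c => hs c.1.1) _
  have h1 := key (Iic b) measurableSet_Iic
  have h2 := key univ MeasurableSet.univ
  simp only [mem_univ, true_and, indicator_univ] at h2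
  have hp : (gam d).real {x | ⟪u, x⟫ ≤ b} = ν.real (Iic b) := by
    simp only [ν]
    rw [← gam_map_inner, map_measureReal_apply (by fun_prop) measurableSet_Iic]
    rfl
  rw [show {x : EuclideanSpace ℝ (Fin d) | ⟪u, x⟫ ≤ b ∧ ∀ l, ⟪r l, x⟫ ≤ a l}
      = {x | ⟪u, x⟫ ∈ Iic b ∧ ∀ l, ⟪r l, x⟫ ≤ a l} from rfl, h1, h2, hp]
  set p := ν.real (Iic b)
  have hpi : Integrable ((Iic b).indicator ψ) ν := hψi.indicator measurableSet_Iic
  have hone : Integrable ((Iic b).indicator (1 : ℝ → ℝ)) ν :=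
    (integrable_const (1 : ℝ)).indicator measurableSet_Iic
  have hpt : ∀ s, (Iic b).indicator ψ s - p * ψ s
      ≤ ψ b * ((Iic b).indicator (1 : ℝ → ℝ) s - p) := by
    intro s
    have hp0 : 0 ≤ p := measureReal_nonneg
    have hp1 : p ≤ 1 := measureReal_le_one
    by_cases hs : s ∈ Iic b
    · rw [indicator_of_mem hs, indicator_of_mem hs, Pi.one_apply]
      nlinarith [hmono (mem_Iic.1 hs)]
    · rw [indicator_of_notMem hs, indicator_of_notMem hs]
      nlinarith [hmono (not_le.1 (by simpa using hs)).le]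
  have hint : ∫ s, ((Iic b).indicator ψ s - p * ψ s) ∂ν
      ≤ ∫ s, ψ b * ((Iic b).indicator (1 : ℝ → ℝ) s - p) ∂ν :=
    integral_mono (hpi.sub (hψi.const_mul p)) ((hone.sub (integrable_const p)).const_mul _) hpt
  rw [integral_sub hpi (hψi.const_mul p), integral_const_mul, integral_const_mul,
    integral_sub hone (integrable_const p), integral_indicator_one measurableSet_Iic,
    integral_const, smul_eq_mul] at hint
  simp only [probReal_univ, one_mul] at hint
  linarith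

/-- Negatively correlated centred Gaussians: product bound for lower orthants. -/
lemma negcor_prod {ι : Type*} [DecidableEq ι] (s : Finset ι) (r : ι → EuclideanSpace ℝ (Fin d))
    (hr : ∀ l ∈ s, ∀ m ∈ s, l ≠ m → ⟪r l, r m⟫ ≤ 0) (a : ι → ℝ) :
    (gam d).real {x | ∀ l ∈ s, ⟪r l, x⟫ ≤ a l} ≤ ∏ l ∈ s, (gam d).real {x | ⟪r l, x⟫ ≤ a l} := by
  induction s using Finset.induction_on with
  | empty => simp
  | insert i s hi ih =>
    rw [Finset.prod_insert hi]
    have h := negcor_step (r i) (fun l : {l // l ∈ s} => r l.1)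
      (fun l => hr i (Finset.mem_insert_self i s) l.1 (Finset.mem_insert_of_mem l.2)
        (fun e => hi (e ▸ l.2))) (a i) (fun l => a l.1)
    have e1 : {x : EuclideanSpace ℝ (Fin d) | ∀ l ∈ insert i s, ⟪r l, x⟫ ≤ a l}
        = {x | ⟪r i, x⟫ ≤ a i ∧ ∀ l : {l // l ∈ s}, ⟪r l.1, x⟫ ≤ a l.1} := by
      ext x; simp
    have e2 : {x : EuclideanSpace ℝ (Fin d) | ∀ l : {l // l ∈ s}, ⟪r l.1, x⟫ ≤ a l.1}
        = {x | ∀ l ∈ s, ⟪r l, x⟫ ≤ a l} := by
      ext x; simp
    rw [e1]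
    rw [e2] at h
    exact h.trans (mul_le_mul_of_nonneg_left
      (ih fun l hl m hm => hr l (Finset.mem_insert_of_mem hl) m (Finset.mem_insert_of_mem hm))
      measureReal_nonneg)

lemma gauss_Iic (t : ℝ) : (gaussianReal 0 1).real (Iic t) = 1 - cphi t := by
  rw [← compl_Ioi, probReal_compl_eq_one_sub measurableSet_Ioi, measureReal_def,
    gaussianReal_apply_eq_integral 0 one_ne_zero, ENNReal.toReal_ofReal
      (setIntegral_nonneg measurableSet_Ioi fun x _ => gaussianPDFReal_nonneg _ _ _)]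
  exact congrArg (1 - ·) (integral_phi_Ioi t)

lemma prob_inner_le {r : EuclideanSpace ℝ (Fin d)} (hr : r ≠ 0) (t : ℝ) :
    (gam d).real {x | ⟪r, x⟫ ≤ t} = 1 - cphi (t / ‖r‖) := by
  have hn : 0 < ‖r‖ := norm_pos_iff.2 hr
  have hu : ‖‖r‖⁻¹ • r‖ = 1 := by rw [norm_smul, norm_inv, norm_norm, inv_mul_cancel₀ hn.ne']
  rw [← gauss_Iic, ← map_inner_unit hu, map_measureReal_apply (by fun_prop) measurableSet_Iic]
  congr 1
  ext x
  simp only [Set.mem_ofPred_eq, mem_preimage, mem_Iic, real_inner_smul_left]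
  rw [le_div_iff₀ hn, mul_comm ‖r‖⁻¹, ← div_eq_mul_inv, div_mul_cancel₀ _ hn.ne']

lemma phi_le_one (x : ℝ) : phi x ≤ 1 / 2 := by
  rw [phi_eq, inv_mul_eq_div, div_le_iff₀ (by positivity)]
  refine le_trans (exp_le_one_iff.2 (by nlinarith)) ?_
  have : (2 : ℝ) ≤ √(2 * π) := Real.le_sqrt_of_sq_le (by nlinarith [Real.pi_gt_three])
  linarith

lemma gauss_interval {v : ℝ≥0} (hv : v ≠ 0) (p q : ℝ) :
    (gaussianReal 0 v).real (Icc p q) ≤ max (q - p) 0 / √v := by
  rw [measureReal_def, gaussianReal_apply_eq_integral 0 hv, ENNReal.toReal_ofReal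
    (setIntegral_nonneg measurableSet_Icc fun x _ => gaussianPDFReal_nonneg _ _ _)]
  have hb : ∀ x, gaussianPDFReal 0 v x ≤ 1 / √v := by
    intro x
    rw [gaussianPDFReal, one_div]
    refine (mul_le_of_le_one_right (by positivity) (exp_le_one_iff.2 ?_)).trans ?_
    · exact div_nonpos_of_nonpos_of_nonneg (by nlinarith) (by positivity)
    · gcongr
      have : (v : ℝ) ≤ 2 * π * v := le_mul_of_one_le_left v.2 (by nlinarith [Real.pi_gt_three])
      exact this
  calc ∫ x in Icc p q, gaussianPDFReal 0 v x ≤ ∫ x in Icc p q, 1 / √v := by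
        refine setIntegral_mono_on (integrable_gaussianPDFReal 0 v).integrableOn ?_
          measurableSet_Icc fun x _ => hb x
        exact integrableOn_const (by simp [Real.volume_Icc]) (by simp)
    _ = max (q - p) 0 / √v := by
        rw [setIntegral_const, Real.volume_real_Icc, smul_eq_mul, mul_one_div]

end Vale.Agent.P226
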