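import Vale.Agent.P226.Final5
import Vale.Agent.P226.Third

/-!
The three largest squared moments and the lower bound they give for the Gram determinant
(blueprint v2, numeric lemmas (U) and (K5)).
-/

open Real Finset

namespace Vale.Agent.P226

/-- The universal lower bound for the Gram determinant of the three largest projections. -/
noncomputable def gramLow (s1 s2 s3 dl : ℝ) : ℝ :=
  (s1 - dl) * (s2 - dl) + (s1 - dl) * (s3 - dl) + (s2 - dl) * (s3 - dl) +
    min 0 (s2 * (2 * (s3 - dl) - s2))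

/-- `gramLow` decreases in the defect. -/
lemma gramLow_anti {s1 s2 s3 dl D : ℝ} (hd : dl ≤ D) (h3 : D ≤ s3) (h32 : s3 ≤ s2) (h21 : s2 ≤ s1)
    (hs : 0 ≤ s2) : gramLow s1 s2 s3 D ≤ gramLow s1 s2 s3 dl := by
  unfold gramLow
  refine add_le_add (add_le_add (add_le_add ?_ ?_) ?_) (min_le_min le_rfl ?_)
  · exact mul_le_mul (by linarith) (by linarith) (by linarith) (by linarith)
  · exact mul_le_mul (by linarith) (by linarith) (by linarith) (by linarith)
  · exact mul_le_mul (by linarith) (by linarith) (by linarith) (by linarith)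
  · exact mul_le_mul_of_nonneg_left (by linarith) hs

/-- A lower bound for the Gram expression from one linear constraint `L0 - C * w ≤ x + y`,
checked at finitely many endpoints. -/
lemma gram_form_ge {T L0 C D lo m h h' x y w : ℝ} (hC : 0 ≤ C) (hD : 0 ≤ D) (hlo0 : 0 ≤ lo)
    (hm : 0 ≤ m) (hDlo : D ≤ 2 * lo) (hDh : D ≤ 2 * h)
    (hlo : lo ≤ w) (hwy : w ≤ y) (hyx : y ≤ x) (hL : L0 - C * w ≤ x + y)
    (a1 : T ≤ lo * (2 * L0 - (2 * C + 1) * lo)) (a2 : T ≤ m * (2 * L0 - (2 * C + 1) * m))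
    (a3 : T ≤ 3 * m ^ 2)
    (b1 : T + L0 * D + D ^ 2 ≤ lo * (2 * L0 + C * D + 2 * D - 2 * C * lo))
    (b2 : T + L0 * D + D ^ 2 ≤ h * (2 * L0 + C * D + 2 * D - 2 * C * h))
    (b3 : T ≤ 2 * (2 * h - D) ^ 2 - D ^ 2)
    (c1 : T + L0 * D + D ^ 2 ≤ lo * (3 * L0 + (C + 4) * D - (3 * C + 4) * lo))
    (c2 : T + L0 * D + D ^ 2 ≤ h' * (3 * L0 + (C + 4) * D - (3 * C + 4) * h'))
    (c3 : L0 + 2 * D ≤ (C + 4) * h') :
    T ≤ x * y + x * w + y * w + min 0 ((y + D) * (2 * w - (y + D))) := by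
  have hw : 0 ≤ w := hlo0.trans hlo
  rcases le_total (y + D) (2 * w) with hA | hB
  · rw [min_eq_left (mul_nonneg (by linarith) (by linarith)), add_zero]
    exact target_le_pair (P := 2 * L0) (Q := 2 * C + 1) (by linarith) hm hlo0 hlo hwy hyx
      (by linarith) a1 a2 a3
  rw [min_eq_right (mul_nonpos_of_nonneg_of_nonpos (by linarith) (by linarith))]
  -- the bound at `x = y = (L0 - C * w) / 2`
  have hE2 : w ≤ h → T + L0 * D + D ^ 2 ≤ w * (2 * L0 + C * D + 2 * D - 2 * C * w) := fun hwh =>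
    le_parabola (by linarith) hlo hwh b1 b2
  rcases le_total ((L0 - C * w) / 2) y with hy | hy
  · -- use `x ≥ y`
    have e := mul_le_mul_of_nonneg_right hyx (by linarith : 0 ≤ y + w)
    rcases le_total w h with hwh | hwh
    · have e1 := mul_le_mul_of_nonneg_right hy (by linarith : (0 : ℝ) ≤ 4 * w - 2 * D)
      have e2 := hE2 hwh
      nlinarith only [e, e1, e2]
    · have e1 := mul_le_mul_of_nonneg_right (show 2 * w - D ≤ y by linarith)
        (by linarith : (0 : ℝ) ≤ 4 * w - 2 * D)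
      have e2 := pow_le_pow_left₀ (by linarith) (show 2 * h - D ≤ 2 * w - D by linarith) 2
      have e3 : 0 ≤ w * D := mul_nonneg hw hD
      nlinarith only [e, e1, e2, e3, b3]
  · -- use `x ≥ L0 - C * w - y`
    have hwh' : w ≤ h' := by
      have : (C + 4) * w ≤ (C + 4) * h' := by linarith
      exact le_of_mul_le_mul_left this (by linarith)
    have hwh : 0 ≤ 2 * w - D := by linarith
    have e := mul_le_mul_of_nonneg_right (show L0 - C * w - y ≤ x by linarith)
      (by linarith : 0 ≤ y + w)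
    have hE3 := le_parabola (T := T + L0 * D + D ^ 2) (P := 3 * L0 + (C + 4) * D) (Q := 3 * C + 4)
      (by linarith) hlo hwh' c1 c2
    have key := le_parabola (T := T - ((L0 - C * w) * w + 2 * w * D - D ^ 2))
      (P := L0 - C * w + 2 * w - 2 * D) (Q := 2) (w := y) (lo := 2 * w - D)
      (hi := (L0 - C * w) / 2) two_pos.le (by linarith) hy (by nlinarith only [hE3]) (by
        rcases le_total w h with hwl | hwl
        · nlinarith only [hE2 hwl]
        · have e1 := mul_le_mul_of_nonneg_right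
            (show 2 * w - D ≤ (L0 - C * w) / 2 by linarith)
            (by linarith : (0 : ℝ) ≤ 4 * w - 2 * D)
          have e2 := pow_le_pow_left₀ (by linarith) (show 2 * h - D ≤ 2 * w - D by linarith) 2
          have e3 : 0 ≤ w * D := mul_nonneg hw hD
          nlinarith only [e1, e2, e3, b3])
    nlinarith only [e, key]

/-- The area constraint on the three largest squared moments implies a linear one. -/
lemma sum_top_lower {s1 s2 s3 : ℝ} (h3 : 0 ≤ s3) (h32 : s3 ≤ s2) (h21 : s2 ≤ s1)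
    (h1 : s1 ≤ 1 / (2 * π))
    (hc : 9 / (8 * π) < s1 + s2 + √(2 * s3) * (1 - √(s1 / 2) - √(s2 / 2))) :
    2948 / 10000 - 26 / 10 * s3 ≤ s1 + s2 := by
  set v := √s3 with hv
  set u := √(1 / (2 * π)) with hu
  have hu0 : 0 < u := Real.sqrt_pos.2 (by positivity)
  have hu1 : u ≤ 398943 / 1000000 := by
    rw [hu, Real.sqrt_le_iff]
    refine ⟨by norm_num, ?_⟩
    rw [div_le_iff₀ (by positivity)]; nlinarith [Real.pi_gt_d6]
  have hu2 : 398942 / 1000000 ≤ u := by
    refine Real.le_sqrt_of_sq_le ?_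
    rw [le_div_iff₀ (by positivity)]; nlinarith [Real.pi_lt_d6]
  have hr2 : √2 ≤ 141422 / 100000 := Real.sqrt_le_iff.2 ⟨by norm_num, by norm_num⟩
  have hv0 : 0 ≤ v := Real.sqrt_nonneg _
  have hv2 : v ^ 2 = s3 := Real.sq_sqrt h3
  have chord : ∀ s, s3 ≤ s → s ≤ 1 / (2 * π) → v + (s - s3) / (u + v) ≤ √s := fun s hs hs' => by
    have hvs : v ≤ √s := Real.sqrt_le_sqrt hs
    have hsu : √s ≤ u := Real.sqrt_le_sqrt hs'
    rw [← le_sub_iff_add_le', div_le_iff₀ (by linarith)]
    have := mul_le_mul_of_nonneg_left (show √s + v ≤ u + v by linarith) (sub_nonneg.2 hvs)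
    nlinarith [Real.sq_sqrt (h3.trans hs)]
  have k1 := chord s1 (h32.trans h21) h1
  have k2 := chord s2 h32 (h21.trans h1)
  have hprod : ∀ s, √(2 * s3) * √(s / 2) = v * √s := fun s => by
    rw [← Real.sqrt_mul (by positivity), show 2 * s3 * (s / 2) = s3 * s by ring,
      Real.sqrt_mul h3]
  rw [mul_sub, mul_sub, mul_one, hprod, hprod, Real.sqrt_mul zero_le_two, ← hv] at hc
  have m1 := mul_le_mul_of_nonneg_left k1 hv0
  have m2 := mul_le_mul_of_nonneg_left k2 hv0
  have hfrac : 0 < u + v := by linarith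
  set q := (s1 + s2 - 2 * s3) / (u + v) with hq
  have hq' : q * (u + v) = s1 + s2 - 2 * s3 := div_mul_cancel₀ _ hfrac.ne'
  have hsplit : (s1 - s3) / (u + v) + (s2 - s3) / (u + v) = q := by rw [hq]; ring
  have hq0 : 0 ≤ q := div_nonneg (by linarith) hfrac.le
  have hqu : 9 / (8 * π) - √2 * v ≤ q * u := by nlinarith [m1, m2, hsplit, hv2, hq']
  have hc0 : (358098 / 1000000 : ℝ) ≤ 9 / (8 * π) := by
    rw [le_div_iff₀ (by positivity)]; nlinarith [Real.pi_lt_d6]
  have hqlow : (897610 / 1000000 - 3545 / 1000 * v) ≤ q := by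
    refine le_of_mul_le_mul_right ?_ hu0
    nlinarith [mul_le_mul_of_nonneg_right hr2 hv0, mul_le_mul_of_nonneg_left hu2 hv0]
  have hE : q * u + q * v = s1 + s2 - 2 * s3 := by rw [← mul_add]; exact hq'
  nlinarith [mul_le_mul_of_nonneg_left hqlow hv0, mul_le_mul_of_nonneg_right hr2 hv0,
    sq_nonneg (v - 245 / 1000), hv2]

/-- (U): the Gram bound for any number of cells. -/
theorem gramLow_ge {s1 s2 s3 dl : ℝ} (h3 : 193 / 5000 ≤ s3) (h32 : s3 ≤ s2) (h21 : s2 ≤ s1)
    (h1 : s1 ≤ 1 / (2 * π)) (hdl : dl ≤ 265 / 100000)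
    (hc : 9 / (8 * π) < s1 + s2 + √(2 * s3) * (1 - √(s1 / 2) - √(s2 / 2))) :
    11 / 1000 ≤ gramLow s1 s2 s3 dl := by
  have hlin := sum_top_lower (by linarith) h32 h21 h1 hc
  refine le_trans ?_ (gramLow_anti hdl (by linarith) h32 h21 (by linarith))
  set D : ℝ := 265 / 100000 with hD
  unfold gramLow
  have := gram_form_ge (T := 11 / 1000) (L0 := 2826 / 10000) (C := 26 / 10) (D := D)
    (lo := 3595 / 100000) (m := 606 / 10000) (h := 65 / 1000) (h' := 45 / 1000)
    (x := s1 - D) (y := s2 - D) (w := s3 - D)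
  simp only [sub_add_cancel] at this
  apply this <;> first | linarith | norm_num [hD]

/-- (K5): the sharper Gram bound for five cells. -/
theorem gramLow_ge_five {s1 s2 s3 dl : ℝ} (h3 : 193 / 5000 ≤ s3) (h32 : s3 ≤ s2) (h21 : s2 ≤ s1)
    (hdl : dl ≤ 469 / 100000) (hc : 9 / (8 * π) < s1 + s2 + 2 * s3 + dl) :
    169 / 10000 ≤ gramLow s1 s2 s3 dl := by
  have hc0 : (358098 / 1000000 : ℝ) ≤ 9 / (8 * π) := by
    rw [le_div_iff₀ (by positivity)]; nlinarith [Real.pi_lt_d6]
  refine le_trans ?_ (gramLow_anti hdl (by linarith) h32 h21 (by linarith))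
  set D : ℝ := 469 / 100000 with hD
  unfold gramLow
  have := gram_form_ge (T := 169 / 10000) (L0 := 334648 / 1000000) (C := 2) (D := D)
    (lo := 3391 / 100000) (m := 7506 / 100000) (h := 80 / 1000) (h' := 58 / 1000)
    (x := s1 - D) (y := s2 - D) (w := s3 - D)
  simp only [sub_add_cancel] at this
  apply this <;> first | linarith | norm_num [hD] <;> norm_num [hD] at hdl <;> linarith

/-- Above the propeller value there are three ordered large cells dominating all others, and they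
satisfy the constraints used by `gramLow_ge` and `gramLow_ge_five`. -/
theorem exists_top_three {κ : Type*} [Fintype κ] [DecidableEq κ] (s a : κ → ℝ)
    (hs0 : ∀ l, 0 ≤ s l) (ha0 : ∀ l, 0 ≤ a l) (ha1 : ∑ l, a l ≤ 1)
    (h2 : ∀ l, s l ≤ 2 * a l ^ 2)
    (hs : ∀ l t, s l ≤ (max 0 (t * a l + (phi t - t * cphi t))) ^ 2)
    (hc : 9 / (8 * π) < ∑ l, s l) :
    ∃ l1 l2 l3, l1 ≠ l2 ∧ l1 ≠ l3 ∧ l2 ≠ l3 ∧ 193 / 5000 ≤ s l3 ∧ s l3 ≤ s l2 ∧ s l2 ≤ s l1 ∧
      s l1 ≤ 1 / (2 * π) ∧ (∀ j, j ≠ l1 → j ≠ l2 → s j ≤ s l3) ∧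
      9 / (8 * π) < s l1 + s l2 + √(2 * s l3) * (1 - √(s l1 / 2) - √(s l2 / 2)) ∧
      (∀ i, i ≠ l1 → i ≠ l2 → i ≠ l3 →
        9 / (8 * π) < s l1 + s l2 + ((Fintype.card κ : ℝ) - 3) * s l3 + s i) := by
  set F := univ.filter fun l => (193 / 5000 : ℝ) ≤ s l
  have hF : 2 < F.card := two_lt_card_large s a ha0 ha1 h2 hs hc
  have : Nonempty κ := by
    obtain ⟨x, -⟩ := card_pos.1 (by omega : 0 < F.card)
    exact ⟨x⟩
  obtain ⟨l1, -, m1⟩ := exists_max_image univ s univ_nonempty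
  have hne2 : (univ.erase l1).Nonempty := by
    obtain ⟨x, hx, hx'⟩ := exists_mem_ne (by omega : 1 < F.card) l1
    exact ⟨x, mem_erase.2 ⟨hx', mem_univ _⟩⟩
  obtain ⟨l2, hl2, m2⟩ := exists_max_image (univ.erase l1) s hne2
  have hne3 : ((univ.erase l1).erase l2).Nonempty := by
    have h := (F.erase l1).pred_card_le_card_erase (a := l2)
    have h' := F.pred_card_le_card_erase (a := l1)
    obtain ⟨x, hx⟩ := card_pos.1 (by omega : 0 < ((F.erase l1).erase l2).card)
    simp only [mem_erase] at hx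
    exact ⟨x, by simp [hx.1, hx.2.1]⟩
  obtain ⟨l3, hl3, m3⟩ := exists_max_image ((univ.erase l1).erase l2) s hne3
  have h21 : l2 ≠ l1 := (mem_erase.1 hl2).1
  have h32 : l3 ≠ l2 := (mem_erase.1 hl3).1
  have h31 : l3 ≠ l1 := (mem_erase.1 (mem_erase.1 hl3).2).1
  have o12 : s l2 ≤ s l1 := m1 l2 (mem_univ _)
  have o23 : s l3 ≤ s l2 := m2 l3 (mem_erase.2 ⟨h31, mem_univ _⟩)
  have dom : ∀ j, j ≠ l1 → j ≠ l2 → s j ≤ s l3 := fun j h h' =>
    m3 j (mem_erase.2 ⟨h', mem_erase.2 ⟨h, mem_univ _⟩⟩)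
  have big : 193 / 5000 ≤ s l3 := by
    by_contra hlt
    have hsub : F ⊆ {l1, l2} := fun j hj => by
      by_contra hj'
      simp only [Finset.mem_insert, Finset.mem_singleton, not_or] at hj'
      exact hlt ((mem_filter.1 hj).2.trans (dom j hj'.1 hj'.2))
    have := (card_le_card hsub).trans Finset.card_le_two
    omega
  refine ⟨l1, l2, l3, h21.symm, h31.symm, h32.symm, big, o23, o12, ?_, dom, ?_, ?_⟩
  · have h := hs l1 0
    rw [zero_mul, zero_add, zero_mul, sub_zero, max_eq_right (phi_pos 0).le, phi_sq] at h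
    simpa using h
  · refine hc.trans_le ?_
    rw [← add_sum_erase _ _ (mem_univ l1),
      ← add_sum_erase _ _ (mem_erase.2 ⟨h21, mem_univ _⟩)]
    rw [← add_assoc]
    refine add_le_add le_rfl ?_
    have hlow : ∀ l, √(s l / 2) ≤ a l := fun l => by
      rw [Real.sqrt_le_iff]; exact ⟨ha0 l, by linarith [h2 l]⟩
    have hj : ∀ j ∈ (univ.erase l1).erase l2, s j ≤ √(2 * s l3) * a j := fun j hj => by
      have h := dom j (mem_erase.1 (mem_erase.1 hj).2).1 (mem_erase.1 hj).1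
      rw [← pow_le_pow_iff_left₀ (hs0 j) (mul_nonneg (Real.sqrt_nonneg _) (ha0 j)) two_ne_zero,
        mul_pow, Real.sq_sqrt (by linarith [hs0 l3]), sq (s j)]
      refine (mul_le_mul h (h2 j) (hs0 j) (hs0 l3)).trans (le_of_eq ?_)
      ring
    refine (sum_le_sum hj).trans ?_
    rw [← mul_sum]
    refine mul_le_mul_of_nonneg_left ?_ (Real.sqrt_nonneg _)
    rw [← add_sum_erase _ _ (mem_univ l1),
      ← add_sum_erase _ _ (mem_erase.2 ⟨h21, mem_univ _⟩)] at ha1
    linarith [hlow l1, hlow l2]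
  · intro i i1 i2 i3
    refine hc.trans_le ?_
    rw [← add_sum_erase _ _ (mem_univ l1),
      ← add_sum_erase _ _ (mem_erase.2 ⟨h21, mem_univ _⟩),
      ← add_sum_erase _ _ (mem_erase.2 ⟨i2, mem_erase.2 ⟨i1, mem_univ i⟩⟩)]
    set R := ((univ.erase l1).erase l2).erase i with hR
    have hcard : R.card + 3 = Fintype.card κ := by
      rw [← card_univ (α := κ), ← card_erase_add_one (mem_univ l1),
        ← card_erase_add_one (mem_erase.2 ⟨h21, mem_univ l2⟩ : l2 ∈ univ.erase l1),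
        ← card_erase_add_one
          (mem_erase.2 ⟨i2, mem_erase.2 ⟨i1, mem_univ i⟩⟩ : i ∈ (univ.erase l1).erase l2)]
    have hb : ∑ j ∈ R, s j ≤ (R.card : ℝ) * s l3 := by
      rw [← nsmul_eq_mul]
      refine sum_le_card_nsmul _ _ _ fun j hj => ?_
      simp only [hR, mem_erase] at hj
      exact dom j hj.2.2.1 hj.2.1
    have : (R.card : ℝ) = (Fintype.card κ : ℝ) - 3 := by
      rw [← hcard]; push_cast; ring
    rw [this] at hb
    linarith

/-- Admissible smallest areas for `gramLow`. -/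
noncomputable def areaWide (k : ℕ) : ℝ :=
  if k ≤ 5 then 484 / 10000
  else if k = 6 then 364 / 10000
  else if k = 7 then 349 / 10000
  else if k = 8 then 338 / 10000
  else 283 / 10000

/-- The smallest area loses against the Gram bound of the three largest cells. -/
theorem area_le_gramLow {k : ℕ} (hk : 5 ≤ k) {a si s1 s2 s3 G : ℝ} (ha : 0 ≤ a)
    (hak : a ≤ areaWide k) (hsi : si ≤ 2 * a ^ 2)
    (h3 : 193 / 5000 ≤ s3) (h32 : s3 ≤ s2) (h21 : s2 ≤ s1) (h1 : s1 ≤ 1 / (2 * π))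
    (hc : 9 / (8 * π) < s1 + s2 + √(2 * s3) * (1 - √(s1 / 2) - √(s2 / 2)))
    (hc5 : 9 / (8 * π) < s1 + s2 + ((k : ℝ) - 3) * s3 + si)
    (hG : gramLow s1 s2 s3 si ≤ G) :
    a ≤ 3 / 4 * √G / (((k : ℝ) - 2) / ((k : ℝ) - 1) + 2 / 3) ^ 2 := by
  have hk5 : (5 : ℝ) ≤ k := by exact_mod_cast hk
  set N := ((k : ℝ) - 2) / ((k : ℝ) - 1) + 2 / 3 with hNdef
  have hN : 0 < N := by
    have : 0 ≤ ((k : ℝ) - 2) / ((k : ℝ) - 1) := div_nonneg (by linarith) (by linarith)
    linarith
  have hsq : ∀ e : ℝ, a ≤ e → si ≤ 2 * e ^ 2 := fun e he => by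
    have := pow_le_pow_left₀ ha he 2; linarith
  have key : ∀ e B : ℝ, a ≤ e → N ≤ B → e ≤ 364 / 10000 →
      (4 / 3 * e * B ^ 2) ^ 2 ≤ 11 / 1000 → a ≤ 3 / 4 * √G / N ^ 2 := fun e B he hB he' ht =>
    area_le_of_target ha he hN hB (ht.trans ((gramLow_ge h3 h32 h21 h1
      ((hsq _ (he.trans he')).trans (by norm_num)) hc).trans hG))
  rcases le_or_gt k 8 with h8 | h8
  · interval_cases k <;> norm_num [areaWide] at hak <;> norm_num at hNdef
    · refine area_le_of_target ha hak hN (B := 17 / 12) hNdef.le ?_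
      refine le_trans (by norm_num) ((gramLow_ge_five h3 h32 h21 ?_ ?_).trans hG)
      · have := hsq _ hak; norm_num at this; linarith
      · norm_num at hc5; linarith
    · exact key _ (22 / 15) hak hNdef.le (by norm_num) (by norm_num)
    · exact key _ (3 / 2) hak hNdef.le (by norm_num) (by norm_num)
    · exact key _ (32 / 21) hak hNdef.le (by norm_num) (by norm_num)
  · have hcut : areaWide k = 283 / 10000 := by
      unfold areaWide; repeat' split_ifs <;> first | omega | rfl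
    rw [hcut] at hak
    refine key _ (5 / 3) hak ?_ (by norm_num) (by norm_num)
    have : ((k : ℝ) - 2) / ((k : ℝ) - 1) ≤ 1 := by
      rw [div_le_one (by linarith)]; linarith
    linarith

end Vale.Agent.P226
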