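import Vale.Agent.P226.Tools

/-! Partitions: merging, selection cells of a vector configuration, moving to a fixed dimension. -/

open MeasureTheory Set Filter Real ProbabilityTheory
open scoped Topology RealInnerProductSpace NNReal

namespace Vale.Agent.P226

variable {d : ℕ}

/-- The Gaussian first moment. -/
noncomputable def mom (A : Set (EuclideanSpace ℝ (Fin d))) : EuclideanSpace ℝ (Fin d) :=
  ∫ x in A, x ∂gam d

/-- The propeller functional. -/
noncomputable def functional {ι : Type*} [Fintype ι]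
    (A : ι → Set (EuclideanSpace ℝ (Fin d))) : ℝ :=
  ∑ i, ‖mom (A i)‖ ^ 2

/-- A measurable partition. -/
structure IsPart {ι : Type*} (A : ι → Set (EuclideanSpace ℝ (Fin d))) : Prop where
  meas : ∀ i, MeasurableSet (A i)
  disj : Pairwise fun i j => Disjoint (A i) (A j)
  cover : ⋃ i, A i = univ

lemma functional_nonneg {ι : Type*} [Fintype ι] (A : ι → Set (EuclideanSpace ℝ (Fin d))) :
    0 ≤ functional A :=
  Finset.sum_nonneg fun i _ => by positivity

lemma mom_congr {A B : Set (EuclideanSpace ℝ (Fin d))} (h : A =ᵐ[gam d] B) : mom A = mom B :=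
  setIntegral_congr_set h

lemma IsPart.sum_mom {ι : Type*} [Fintype ι] {A : ι → Set (EuclideanSpace ℝ (Fin d))}
    (hA : IsPart A) : ∑ i, mom (A i) = 0 := by
  simp only [mom]
  rw [← integral_iUnion_fintype hA.meas hA.disj (fun i => integrable_id_std.integrableOn), hA.cover,
    setIntegral_univ]
  exact integral_id_stdGaussian

lemma IsPart.sum_measure {ι : Type*} [Fintype ι] {A : ι → Set (EuclideanSpace ℝ (Fin d))}
    (hA : IsPart A) : ∑ i, (gam d).real (A i) = 1 := by
  rw [← measureReal_iUnion_fintype hA.disj hA.meas, hA.cover, probReal_univ]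

/-- The maximum of the linear functionals of a configuration. -/
noncomputable def maxForm {ι : Type*} [Fintype ι] [Nonempty ι]
    (v : ι → EuclideanSpace ℝ (Fin d)) (x : EuclideanSpace ℝ (Fin d)) : ℝ :=
  Finset.univ.sup' Finset.univ_nonempty fun i => ⟪v i, x⟫

section

variable {ι : Type*} [Fintype ι] [Nonempty ι] (v : ι → EuclideanSpace ℝ (Fin d))

lemma le_maxForm (i : ι) (x : EuclideanSpace ℝ (Fin d)) : ⟪v i, x⟫ ≤ maxForm v x :=
  Finset.le_sup' (fun i => ⟪v i, x⟫) (Finset.mem_univ i)

lemma exists_maxForm (x : EuclideanSpace ℝ (Fin d)) : ∃ i, maxForm v x = ⟪v i, x⟫ := by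
  obtain ⟨i, _, h⟩ := Finset.exists_mem_eq_sup' Finset.univ_nonempty (fun i => ⟪v i, x⟫)
  exact ⟨i, h⟩

lemma continuous_maxForm : Continuous (maxForm v) :=
  Continuous.finset_sup'_apply Finset.univ_nonempty fun i _ => by fun_prop

lemma abs_maxForm_le (x : EuclideanSpace ℝ (Fin d)) : |maxForm v x| ≤ ∑ i, |⟪v i, x⟫| := by
  obtain ⟨i, hi⟩ := exists_maxForm v x
  rw [hi]
  exact Finset.single_le_sum (f := fun i => |⟪v i, x⟫|) (fun j _ => abs_nonneg _) (Finset.mem_univ i)

lemma integrable_maxForm : Integrable (maxForm v) (gam d) := by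
  have hs : Integrable (fun x => ∑ i, |⟪v i, x⟫|) (gam d) :=
    integrable_finsetSum _ fun i _ => (integrable_inner (v i)).abs
  refine hs.mono'
    (continuous_maxForm v).aestronglyMeasurable (Eventually.of_forall fun x => ?_)
  exact abs_maxForm_le v x

omit [Nonempty ι] in
lemma setIntegral_inner_eq (w : EuclideanSpace ℝ (Fin d)) (s : Set (EuclideanSpace ℝ (Fin d))) :
    ∫ x in s, ⟪w, x⟫ ∂gam d = ⟪w, mom s⟫ :=
  integral_inner integrable_id_std.integrableOn w

/-- A partition realising the maximum. -/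
lemma exists_cells : ∃ B : ι → Set (EuclideanSpace ℝ (Fin d)), IsPart B ∧
    (∫ x, maxForm v x ∂gam d) ^ 2 ≤ (∑ i, ‖v i‖ ^ 2) * functional B := by
  classical
  let e := Fintype.equivFin ι
  let B : ι → Set (EuclideanSpace ℝ (Fin d)) := fun i =>
    {x | ∀ m, ⟪v m, x⟫ < ⟪v i, x⟫ ∨ (⟪v m, x⟫ ≤ ⟪v i, x⟫ ∧ e i ≤ e m)}
  have hmeas : ∀ i, MeasurableSet (B i) := by
    intro i
    simp only [B, Set.ofPred_forall]
    refine MeasurableSet.iInter fun m => ?_
    have hm : ∀ j, Measurable fun x : EuclideanSpace ℝ (Fin d) => ⟪v j, x⟫ := fun j => by fun_prop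
    by_cases he : e i ≤ e m
    · simp only [he, and_true]
      exact (measurableSet_lt (hm m) (hm i)).union (measurableSet_le (hm m) (hm i))
    · simp only [he, and_false, or_false]
      exact measurableSet_lt (hm m) (hm i)
  have hdisj : Pairwise fun i j => Disjoint (B i) (B j) := by
    intro i j hij
    rw [Set.disjoint_left]
    intro x hi hj
    rcases hi j with h1 | ⟨h1, h1'⟩ <;> rcases hj i with h2 | ⟨h2, h2'⟩
    · linarith
    · linarith
    · linarith
    · exact hij (e.injective (le_antisymm h1' h2'))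
  have hcover : ⋃ i, B i = univ := by
    refine eq_univ_of_forall fun x => ?_
    obtain ⟨i0, h0⟩ := exists_maxForm v x
    have hne : (Finset.univ.filter fun i => ⟪v i, x⟫ = maxForm v x).Nonempty :=
      ⟨i0, Finset.mem_filter.2 ⟨Finset.mem_univ _, h0.symm⟩⟩
    obtain ⟨i, hi, hmin⟩ := Finset.exists_min_image _ e hne
    refine mem_iUnion.2 ⟨i, fun m => ?_⟩
    rw [Finset.mem_filter] at hi
    rcases lt_or_eq_of_le (le_maxForm v m x) with h | h
    · left; rw [hi.2]; exact h
    · right
      exact ⟨by rw [hi.2, h], hmin m (Finset.mem_filter.2 ⟨Finset.mem_univ _, h⟩)⟩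
  refine ⟨B, ⟨hmeas, hdisj, hcover⟩, ?_⟩
  have hE : ∫ x, maxForm v x ∂gam d = ∑ i, ⟪v i, mom (B i)⟫ := by
    rw [← setIntegral_univ, ← hcover,
      integral_iUnion_fintype hmeas hdisj fun i => (integrable_maxForm v).integrableOn]
    refine Finset.sum_congr rfl fun i _ => ?_
    rw [← setIntegral_inner_eq]
    refine setIntegral_congr_fun (hmeas i) fun x hx => ?_
    obtain ⟨j, hj⟩ := exists_maxForm v x
    refine le_antisymm ?_ (le_maxForm v i x)
    rw [hj]
    rcases hx j with h | h
    · exact h.le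
    · exact h.1
  have habs : |∑ i, ⟪v i, mom (B i)⟫| ≤ ∑ i, ‖v i‖ * ‖mom (B i)‖ :=
    (Finset.abs_sum_le_sum_abs _ _).trans
      (Finset.sum_le_sum fun i _ => abs_real_inner_le_norm _ _)
  rw [hE, ← sq_abs]
  exact (pow_le_pow_left₀ (abs_nonneg _) habs 2).trans
    (Finset.sum_mul_sq_le_sq_mul_sq Finset.univ (fun i => ‖v i‖) fun i => ‖mom (B i)‖)

lemma inner_sum_le_maxForm {A : ι → Set (EuclideanSpace ℝ (Fin d))} (hA : IsPart A) :
    ∑ i, ⟪v i, mom (A i)⟫ ≤ ∫ x, maxForm v x ∂gam d := by
  rw [← setIntegral_univ, ← hA.cover,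
    integral_iUnion_fintype hA.meas hA.disj fun i => (integrable_maxForm v).integrableOn]
  refine Finset.sum_le_sum fun i _ => ?_
  rw [← setIntegral_inner_eq]
  exact setIntegral_mono_on (integrable_inner _).integrableOn (integrable_maxForm v).integrableOn
    (hA.meas i) fun x _ => le_maxForm v i x

/-- Configurations with the same Gram matrix have the same expected maximum. -/
lemma integral_maxForm_congr {D : ℕ} (w : ι → EuclideanSpace ℝ (Fin D))
    (h : ∀ i j, ⟪w i, w j⟫ = ⟪v i, v j⟫) :
    ∫ x, maxForm w x ∂gam D = ∫ x, maxForm v x ∂gam d := by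
  have law : ∀ (n : ℕ) (u : ι → EuclideanSpace ℝ (Fin n)) (t : EuclideanSpace ℝ ι),
      charFun ((gam n).map fun x => WithLp.toLp 2 fun i => ⟪u i, x⟫) t
        = charFun (gam n) (∑ i, t i • u i) := by
    intro n u t
    rw [charFun_apply, charFun_apply, integral_map (by fun_prop) (by fun_prop)]
    congr 1
    funext x
    congr 3
    simp [PiLp.inner_apply, inner_sum, real_inner_comm x, Finset.mul_sum, mul_assoc]
  have hnorm : ∀ t : EuclideanSpace ℝ ι, ‖∑ i, t i • w i‖ = ‖∑ i, t i • v i‖ := by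
    intro t
    have e : ⟪∑ i, t i • w i, ∑ i, t i • w i⟫ = ⟪∑ i, t i • v i, ∑ i, t i • v i⟫ := by
      simp only [sum_inner, inner_sum, real_inner_smul_left, real_inner_smul_right, h]
    rw [real_inner_self_eq_norm_sq, real_inner_self_eq_norm_sq] at e
    exact (sq_eq_sq₀ (norm_nonneg _) (norm_nonneg _)).1 e
  have heq : ((gam D).map fun x => WithLp.toLp 2 fun i => ⟪w i, x⟫)
      = ((gam d).map fun x => WithLp.toLp 2 fun i => ⟪v i, x⟫) := by
    have : IsProbabilityMeasure ((gam D).map fun x => WithLp.toLp 2 fun i => ⟪w i, x⟫) :=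
      Measure.isProbabilityMeasure_map (by fun_prop)
    have : IsProbabilityMeasure ((gam d).map fun x => WithLp.toLp 2 fun i => ⟪v i, x⟫) :=
      Measure.isProbabilityMeasure_map (by fun_prop)
    refine Measure.ext_of_charFun (funext fun t => ?_)
    rw [law D w t, law d v t, charFun_stdGaussian, charFun_stdGaussian, hnorm]
  have hf : Continuous fun y : EuclideanSpace ℝ ι =>
      Finset.univ.sup' Finset.univ_nonempty fun i => y i :=
    Continuous.finset_sup'_apply Finset.univ_nonempty fun i _ => by fun_prop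
  have e : ∀ (n : ℕ) (u : ι → EuclideanSpace ℝ (Fin n)), ∫ x, maxForm u x ∂gam n
      = ∫ y, (Finset.univ.sup' Finset.univ_nonempty fun i => y i)
          ∂((gam n).map fun x => WithLp.toLp 2 fun i => ⟪u i, x⟫) := by
    intro n u
    rw [integral_map (by fun_prop) hf.aestronglyMeasurable]
    rfl
  rw [e D w, e d v, heq]

omit [Nonempty ι] in
/-- A configuration of at most `D` vectors is isometric to one in `ℝ^D`. -/
lemma exists_gram_copy {D : ℕ} (hD : Fintype.card ι ≤ D) :
    ∃ w : ι → EuclideanSpace ℝ (Fin D), ∀ i j, ⟪w i, w j⟫ = ⟪v i, v j⟫ := by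
  classical
  set U := Submodule.span ℝ (Set.range v) with hU
  have hr : Module.finrank ℝ U ≤ D := (finrank_range_le_card v).trans hD
  let b := stdOrthonormalBasis ℝ U
  let f : Fin (Module.finrank ℝ U) → Fin D := Fin.castLE hr
  have hon : Orthonormal ℝ (fun m => EuclideanSpace.basisFun (Fin D) ℝ (f m)) :=
    (EuclideanSpace.basisFun (Fin D) ℝ).orthonormal.comp f (Fin.castLE_injective hr)
  refine ⟨fun i => ∑ m, ⟪(b m : EuclideanSpace ℝ (Fin d)), v i⟫ •
    EuclideanSpace.basisFun (Fin D) ℝ (f m), fun i j => ?_⟩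
  rw [hon.inner_sum]
  have hv : ∀ i, v i ∈ U := fun i => Submodule.subset_span ⟨i, rfl⟩
  have := b.sum_inner_mul_inner ⟨v i, hv i⟩ ⟨v j, hv j⟩
  simp only [Submodule.coe_inner] at this
  rw [← this]
  refine Finset.sum_congr rfl fun m _ => ?_
  simp [real_inner_comm (v i)]

end

/-- Moving a configuration to `ℝ^D` and to exactly `D` cells. -/
lemma exists_cells_fin {ι : Type*} [Fintype ι] [Nonempty ι] (v : ι → EuclideanSpace ℝ (Fin d))
    {D : ℕ} (hD : Fintype.card ι ≤ D) :
    ∃ B : Fin D → Set (EuclideanSpace ℝ (Fin D)), IsPart B ∧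
      (∫ x, maxForm v x ∂gam d) ^ 2 ≤ (∑ i, ‖v i‖ ^ 2) * functional B := by
  classical
  obtain ⟨w, hw⟩ := exists_gram_copy v hD
  obtain ⟨C, hC, hCE⟩ := exists_cells w
  rw [integral_maxForm_congr v w hw] at hCE
  have hn : ∀ i, ‖w i‖ ^ 2 = ‖v i‖ ^ 2 := fun i => by
    rw [← real_inner_self_eq_norm_sq, ← real_inner_self_eq_norm_sq, hw]
  simp only [hn] at hCE
  obtain ⟨emb⟩ := Function.Embedding.nonempty_of_card_le (α := ι) (β := Fin D) (by simpa using hD)
  refine ⟨Function.extend emb C fun _ => ∅, ⟨fun m => ?_, fun m m' hm => ?_, ?_⟩, hCE.trans_eq ?_⟩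
  · by_cases h : ∃ i, emb i = m
    · obtain ⟨i, rfl⟩ := h
      rw [emb.injective.extend_apply]; exact hC.meas i
    · rw [Function.extend_apply' _ _ _ h]; exact MeasurableSet.empty
  · by_cases h : ∃ i, emb i = m
    · by_cases h' : ∃ i, emb i = m'
      · obtain ⟨i, rfl⟩ := h
        obtain ⟨j, rfl⟩ := h'
        simp only [emb.injective.extend_apply]
        exact hC.disj fun c => hm (congrArg emb c)
      · simp [Function.extend_apply' _ _ _ h']
    · simp [Function.extend_apply' _ _ _ h]
  · refine eq_univ_of_forall fun x => ?_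
    obtain ⟨i, hi⟩ := mem_iUnion.1 (hC.cover.symm ▸ mem_univ x)
    exact mem_iUnion.2 ⟨emb i, by rwa [emb.injective.extend_apply]⟩
  · congr 1
    simp only [functional]
    rw [← Finset.sum_subset (Finset.subset_univ (Finset.univ.map emb))]
    · rw [Finset.sum_map]
      exact Finset.sum_congr rfl fun i _ => by rw [emb.injective.extend_apply]
    · intro m _ hm
      rw [Function.extend_apply' _ _ _ (by simpa using hm)]
      simp [mom]

/-- Merging two cells with nonnegative inner product does not decrease the functional. -/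
lemma IsPart.merge {ι : Type*} [Fintype ι] [DecidableEq ι]
    {A : ι → Set (EuclideanSpace ℝ (Fin d))} (hA : IsPart A) {i j : ι} (hij : i ≠ j)
    (h : 0 ≤ ⟪mom (A i), mom (A j)⟫) :
    ∃ B : {l // l ≠ j} → Set (EuclideanSpace ℝ (Fin d)), IsPart B ∧ functional A ≤ functional B := by
  let B : {l // l ≠ j} → Set (EuclideanSpace ℝ (Fin d)) :=
    fun l => if l.1 = i then A i ∪ A j else A l.1
  have hB : IsPart B := by
    refine ⟨fun l => ?_, fun l m hlm => ?_, ?_⟩
    · simp only [B]; split_ifs
      exacts [(hA.meas i).union (hA.meas j), hA.meas _]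
    · simp only [B]
      have hne : l.1 ≠ m.1 := fun c => hlm (Subtype.ext c)
      split_ifs with h1 h2 h2
      · exact absurd (h1.trans h2.symm) hne
      · exact Disjoint.union_left (hA.disj fun c => h2 c.symm) (hA.disj fun c => m.2 c.symm)
      · exact Disjoint.union_right (hA.disj h1) (hA.disj l.2)
      · exact hA.disj hne
    · refine eq_univ_of_forall fun x => ?_
      obtain ⟨l, hl⟩ := mem_iUnion.1 (hA.cover.symm ▸ mem_univ x)
      by_cases hlj : l = j
      · exact mem_iUnion.2 ⟨⟨i, hij⟩, by simp only [B, ↓reduceIte]; exact Or.inr (hlj ▸ hl)⟩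
      · refine mem_iUnion.2 ⟨⟨l, hlj⟩, ?_⟩
        simp only [B]; split_ifs with h1
        · exact Or.inl (h1 ▸ hl)
        · exact hl
  refine ⟨B, hB, ?_⟩
  have hu : mom (A i ∪ A j) = mom (A i) + mom (A j) :=
    setIntegral_union (hA.disj hij) (hA.meas j) integrable_id_std.integrableOn
      integrable_id_std.integrableOn
  simp only [functional]
  rw [← Finset.add_sum_erase _ _ (Finset.mem_univ j),
    Finset.sum_subtype (Finset.univ.erase j) (p := fun l => l ≠ j) (fun l => by simp)]
  rw [← Finset.add_sum_erase _ (fun l : {l // l ≠ j} => ‖mom (A l.1)‖ ^ 2)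
      (Finset.mem_univ ⟨i, hij⟩),
    ← Finset.add_sum_erase _ (fun l : {l // l ≠ j} => ‖mom (B l)‖ ^ 2) (Finset.mem_univ ⟨i, hij⟩)]
  have hrest : ∀ l ∈ (Finset.univ.erase (⟨i, hij⟩ : {l // l ≠ j})),
      ‖mom (B l)‖ ^ 2 = ‖mom (A l.1)‖ ^ 2 := by
    intro l hl
    simp only [B, if_neg (fun c : l.1 = i => (Finset.ne_of_mem_erase hl) (Subtype.ext c))]
  rw [Finset.sum_congr rfl hrest]
  simp only [B, ↓reduceIte, hu, norm_add_sq_real]
  linarith

/-- Any disjoint family gives a partition with one more cell and no smaller functional. -/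
lemma exists_isPart_extend {k : ℕ} (A : Fin k → Set (EuclideanSpace ℝ (Fin d)))
    (hA : ∀ i, MeasurableSet (A i)) (hd : Pairwise fun i j => AEDisjoint (gam d) (A i) (A j)) :
    ∃ B : Fin (k + 1) → Set (EuclideanSpace ℝ (Fin d)), IsPart B ∧ functional A ≤ functional B := by
  classical
  let A' : Fin k → Set (EuclideanSpace ℝ (Fin d)) := fun i => A i \ ⋃ m ∈ Finset.Iio i, A m
  have hm' : ∀ i, MeasurableSet (A' i) := fun i =>
    (hA i).diff (Finset.measurableSet_biUnion _ fun m _ => hA m)
  have hd' : Pairwise fun i j => Disjoint (A' i) (A' j) := by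
    intro i j hij
    rw [Set.disjoint_left]
    rintro x ⟨hi, hi'⟩ ⟨hj, hj'⟩
    rcases lt_or_gt_of_ne hij with h | h
    · exact hj' (mem_iUnion₂.2 ⟨i, Finset.mem_Iio.2 h, hi⟩)
    · exact hi' (mem_iUnion₂.2 ⟨j, Finset.mem_Iio.2 h, hj⟩)
  have hae : ∀ i, A' i =ᵐ[gam d] A i := by
    intro i
    refine ae_eq_set.2 ⟨?_, ?_⟩
    · refine measure_mono_null (fun x hx => absurd hx.1.1 hx.2) measure_empty
    · refine measure_mono_null (t := ⋃ m ∈ Finset.Iio i, A i ∩ A m) ?_ ?_
      · intro x hx
        simp only [A', Set.mem_sdiff, not_and, not_not] at hx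
        obtain ⟨m, hm, hxm⟩ := mem_iUnion₂.1 (hx.2 hx.1)
        exact mem_iUnion₂.2 ⟨m, hm, hx.1, hxm⟩
      · refine (measure_biUnion_null_iff (Finset.countable_toSet _)).2 fun m hm => ?_
        exact hd (ne_of_gt (Finset.mem_Iio.1 hm))
  let B : Fin (k + 1) → Set (EuclideanSpace ℝ (Fin d)) := Fin.snoc A' (⋃ i, A' i)ᶜ
  refine ⟨B, ⟨fun i => ?_, fun i j hij => ?_, ?_⟩, ?_⟩
  · induction i using Fin.lastCases with
    | last => simp only [B, Fin.snoc_last]; exact (MeasurableSet.iUnion hm').compl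
    | cast i => simp only [B, Fin.snoc_castSucc]; exact hm' i
  · induction i using Fin.lastCases with
    | last =>
      induction j using Fin.lastCases with
      | last => exact absurd rfl hij
      | cast j =>
        simp only [B, Fin.snoc_last, Fin.snoc_castSucc]
        exact disjoint_compl_left.mono_right (subset_iUnion A' j)
    | cast i =>
      induction j using Fin.lastCases with
      | last =>
        simp only [B, Fin.snoc_last, Fin.snoc_castSucc]
        exact disjoint_compl_right.mono_left (subset_iUnion A' i)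
      | cast j =>
        simp only [B, Fin.snoc_castSucc]
        exact hd' fun c => hij (congrArg Fin.castSucc c)
  · refine eq_univ_of_forall fun x => ?_
    by_cases hx : x ∈ ⋃ i, A' i
    · obtain ⟨i, hi⟩ := mem_iUnion.1 hx
      exact mem_iUnion.2 ⟨i.castSucc, by simpa [B] using hi⟩
    · exact mem_iUnion.2 ⟨Fin.last k, by simpa [B] using hx⟩
  · simp only [functional, Fin.sum_univ_castSucc, B, Fin.snoc_castSucc, Fin.snoc_last]
    have : ∀ i, mom (A i) = mom (A' i) := fun i => mom_congr (hae i).symm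
    simp only [this]
    linarith [sq_nonneg ‖mom (⋃ i, A' i)ᶜ‖]

end Vale.Agent.P226
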