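import Vale.Agent.P226.Deletion

/-! Analytic estimates for the reduction of the propeller problem. -/

open MeasureTheory Set Filter Real ProbabilityTheory
open scoped Topology RealInnerProductSpace NNReal

namespace Vale.Agent.P226

variable {d : ℕ}

lemma mul_pow_six_le {a b : ℝ} (ha : 0 ≤ a) : a * b ^ 6 ≤ 1 + a ^ 8 + b ^ 8 := by
  have hb6 : 0 ≤ b ^ 6 := by positivity
  have hb8 : 0 ≤ b ^ 8 := by positivity
  have ha8 : 0 ≤ a ^ 8 := by positivity
  set m := max a |b|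
  have hm : a * b ^ 6 ≤ m ^ 7 := by
    have h1 : b ^ 6 ≤ m ^ 6 := by
      rw [show b ^ 6 = |b| ^ 6 by rw [show 6 = 2 * 3 from rfl, pow_mul, pow_mul, sq_abs]]
      exact pow_le_pow_left₀ (abs_nonneg b) (le_max_right _ _) 6
    calc a * b ^ 6 ≤ m * m ^ 6 :=
          mul_le_mul (le_max_left _ _) h1 hb6 (ha.trans (le_max_left _ _))
      _ = m ^ 7 := by ring
  have hm8 : m ^ 8 ≤ a ^ 8 + b ^ 8 := by
    rcases max_cases a |b| with ⟨h, _⟩ | ⟨h, _⟩
    · simp only [m, h]; linarith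
    · simp only [m, h]
      rw [show |b| ^ 8 = b ^ 8 by rw [show 8 = 2 * 4 from rfl, pow_mul, pow_mul, sq_abs]]
      linarith
  rcases le_or_gt m 1 with h | h
  · have h0 : (0 : ℝ) ≤ m := ha.trans (le_max_left _ _)
    have : m ^ 7 ≤ 1 := pow_le_one₀ h0 h
    linarith
  · have : m ^ 7 ≤ m ^ 8 := pow_le_pow_right₀ h.le (by norm_num)
    linarith

/-- `∫ G_i⁺ |T| ≤ L ∫ G_i⁺ + (moment term)`, restricted to an event. -/
lemma integral_weight_abs_le {e v : EuclideanSpace ℝ (Fin d)} {σ V L : ℝ} (hσ : 0 < σ)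
    (he : ‖e‖ = 1) (hV : 0 < V) (hv : ‖v‖ ^ 2 ≤ V) (hL : 0 < L)
    {s : Set (EuclideanSpace ℝ (Fin d))} (hs : MeasurableSet s) :
    Integrable (s.indicator fun x => max (σ * ⟪e, x⟫) 0 * |⟪v, x⟫|) (gam d) ∧
    ∫ x, s.indicator (fun x => max (σ * ⟪e, x⟫) 0 * |⟪v, x⟫|) x ∂gam d ≤
      L * σ * (∫ x, s.indicator (fun x => max ⟪e, x⟫ 0 * (1 + max ⟪e, x⟫ 0)) x ∂gam d)
        + σ * V ^ 3 / L ^ 5 * (1 + 2 * eighth) := by
  have hw : Integrable (fun x => max ⟪e, x⟫ 0 * (1 + max ⟪e, x⟫ 0)) (gam d) := by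
    have h := integrable_weight
    rw [← map_inner_unit he, integrable_map_measure (by fun_prop) (by fun_prop)] at h
    exact h
  obtain ⟨hie, hee⟩ := integral_inner_eighth (d := d) e
  obtain ⟨hiv, hev⟩ := integral_inner_eighth (d := d) v
  rw [he, one_pow, one_mul] at hee
  have hbound : ∀ x, s.indicator (fun x => max (σ * ⟪e, x⟫) 0 * |⟪v, x⟫|) x ≤
      L * σ * s.indicator (fun x => max ⟪e, x⟫ 0 * (1 + max ⟪e, x⟫ 0)) x
        + σ * V ^ 3 / L ^ 5 * (1 + ⟪e, x⟫ ^ 8 + (V ^ 4)⁻¹ * ⟪v, x⟫ ^ 8) := by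
    intro x
    have hrest : 0 ≤ σ * V ^ 3 / L ^ 5 * (1 + ⟪e, x⟫ ^ 8 + (V ^ 4)⁻¹ * ⟪v, x⟫ ^ 8) := by positivity
    by_cases hx : x ∈ s
    · rw [indicator_of_mem hx, indicator_of_mem hx]
      set p := max ⟪e, x⟫ 0
      have hp : 0 ≤ p := le_max_right _ _
      rw [show max (σ * ⟪e, x⟫) 0 = σ * p by rw [mul_max_of_nonneg _ _ hσ.le, mul_zero]]
      have hp8 : p ^ 8 ≤ ⟪e, x⟫ ^ 8 := by
        rcases le_total 0 ⟪e, x⟫ with h | h
        · simp [p, max_eq_left h]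
        · simp only [p, max_eq_right h]
          rw [zero_pow (by norm_num)]
          exact Even.pow_nonneg (by norm_num) _
      have hw1 : p ≤ p * (1 + p) := le_mul_of_one_le_right hp (by linarith)
      set T := |⟪v, x⟫|
      have hT : 0 ≤ T := abs_nonneg _
      rcases le_or_gt T L with h | h
      · have : σ * p * T ≤ L * σ * (p * (1 + p)) := by
          calc σ * p * T ≤ σ * p * L := by gcongr
            _ = L * σ * p := by ring
            _ ≤ _ := by gcongr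
        linarith
      · have h1 : σ * p * T ≤ σ / L ^ 5 * (p * T ^ 6) := by
          rw [div_mul_eq_mul_div, le_div_iff₀ (by positivity)]
          calc σ * p * T * L ^ 5 ≤ σ * p * T * T ^ 5 := by gcongr
            _ = σ * (p * T ^ 6) := by ring
        have hsv : 0 < √V := sqrt_pos.2 hV
        have hV2 : √V ^ 2 = V := sq_sqrt hV.le
        have h2 : p * T ^ 6 ≤ V ^ 3 * (1 + ⟪e, x⟫ ^ 8 + (V ^ 4)⁻¹ * ⟪v, x⟫ ^ 8) := by
          have := mul_pow_six_le (b := T / √V) hp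
          have e6 : T ^ 6 = V ^ 3 * (T / √V) ^ 6 := by
            rw [div_pow, show √V ^ 6 = (√V ^ 2) ^ 3 by ring, hV2]; field_simp
          have e8 : (T / √V) ^ 8 = (V ^ 4)⁻¹ * ⟪v, x⟫ ^ 8 := by
            rw [div_pow, show √V ^ 8 = (√V ^ 2) ^ 4 by ring, hV2,
              show T ^ 8 = ⟪v, x⟫ ^ 8 by
                simp only [T]; rw [show 8 = 2 * 4 from rfl, pow_mul, pow_mul, sq_abs], div_eq_inv_mul]
          rw [e8] at this
          rw [e6, ← mul_assoc, mul_comm p, mul_assoc]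
          gcongr
          linarith
        have h3 : σ * p * T ≤ σ * V ^ 3 / L ^ 5 * (1 + ⟪e, x⟫ ^ 8 + (V ^ 4)⁻¹ * ⟪v, x⟫ ^ 8) := by
          refine h1.trans ((mul_le_mul_of_nonneg_left h2 (by positivity)).trans (le_of_eq ?_))
          ring
        have : 0 ≤ L * σ * (p * (1 + p)) := by positivity
        linarith
    · rw [indicator_of_notMem hx, indicator_of_notMem hx, mul_zero, zero_add]
      exact hrest
  have hrI : Integrable (fun x => L * σ * s.indicator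
      (fun x => max ⟪e, x⟫ 0 * (1 + max ⟪e, x⟫ 0)) x
      + σ * V ^ 3 / L ^ 5 * (1 + ⟪e, x⟫ ^ 8 + (V ^ 4)⁻¹ * ⟪v, x⟫ ^ 8)) (gam d) :=
    ((hw.indicator hs).const_mul _).add
      ((((integrable_const (1 : ℝ)).add hie).add (hiv.const_mul _)).const_mul _)
  have hpos : ∀ x, 0 ≤ s.indicator (fun x => max (σ * ⟪e, x⟫) 0 * |⟪v, x⟫|) x :=
    fun x => indicator_nonneg (fun y _ => by positivity) x
  have hI : Integrable (s.indicator fun x => max (σ * ⟪e, x⟫) 0 * |⟪v, x⟫|) (gam d) := by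
    refine hrI.mono' (AEStronglyMeasurable.indicator (by fun_prop) hs)
      (Eventually.of_forall fun x => ?_)
    rw [Real.norm_eq_abs, abs_of_nonneg (hpos x)]
    exact hbound x
  refine ⟨hI, (integral_mono hI hrI hbound).trans ?_⟩
  have hB : Integrable (fun x => σ * V ^ 3 / L ^ 5 *
      (1 + ⟪e, x⟫ ^ 8 + (V ^ 4)⁻¹ * ⟪v, x⟫ ^ 8)) (gam d) :=
    (((integrable_const (1 : ℝ)).add hie).add (hiv.const_mul _)).const_mul _
  rw [integral_add ((hw.indicator hs).const_mul _) hB, integral_const_mul, integral_const_mul]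
  refine add_le_add le_rfl (mul_le_mul_of_nonneg_left ?_ (by positivity))
  rw [integral_add (show Integrable (fun x => 1 + ⟪e, x⟫ ^ 8) (gam d) from (integrable_const (1:ℝ)).add hie)
      (hiv.const_mul _), integral_add (integrable_const (1 : ℝ)) hie,
    integral_const_mul, integral_const, smul_eq_mul, probReal_univ, one_mul, hee, hev]
  have h8 : ‖v‖ ^ 8 ≤ V ^ 4 := by
    rw [show ‖v‖ ^ 8 = (‖v‖ ^ 2) ^ 4 by ring]; exact pow_le_pow_left₀ (sq_nonneg _) hv 4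
  have : (V ^ 4)⁻¹ * (‖v‖ ^ 8 * eighth) ≤ eighth := by
    rw [← mul_assoc, inv_mul_eq_div]
    exact mul_le_of_le_one_left eighth_nonneg ((div_le_one (by positivity)).2 h8)
  linarith

/-- The thresholds needed for a deletion. -/
def GoodSize (n : ℕ) : Prop :=
  (n : ℝ) ^ (13 / 20 : ℝ) * decay (11 / 10) n ≤ 1 / 10 ^ 24 ∧
  (4096 * (1 + 2 * eighth)) * (n : ℝ) ^ (-(1 / 4) : ℝ) ≤ 1 / 10 ^ 5 ∧
  ∀ m : ℕ, √(n : ℝ) ≤ (m : ℝ) → (m : ℝ) * decay (11 / 40) m ≤ 1 / 10 ^ 5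

lemma eventually_goodSize : ∀ᶠ n : ℕ in atTop, GoodSize n := by
  have h1 : Tendsto (fun n : ℕ => (n : ℝ) ^ (13 / 20 : ℝ) * decay (11 / 10) n) atTop (𝓝 0) :=
    tendsto_rpow_mul_decay (θ := 73 / 100) (by norm_num) (by norm_num) (by norm_num) (by norm_num)
  have h2 : Tendsto (fun n : ℕ => (n : ℝ) ^ (1 : ℝ) * decay (11 / 40) n) atTop (𝓝 0) :=
    tendsto_rpow_mul_decay (θ := 3 / 2) (by norm_num) (by norm_num) (by norm_num) (by norm_num)
  have h3 : Tendsto (fun n : ℕ => (4096 * (1 + 2 * eighth)) * (n : ℝ) ^ (-(1 / 4) : ℝ))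
      atTop (𝓝 0) := by
    have := ((tendsto_rpow_neg_atTop (y := (1 / 4 : ℝ)) (by norm_num)).comp
      tendsto_natCast_atTop_atTop).const_mul (4096 * (1 + 2 * eighth))
    simpa [Function.comp_def] using this
  obtain ⟨M, hM⟩ := eventually_atTop.1 (h2.eventually_le_const (by norm_num : (0:ℝ) < 1 / 10 ^ 5))
  filter_upwards [h1.eventually_le_const (by norm_num : (0:ℝ) < 1 / 10 ^ 24),
    h3.eventually_le_const (by norm_num : (0:ℝ) < 1 / 10 ^ 5),
    eventually_ge_atTop (M ^ 2)] with n a b c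
  refine ⟨a, b, fun m hm => ?_⟩
  have hMm : M ≤ m := by
    have : (M : ℝ) ≤ √(n : ℝ) := Real.le_sqrt_of_sq_le (by exact_mod_cast c)
    exact_mod_cast this.trans hm
  simpa using hM m hMm

/-- The scalar estimate for the length of the interval. -/
lemma weight_len_le {σ N : ℝ} (hσ : 0 ≤ σ) (hN : 0 ≤ N) (y t : ℝ) :
    max (σ * y) 0 * max ((2 + N) * (σ * y) + t) 0 ≤
      (2 + N) * σ ^ 2 * (max y 0 * (1 + max y 0)) + max (σ * y) 0 * |t| := by
  rcases le_total y 0 with h | h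
  · rw [max_eq_right (mul_nonpos_of_nonneg_of_nonpos hσ h), max_eq_right h]; simp
  · rw [max_eq_left (mul_nonneg hσ h), max_eq_left h]
    have h1 : max ((2 + N) * (σ * y) + t) 0 ≤ (2 + N) * (σ * y) + |t| :=
      max_le (by linarith [le_abs_self t]) (by positivity)
    refine (mul_le_mul_of_nonneg_left h1 (mul_nonneg hσ h)).trans ?_
    have : 0 ≤ (2 + N) * σ ^ 2 * y := by positivity
    linarith

/-- Some cell of a configuration above `1/3` is not short. -/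
lemma longest_not_short {ι : Type*} [Fintype ι] {z : ι → EuclideanSpace ℝ (Fin d)} {a : ι → ℝ}
    (ha0 : ∀ l, 0 ≤ a l) (ha1 : ∑ l, a l ≤ 1)
    (hzs : ∀ l, ‖z l‖ ^ 2 ≤ 25 * (a l * √(a l))) (hF : 1 / 3 ≤ ∑ l, ‖z l‖ ^ 2)
    {b : ι} (hb : ∀ l, ‖z l‖ ≤ ‖z b‖) : 1 / 360000 ≤ ‖z b‖ ^ 2 := by
  set β : ℝ := (1 / 300) ^ 2 with hβ
  have hsplit := Finset.sum_filter_add_sum_filter_not Finset.univ (fun l => a l < β)
    (fun l => ‖z l‖ ^ 2)
  have hsmall : ∑ l ∈ Finset.univ.filter (fun l => a l < β), ‖z l‖ ^ 2 ≤ 1 / 12 := by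
    calc ∑ l ∈ Finset.univ.filter (fun l => a l < β), ‖z l‖ ^ 2
        ≤ ∑ l ∈ Finset.univ.filter (fun l => a l < β), 1 / 12 * a l := by
          refine Finset.sum_le_sum fun l hl => (hzs l).trans ?_
          have : √(a l) ≤ 1 / 300 := by
            rw [Real.sqrt_le_iff]; exact ⟨by norm_num, (Finset.mem_filter.1 hl).2.le⟩
          nlinarith [ha0 l]
      _ ≤ 1 / 12 * ∑ l, a l := by
          rw [Finset.mul_sum]
          exact Finset.sum_le_sum_of_subset_of_nonneg (Finset.filter_subset _ _)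
            fun l _ _ => mul_nonneg (by norm_num) (ha0 l)
      _ ≤ 1 / 12 := by linarith
  have hbig : ∑ l ∈ Finset.univ.filter (fun l => ¬a l < β), ‖z l‖ ^ 2 ≤ 90000 * ‖z b‖ ^ 2 := by
    set s := Finset.univ.filter (fun l => ¬a l < β) with hs
    have hc : (s.card : ℝ) * β ≤ 1 := by
      calc (s.card : ℝ) * β = ∑ _l ∈ s, β := by simp
        _ ≤ ∑ l ∈ s, a l := Finset.sum_le_sum fun l hl => not_lt.1 (Finset.mem_filter.1 hl).2
        _ ≤ ∑ l, a l := Finset.sum_le_sum_of_subset_of_nonneg (Finset.filter_subset _ _)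
            fun l _ _ => ha0 l
        _ ≤ 1 := ha1
    calc ∑ l ∈ s, ‖z l‖ ^ 2 ≤ ∑ _l ∈ s, ‖z b‖ ^ 2 :=
          Finset.sum_le_sum fun l _ => pow_le_pow_left₀ (norm_nonneg _) (hb l) 2
      _ = (s.card : ℝ) * ‖z b‖ ^ 2 := by simp
      _ ≤ 90000 * ‖z b‖ ^ 2 := by
          gcongr
          rw [hβ] at hc; linarith
  have hall := add_le_add hsmall hbig
  rw [hsplit] at hall
  linarith

end Vale.Agent.P226
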